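import Vale.Agent.P256.Basic

/-!
Conic lifts: linear images of linear matrix inequalities, and their finite sums.
-/

namespace Vale.Agent.P256.Conical

open Matrix

/-- A linear matrix inequality in some real vector space with a linear map to `ℝⁿ`. -/
structure Piece (n : ℕ) where
  U : Type
  σ : Type
  [acg : AddCommGroup U]
  [mod : Module ℝ U]
  [fin : Fintype σ]
  [dec : DecidableEq σ]
  L : U →ₗ[ℝ] (Fin n → ℝ)
  A : U →ₗ[ℝ] Matrix σ σ ℝ
  symm : ∀ u, (A u).IsSymm

attribute [instance] Piece.acg Piece.mod Piece.fin Piece.dec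

variable {n : ℕ}

/-- The projection of a piece. -/
def Piece.set (P : Piece n) : Set (Fin n → ℝ) := {x | ∃ u, (P.A u).PosSemidef ∧ P.L u = x}

theorem Piece.isShadow (P : Piece n) : IsShadow P.set := by
  classical
  let T := P.L.prod P.A
  let b := Module.finBasis ℝ (LinearMap.range T)
  let r := Module.finrank ℝ (LinearMap.range T)
  let ε := Fintype.equivFin (P.σ ⊕ (Fin n ⊕ Fin n))
  let D : (Fin n → ℝ) → Matrix (Fin n ⊕ Fin n) (Fin n ⊕ Fin n) ℝ :=
    fun w => diagonal (Sum.elim w (-w))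
  let Am : Fin n → Matrix (P.σ ⊕ (Fin n ⊕ Fin n)) (P.σ ⊕ (Fin n ⊕ Fin n)) ℝ :=
    fun i => fromBlocks 0 0 0 (D (Pi.single i 1))
  let Bm : Fin r → Matrix (P.σ ⊕ (Fin n ⊕ Fin n)) (P.σ ⊕ (Fin n ⊕ Fin n)) ℝ :=
    fun j => fromBlocks ((b j : (Fin n → ℝ) × Matrix P.σ P.σ ℝ).2) 0 0
      (D (-((b j : (Fin n → ℝ) × Matrix P.σ P.σ ℝ).1)))
  have hDs : ∀ w, (D w).IsSymm := fun w => diagonal_transpose _
  have hB : ∀ j, ((b j : (Fin n → ℝ) × Matrix P.σ P.σ ℝ).2).IsSymm := fun j => by
    obtain ⟨u, hu⟩ := LinearMap.mem_range.1 (b j).2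
    rw [← hu]; exact P.symm u
  refine ⟨_, r, 0, fun i => (Am i).submatrix ε.symm ε.symm, fun j => (Bm j).submatrix ε.symm ε.symm,
    isSymm_zero, fun i => (IsSymm.fromBlocks isSymm_zero (by simp) (hDs _)).submatrix _,
    fun j => (IsSymm.fromBlocks (hB j) (by simp) (hDs _)).submatrix _, ?_⟩
  have key : ∀ (x : Fin n → ℝ) (v : Fin r → ℝ),
      ((0 : Matrix (Fin _) (Fin _) ℝ) + ∑ i, x i • (Am i).submatrix ε.symm ε.symm +
          ∑ j, v j • (Bm j).submatrix ε.symm ε.symm).PosSemidef ↔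
        ((∑ j, v j • (b j : (Fin n → ℝ) × Matrix P.σ P.σ ℝ).2).PosSemidef ∧
          x = ∑ j, v j • (b j : (Fin n → ℝ) × Matrix P.σ P.σ ℝ).1) := by
    intro x v
    have e1 : ∑ i, x i • Am i + ∑ j, v j • Bm j =
        fromBlocks (∑ j, v j • (b j : (Fin n → ℝ) × Matrix P.σ P.σ ℝ).2) 0 0
          (D (x - ∑ j, v j • (b j : (Fin n → ℝ) × Matrix P.σ P.σ ℝ).1)) := by
      ext (a | a) (c | c) <;>
        simp [Am, Bm, D, Matrix.sum_apply, diagonal_apply]
      rcases eq_or_ne a c with rfl | hac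
      · rcases a with a | a <;>
          simp [Pi.single_apply, Finset.sum_neg_distrib] <;> ring
      · simp [hac]
    have e2 : (0 : Matrix (Fin _) (Fin _) ℝ) + ∑ i, x i • (Am i).submatrix ε.symm ε.symm +
        ∑ j, v j • (Bm j).submatrix ε.symm ε.symm =
        (∑ i, x i • Am i + ∑ j, v j • Bm j).submatrix ε.symm ε.symm := by
      ext a c; simp [Matrix.sum_apply]
    rw [e2, Matrix.posSemidef_submatrix_equiv, e1, posSemidef_fromBlocks_diag]
    refine and_congr_right fun _ => ?_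
    rw [posSemidef_diagonal_iff, ← sub_eq_zero (a := x)]
    constructor
    · intro h; funext i
      have h1 := h (Sum.inl i); have h2 := h (Sum.inr i)
      simp at h1 h2 ⊢; linarith
    · intro h i; rw [h]; rcases i with i | i <;> simp
  ext x
  constructor
  · rintro ⟨u, hu, rfl⟩
    obtain ⟨z, hz⟩ : ∃ z : LinearMap.range T, (z : (Fin n → ℝ) × Matrix P.σ P.σ ℝ) = T u :=
      ⟨⟨T u, LinearMap.mem_range_self T u⟩, rfl⟩
    refine ⟨fun j => b.repr z j, (key _ _).2 ?_⟩
    have h := congrArg (Subtype.val) (b.sum_repr z)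
    simp only [Submodule.coe_sum, Submodule.coe_smul, hz] at h
    have h1 := congrArg Prod.fst h
    have h2 := congrArg Prod.snd h
    simp only [Prod.fst_sum, Prod.snd_sum, Prod.smul_fst, Prod.smul_snd, T, LinearMap.prod_apply,
      Pi.prod, Function.prod] at h1 h2
    rw [h1, h2]; exact ⟨hu, rfl⟩
  · rintro ⟨v, hv⟩
    obtain ⟨hpsd, hx⟩ := (key x v).1 hv
    obtain ⟨u, hu⟩ := LinearMap.mem_range.1 (∑ j, v j • b j).2
    simp only [T, LinearMap.prod_apply, Pi.prod, Function.prod, Submodule.coe_sum, Submodule.coe_smul] at hu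
    have h1 := congrArg Prod.fst hu
    have h2 := congrArg Prod.snd hu
    simp only [Prod.fst_sum, Prod.snd_sum, Prod.smul_fst, Prod.smul_snd] at h1 h2
    exact ⟨u, by rw [h2]; exact hpsd, by rw [h1, hx]⟩

theorem posSemidef_blockDiagonal' {κ : Type*} [Fintype κ] [DecidableEq κ] {σ : κ → Type*}
    [∀ i, Fintype (σ i)] {M : ∀ i, Matrix (σ i) (σ i) ℝ} :
    (blockDiagonal' M).PosSemidef ↔ ∀ i, (M i).PosSemidef := by
  classical
  constructor
  · intro h i
    have : (blockDiagonal' M).submatrix (Sigma.mk i) (Sigma.mk i) = M i := by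
      ext a b; simp
    rw [← this]; exact h.submatrix _
  · intro h
    refine posSemidef_iff_real.2 ⟨?_, fun v => ?_⟩
    · rw [IsSymm, blockDiagonal'_transpose]
      exact congrArg _ (funext fun i => (isSymm_of_posSemidef (h i)).eq)
    · rw [dotProduct, Fintype.sum_sigma]
      refine Finset.sum_nonneg fun i _ => ?_
      refine le_of_le_of_eq ((posSemidef_iff_real.1 (h i)).2 fun a => v ⟨i, a⟩) ?_
      refine Finset.sum_congr rfl fun a _ => ?_
      congr 1
      rw [mulVec, dotProduct, mulVec, dotProduct, Fintype.sum_sigma]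
      rw [Finset.sum_eq_single i]
      · simp
      · intro j _ hj
        exact Finset.sum_eq_zero fun b _ => by simp [blockDiagonal'_apply_ne M a b (Ne.symm hj)]
      · simp

/-- The block map of a family of pieces. -/
noncomputable def blockMap {κ : Type} [Fintype κ] [DecidableEq κ] (P : κ → Piece n) :
    (∀ i, (P i).U) →ₗ[ℝ] Matrix (Σ i, (P i).σ) (Σ i, (P i).σ) ℝ where
  toFun u := blockDiagonal' fun i => (P i).A (u i)
  map_add' u v := by
    rw [← blockDiagonal'_add]; congr 1; funext i; simp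
  map_smul' c u := by
    rw [RingHom.id_apply, ← blockDiagonal'_smul]; congr 1; funext i; simp

theorem blockMap_psd {κ : Type} [Fintype κ] [DecidableEq κ] (P : κ → Piece n) (u : ∀ i, (P i).U) :
    (blockMap P u).PosSemidef ↔ ∀ i, ((P i).A (u i)).PosSemidef :=
  posSemidef_blockDiagonal' (σ := fun i => (P i).σ) (M := fun i => (P i).A (u i))

/-- The sum map of a family of pieces. -/
noncomputable def sumMap {κ : Type} [Fintype κ] (P : κ → Piece n) :
    (∀ i, (P i).U) →ₗ[ℝ] (Fin n → ℝ) where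
  toFun u := ∑ i, (P i).L (u i)
  map_add' u v := by simp [Finset.sum_add_distrib]
  map_smul' c u := by simp [Finset.smul_sum]

/-- Finitely many pieces add up to a piece. -/
noncomputable def Piece.sum {κ : Type} [Fintype κ] [DecidableEq κ] (P : κ → Piece n) : Piece n where
  U := ∀ i, (P i).U
  σ := Σ i, (P i).σ
  L := sumMap P
  A := blockMap P
  symm := fun u => by
    change (blockDiagonal' (fun i => (P i).A (u i)))ᵀ = blockDiagonal' (fun i => (P i).A (u i))
    rw [blockDiagonal'_transpose]; exact congrArg _ (funext fun i => ((P i).symm _).eq)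

theorem Piece.sum_subset {κ : Type} [Fintype κ] [DecidableEq κ] (P : κ → Piece n)
    {K : Set (Fin n → ℝ)} (h0 : (0 : Fin n → ℝ) ∈ K) (hadd : ∀ a ∈ K, ∀ b ∈ K, a + b ∈ K)
    (h : ∀ i, (P i).set ⊆ K) : (Piece.sum P).set ⊆ K := by
  rintro _ ⟨u, hu, rfl⟩
  have hu' := (blockMap_psd P u).1 hu
  change ∑ i, (P i).L (u i) ∈ K
  exact Finset.sum_induction _ (· ∈ K) (fun a b ha hb => hadd a ha b hb) h0
    fun i _ => h i ⟨u i, hu' i, rfl⟩

theorem Piece.mem_sum_two {κ : Type} [Fintype κ] [DecidableEq κ] (P : κ → Piece n) {i j : κ}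
    (hij : i ≠ j) {a b : Fin n → ℝ} (ha : a ∈ (P i).set) (hb : b ∈ (P j).set) :
    a + b ∈ (Piece.sum P).set := by
  obtain ⟨u, hu, rfl⟩ := ha
  obtain ⟨v, hv, rfl⟩ := hb
  refine ⟨Pi.single i u + Pi.single j v, (blockMap_psd P _).2 fun k => ?_, ?_⟩
  · change ((P k).A (Pi.single (M := fun k => (P k).U) i u k +
      Pi.single (M := fun k => (P k).U) j v k)).PosSemidef
    rcases eq_or_ne k i with rfl | hki
    · rw [Pi.single_eq_same, Pi.single_eq_of_ne hij, add_zero]; exact hu
    rcases eq_or_ne k j with rfl | hkj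
    · rw [Pi.single_eq_same, Pi.single_eq_of_ne hij.symm, zero_add]; exact hv
    · rw [Pi.single_eq_of_ne hki, Pi.single_eq_of_ne hkj, add_zero, map_zero]
      exact PosSemidef.zero
  · change ∑ k, (P k).L ((Pi.single i u + Pi.single j v : ∀ k, (P k).U) k) = _
    simp only [Pi.add_apply, map_add, Finset.sum_add_distrib]
    rw [Finset.sum_eq_single i (fun k _ hk => by simp [Pi.single_eq_of_ne hk]) (by simp),
      Finset.sum_eq_single j (fun k _ hk => by simp [Pi.single_eq_of_ne hk]) (by simp)]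
    simp

/-- The scalar block of a ray. -/
noncomputable def rayMap : ℝ →ₗ[ℝ] Matrix Unit Unit ℝ where
  toFun t := t • 1
  map_add' a b := add_smul a b 1
  map_smul' c a := by simp [smul_smul]

/-- A single ray. -/
noncomputable def Piece.ray (v : Fin n → ℝ) : Piece n where
  U := ℝ
  σ := Unit
  L := LinearMap.toSpanSingleton ℝ _ v
  A := rayMap
  symm := fun t => (isSymm_one).smul t

theorem Piece.mem_ray (v : Fin n → ℝ) {t : ℝ} (ht : 0 ≤ t) : t • v ∈ (Piece.ray v).set :=
  ⟨t, PosSemidef.one.smul ht, rfl⟩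

theorem Piece.ray_subset (v : Fin n → ℝ) {K : Set (Fin n → ℝ)}
    (h : ∀ t : ℝ, 0 ≤ t → t • v ∈ K) : (Piece.ray v).set ⊆ K := by
  rintro _ ⟨t, ht, rfl⟩
  obtain ⟨r, rfl⟩ : ∃ r : ℝ, r = t := ⟨t, rfl⟩
  have h1 : 0 ≤ (rayMap r) () () := Matrix.PosSemidef.diag_nonneg ht
  change r • v ∈ K
  exact h r (by simpa [rayMap] using h1)

end Vale.Agent.P256.Conical
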