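import Vale.Agent.P256.Conical.Line
import Vale.Agent.P256.Conical.Shadow

/-!
Pseudo-moments on a small box, and a local certificate of nonnegativity.
-/

namespace Vale.Agent.P256.Conical

open MvPolynomial Finset Filter Topology Matrix

variable {ι : Type} [Fintype ι]

/-- Real functions of `ι` variables. -/
abbrev Fn (ι : Type) := (ι → ℝ) → ℝ

/-- A shifted coordinate. -/
def dl (c : ι → ℝ) (k : ι) : Fn ι := fun ξ => ξ k - c k

/-- A monomial in shifted coordinates. -/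
def W (c : ι → ℝ) (l : List ι) : Fn ι := (l.map (dl c)).prod

/-- Words of bounded length. -/
abbrev Words (ι : Type) (L : ℕ) := {l : List ι // l.length ≤ L}

noncomputable instance (ι : Type) [Finite ι] (L : ℕ) : Fintype (Words ι L) :=
  (List.finite_length_le ι L).fintype

/-- Functions of degree at most `L`. -/
def Sp (c : ι → ℝ) (L : ℕ) : Submodule ℝ (Fn ι) :=
  Submodule.span ℝ (Set.range fun l : Words ι L => W c l.1)

omit [Fintype ι] in
@[simp] theorem W_nil (c : ι → ℝ) : W c [] = 1 := rfl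

omit [Fintype ι] in
theorem W_cons (c : ι → ℝ) (k : ι) (l : List ι) : W c (k :: l) = dl c k * W c l := by
  simp [W]

omit [Fintype ι] in
theorem W_mem (c : ι → ℝ) {L : ℕ} {l : List ι} (hl : l.length ≤ L) : W c l ∈ Sp c L :=
  Submodule.subset_span ⟨⟨l, hl⟩, rfl⟩

omit [Fintype ι] in
theorem Sp_mul (c : ι → ℝ) {a L : ℕ} {g : Fn ι} (hg : g ∈ Sp c a) (l : List ι)
    (hl : l.length + a ≤ L) : W c l * g ∈ Sp c L := by
  induction hg using Submodule.span_induction with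
  | mem x hx =>
    obtain ⟨⟨l', hl'⟩, rfl⟩ := hx
    change W c l * W c l' ∈ _
    rw [show W c l * W c l' = W c (l ++ l') by simp [W, List.prod_append]]
    exact W_mem c (by simp; omega)
  | zero => simp
  | add x y _ _ hx hy => rw [mul_add]; exact Submodule.add_mem _ hx hy
  | smul r x _ hx => rw [mul_smul_comm]; exact Submodule.smul_mem _ r hx

omit [Fintype ι] in
theorem dl_mem (c ξ₀ : ι → ℝ) (k : ι) {L : ℕ} (hL : 1 ≤ L) : dl ξ₀ k ∈ Sp c L := by
  have : dl ξ₀ k = W c [k] + (c k - ξ₀ k) • W c [] := by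
    funext ξ; simp [W, dl]
  rw [this]
  exact Submodule.add_mem _ (W_mem c (by simpa using hL))
    (Submodule.smul_mem _ _ (W_mem c (by simp)))

omit [Fintype ι] in
theorem const_mem (c : ι → ℝ) (L : ℕ) (a : ℝ) : a • (1 : Fn ι) ∈ Sp c L :=
  Submodule.smul_mem _ _ (W_nil c ▸ W_mem c (l := []) (by simp))

variable {J : Type}

/-- Pseudo-moments on the box of radius `ρ` around `c`, vanishing on the ideal of `E`. -/
structure Feas (c : ι → ℝ) (ρ : ℝ) (L : ℕ) (E : J → MvPolynomial ι ℝ)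
    (M : Fn ι →ₗ[ℝ] ℝ) : Prop where
  sq : ∀ g ∈ Sp c L, 0 ≤ M (g * g)
  box : ∀ k, ∀ g ∈ Sp c L, 0 ≤ M (((ρ ^ 2) • (1 : Fn ι) - dl c k * dl c k) * (g * g))
  eq : ∀ j, ∀ l : List ι, l.length ≤ L → M (W c l * fun ξ => eval ξ (E j)) = 0

/-- Total variance about `ξ₀`. -/
def var (ξ₀ : ι → ℝ) : Fn ι := ∑ i, dl ξ₀ i * dl ξ₀ i

section

variable {c : ι → ℝ} {ρ : ℝ} {L : ℕ} {E : J → MvPolynomial ι ℝ} {M : Fn ι →ₗ[ℝ] ℝ}
  (hM : Feas c ρ L E M)
include hM

omit [Fintype ι] in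
theorem Feas.bound_sq {a : ℕ} {g : Fn ι} (hg : g ∈ Sp c a) (l : List ι) (hl : l.length + a ≤ L) :
    M ((W c l * g) * (W c l * g)) ≤ ρ ^ (2 * l.length) * M (g * g) := by
  induction l with
  | nil => simp
  | cons k t ih =>
    simp only [List.length_cons] at hl
    have h := hM.box k _ (Sp_mul c hg t (L := L) (by omega))
    rw [sub_mul, map_sub, smul_mul_assoc, one_mul, map_smul, smul_eq_mul] at h
    have he : (W c (k :: t) * g) * (W c (k :: t) * g) =
        dl c k * dl c k * ((W c t * g) * (W c t * g)) := by rw [W_cons]; ring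
    rw [he, List.length_cons]
    calc M (dl c k * dl c k * ((W c t * g) * (W c t * g)))
        ≤ ρ ^ 2 * M ((W c t * g) * (W c t * g)) := by linarith
      _ ≤ ρ ^ 2 * (ρ ^ (2 * t.length) * M (g * g)) :=
          mul_le_mul_of_nonneg_left (ih (by omega)) (sq_nonneg ρ)
      _ = _ := by ring

omit [Fintype ι] in
theorem Feas.sq_dl (ξ₀ : ι → ℝ) (k : ι) (hL : 1 ≤ L) : 0 ≤ M (dl ξ₀ k * dl ξ₀ k) :=
  hM.sq _ (dl_mem c ξ₀ k hL)

theorem Feas.sq_dl_le (ξ₀ : ι → ℝ) (k : ι) (hL : 1 ≤ L) :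
    M (dl ξ₀ k * dl ξ₀ k) ≤ M (var ξ₀) := by
  rw [var, map_sum]
  exact single_le_sum (f := fun i => M (dl ξ₀ i * dl ξ₀ i)) (fun i _ => hM.sq_dl ξ₀ i hL)
    (mem_univ k)

theorem Feas.var_nonneg (ξ₀ : ι → ℝ) (hL : 1 ≤ L) : 0 ≤ M (var ξ₀) := by
  rw [var, map_sum]; exact sum_nonneg fun i _ => hM.sq_dl ξ₀ i hL

theorem Feas.cauchy (hρ : 0 < ρ) (ξ₀ : ι → ℝ) (i j : ι) (l : List ι) (hl : l.length + 1 ≤ L) :
    |M (W c l * (dl ξ₀ i * dl ξ₀ j))| ≤ ρ ^ l.length * M (var ξ₀) := by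
  have hL : 1 ≤ L := by omega
  set t := ρ ^ l.length with ht
  have htp : 0 < t := by positivity
  have hi : t • dl ξ₀ i ∈ Sp c L := Submodule.smul_mem _ _ (dl_mem c ξ₀ i hL)
  have hj : W c l * dl ξ₀ j ∈ Sp c L := Sp_mul c (dl_mem c ξ₀ j le_rfl) l hl
  have h1 := hM.sq _ (Submodule.add_mem _ hi hj)
  have h2 := hM.sq _ (Submodule.sub_mem _ hi hj)
  rw [show (t • dl ξ₀ i + W c l * dl ξ₀ j) * (t • dl ξ₀ i + W c l * dl ξ₀ j) =
      (t ^ 2) • (dl ξ₀ i * dl ξ₀ i) + (2 * t) • (W c l * (dl ξ₀ i * dl ξ₀ j)) +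
        (W c l * dl ξ₀ j) * (W c l * dl ξ₀ j) by funext ξ; simp; ring] at h1
  rw [show (t • dl ξ₀ i - W c l * dl ξ₀ j) * (t • dl ξ₀ i - W c l * dl ξ₀ j) =
      (t ^ 2) • (dl ξ₀ i * dl ξ₀ i) - (2 * t) • (W c l * (dl ξ₀ i * dl ξ₀ j)) +
        (W c l * dl ξ₀ j) * (W c l * dl ξ₀ j) by funext ξ; simp; ring] at h2
  simp only [map_add, map_sub, map_smul, smul_eq_mul] at h1 h2
  have h3 := hM.bound_sq (dl_mem c ξ₀ j le_rfl) l hl
  rw [mul_comm 2 l.length, pow_mul] at h3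
  have h4 := hM.sq_dl_le ξ₀ i hL
  have h5 := hM.sq_dl_le ξ₀ j hL
  have h4' := mul_le_mul_of_nonneg_left h4 (sq_nonneg t)
  have h5' := mul_le_mul_of_nonneg_left h5 (sq_nonneg t)
  rw [abs_le]
  constructor <;> nlinarith

omit [Fintype ι] in
theorem Feas.one_nonneg : 0 ≤ M 1 := by
  simpa using hM.sq 1 (by simpa using const_mem c L 1)

omit [Fintype ι] in
theorem Feas.first (hρ : 0 < ρ) (k : ι) (hL : 1 ≤ L) : |M (dl c k)| ≤ ρ * M 1 := by
  have h1 := hM.sq _ (Submodule.add_mem _ (dl_mem c c k hL) (const_mem c L ρ))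
  have h2 := hM.sq _ (Submodule.sub_mem _ (dl_mem c c k hL) (const_mem c L ρ))
  rw [show (dl c k + ρ • (1 : Fn ι)) * (dl c k + ρ • (1 : Fn ι)) =
      dl c k * dl c k + (2 * ρ) • dl c k + (ρ ^ 2) • 1 by funext ξ; simp; ring] at h1
  rw [show (dl c k - ρ • (1 : Fn ι)) * (dl c k - ρ • (1 : Fn ι)) =
      dl c k * dl c k - (2 * ρ) • dl c k + (ρ ^ 2) • 1 by funext ξ; simp; ring] at h2
  simp only [map_add, map_sub, map_smul, smul_eq_mul] at h1 h2
  have h3 := hM.box k 1 (by simpa using const_mem c L 1)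
  rw [mul_one, mul_one, map_sub, map_smul, smul_eq_mul] at h3
  rw [abs_le]
  constructor <;> nlinarith

omit [Fintype ι] in
theorem Feas.second (hρ : 0 < ρ) (i j : ι) (hL : 1 ≤ L) :
    |M (dl c i * dl c j)| ≤ ρ ^ 2 * M 1 := by
  have hb : ∀ k, M (dl c k * dl c k) ≤ ρ ^ 2 * M 1 := fun k => by
    have h3 := hM.box k 1 (by simpa using const_mem c L 1)
    rw [mul_one, mul_one, map_sub, map_smul, smul_eq_mul] at h3
    linarith
  have h1 := hM.sq _ (Submodule.add_mem _ (dl_mem c c i hL) (dl_mem c c j hL))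
  have h2 := hM.sq _ (Submodule.sub_mem _ (dl_mem c c i hL) (dl_mem c c j hL))
  rw [show (dl c i + dl c j) * (dl c i + dl c j) =
      dl c i * dl c i + (2 : ℝ) • (dl c i * dl c j) + dl c j * dl c j by funext ξ; simp; ring] at h1
  rw [show (dl c i - dl c j) * (dl c i - dl c j) =
      dl c i * dl c i - (2 : ℝ) • (dl c i * dl c j) + dl c j * dl c j by funext ξ; simp; ring] at h2
  simp only [map_add, map_sub, map_smul, smul_eq_mul] at h1 h2
  rw [abs_le]
  constructor <;> linarith [hb i, hb j]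

end

/-- Second-order Taylor remainder, as a function. -/
noncomputable def rem (q : MvPolynomial ι ℝ) (ξ₀ : ι → ℝ) : Fn ι :=
  (fun ξ => eval ξ q) - eval ξ₀ q • 1 - ∑ i, grad q ξ₀ i • dl ξ₀ i -
    ∑ i, ∑ j, (hess q ξ₀ i j / 2) • (dl ξ₀ i * dl ξ₀ j)

theorem rem_bound (c : ι → ℝ) (E : J → MvPolynomial ι ℝ) (q : MvPolynomial ι ℝ) :
    ∃ (C : ℝ) (D : ℕ), 0 ≤ C ∧ ∀ (ρ : ℝ) (L : ℕ) (M : Fn ι →ₗ[ℝ] ℝ) (ξ₀ : ι → ℝ), 0 < ρ → ρ ≤ 1 →
      Feas c ρ L E M → ‖ξ₀ - c‖ ≤ ρ → ∀ l : List ι, l.length + D ≤ L →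
        |M (W c l * rem q ξ₀)| ≤ C * ρ * M (var ξ₀) := by
  induction q using MvPolynomial.induction_on with
  | C a =>
    refine ⟨0, 0, le_rfl, fun ρ L M ξ₀ _ _ _ _ l _ => ?_⟩
    have : rem (C a) ξ₀ = 0 := by funext ξ; simp [rem, grad, hess]
    simp [this]
  | add p q hp hq =>
    obtain ⟨C₁, D₁, hC₁, h₁⟩ := hp
    obtain ⟨C₂, D₂, hC₂, h₂⟩ := hq
    refine ⟨C₁ + C₂, D₁ + D₂, by linarith, fun ρ L M ξ₀ hρ hρ1 hM hξ l hl => ?_⟩
    have : rem (p + q) ξ₀ = rem p ξ₀ + rem q ξ₀ := by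
      funext ξ
      simp [rem, grad, hess, sum_add_distrib, add_mul, add_div]
      ring
    rw [this, mul_add, map_add]
    refine (abs_add_le _ _).trans ?_
    linarith [h₁ ρ L M ξ₀ hρ hρ1 hM hξ l (by omega), h₂ ρ L M ξ₀ hρ hρ1 hM hξ l (by omega)]
  | mul_X q k hq =>
    classical
    obtain ⟨C, D, hC, h⟩ := hq
    have hcont : ∀ i j, Continuous fun ξ => |hess q ξ i j| :=
      fun i j => (MvPolynomial.continuous_eval _).abs
    obtain ⟨Bh, hBh⟩ := (isCompact_closedBall c 1).bddAbove_image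
      (f := fun ξ => ∑ i, ∑ j, |hess q ξ i j|) (by fun_prop : Continuous _).continuousOn
    refine ⟨C + |c k| * C + max Bh 0, D + 3, by positivity,
      fun ρ L M ξ₀ hρ hρ1 hM hξ l hl => ?_⟩
    have hrem : W c l * rem (q * X k) ξ₀ = W c (k :: l) * rem q ξ₀ + c k • (W c l * rem q ξ₀) +
        ∑ i, ∑ j, (hess q ξ₀ i j / 2) • (W c (k :: l) * (dl ξ₀ i * dl ξ₀ j) +
          (c k - ξ₀ k) • (W c l * (dl ξ₀ i * dl ξ₀ j))) := by
      have hh : ∀ i j, hess (q * X k) ξ₀ i j = hess q ξ₀ i j * ξ₀ k +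
          (grad q ξ₀ i * (if j = k then 1 else 0) + grad q ξ₀ j * (if i = k then 1 else 0)) := by
        intro i j
        by_cases hi : i = k <;> by_cases hj : j = k
        · subst hi hj; simp [hess, grad]; ring
        · subst hi; simp [hess, grad, pderiv_X_of_ne (Ne.symm hj), hj]; ring
        · subst hj; simp [hess, grad, pderiv_X_of_ne (Ne.symm hi), hi]; ring
        · simp [hess, grad, pderiv_X_of_ne (Ne.symm hi), pderiv_X_of_ne (Ne.symm hj), hi, hj]; ring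
      have hg : ∀ i, grad (q * X k) ξ₀ i =
          grad q ξ₀ i * ξ₀ k + eval ξ₀ q * (if i = k then 1 else 0) := by
        intro i
        by_cases hi : i = k
        · subst hi; simp [grad]; ring
        · simp [grad, pderiv_X_of_ne (Ne.symm hi), hi]; ring
      funext ξ
      simp only [rem, W_cons, Pi.mul_apply, Pi.sub_apply, Pi.add_apply, Finset.sum_apply,
        Pi.smul_apply, Pi.one_apply, smul_eq_mul, map_mul, eval_X, hg, hh, add_div, add_mul,
        sum_add_distrib, mul_ite, mul_one, mul_zero, ite_mul, zero_mul, ite_div, zero_div,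
        sum_ite_eq', sum_ite_irrel, sum_const_zero, Finset.mem_univ, if_true, dl]
      simp only [mul_add, add_mul, mul_sub, sub_mul, sum_add_distrib, sum_sub_distrib, mul_sum,
        sum_mul, ← sub_sub]
      ring_nf
      simp only [← sum_add_distrib, ← sum_sub_distrib, mul_sum, sum_mul]
      ring_nf
    rw [hrem, map_add, map_add, map_smul, smul_eq_mul]
    have hV := hM.var_nonneg ξ₀ (by omega)
    have e1 : |M (W c (k :: l) * rem q ξ₀)| ≤ C * ρ * M (var ξ₀) :=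
      h ρ L M ξ₀ hρ hρ1 hM hξ _ (by simp; omega)
    have e2 : |c k * M (W c l * rem q ξ₀)| ≤ |c k| * (C * ρ * M (var ξ₀)) := by
      rw [abs_mul]
      exact mul_le_mul_of_nonneg_left (h ρ L M ξ₀ hρ hρ1 hM hξ l (by omega)) (abs_nonneg _)
    have e3 : |M (∑ i, ∑ j, (hess q ξ₀ i j / 2) • (W c (k :: l) * (dl ξ₀ i * dl ξ₀ j) +
        (c k - ξ₀ k) • (W c l * (dl ξ₀ i * dl ξ₀ j))))| ≤ max Bh 0 * ρ * M (var ξ₀) := by
      simp only [map_sum, map_smul, map_add, smul_eq_mul]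
      refine (abs_sum_le_sum_abs _ _).trans ((sum_le_sum fun i _ => abs_sum_le_sum_abs _ _).trans ?_)
      refine le_trans (sum_le_sum (g := fun i => ∑ j, |hess q ξ₀ i j| * (ρ * M (var ξ₀)))
        fun i _ => sum_le_sum fun j _ => ?_) ?_
      · have hk : |c k - ξ₀ k| ≤ ρ := by
          rw [abs_sub_comm]; exact le_trans (by simpa using norm_le_pi_norm (ξ₀ - c) k) hξ
        have f1 := hM.cauchy hρ ξ₀ i j (k :: l) (by simp; omega)
        have f2 := hM.cauchy hρ ξ₀ i j l (by omega)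
        rw [List.length_cons, pow_succ] at f1
        have hp : ρ ^ l.length ≤ 1 := pow_le_one₀ hρ.le hρ1
        rw [abs_mul, abs_div, abs_two, div_mul_eq_mul_div, div_le_iff₀ two_pos, mul_assoc]
        refine mul_le_mul_of_nonneg_left ((abs_add_le _ _).trans ?_) (abs_nonneg _)
        rw [abs_mul]
        have f3 : |M (W c (k :: l) * (dl ξ₀ i * dl ξ₀ j))| ≤ ρ * M (var ξ₀) :=
          f1.trans (by nlinarith [mul_le_mul_of_nonneg_right hp (mul_nonneg hρ.le hV)])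
        have f4 : |c k - ξ₀ k| * |M (W c l * (dl ξ₀ i * dl ξ₀ j))| ≤ ρ * M (var ξ₀) :=
          mul_le_mul hk (f2.trans (mul_le_of_le_one_left hV hp)) (abs_nonneg _) hρ.le
        linarith
      · simp only [← sum_mul]
        rw [mul_assoc (max Bh 0)]
        refine mul_le_mul_of_nonneg_right ?_ (mul_nonneg hρ.le hV)
        refine le_trans (hBh ⟨ξ₀, ?_, rfl⟩) (le_max_left _ _)
        rw [mem_closedBall_iff_norm]; linarith
    calc |M (W c (k :: l) * rem q ξ₀) + c k * M (W c l * rem q ξ₀) + _|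
        ≤ _ := (abs_add_le _ _).trans (add_le_add ((abs_add_le _ _).trans (add_le_add e1 e2)) e3)
      _ = _ := by ring

theorem Feas.quad_nonneg {c : ι → ℝ} {ρ : ℝ} {L : ℕ} {E : J → MvPolynomial ι ℝ}
    {M : Fn ι →ₗ[ℝ] ℝ} (hM : Feas c ρ L E M) (hL : 1 ≤ L) {H : Matrix ι ι ℝ}
    (hH : H.PosSemidef) (ξ₀ : ι → ℝ) :
    0 ≤ ∑ i, ∑ j, H i j * M (dl ξ₀ i * dl ξ₀ j) := by
  classical
  obtain ⟨B, rfl⟩ : ∃ B : Matrix ι ι ℝ, H = Bᴴ * B := by
    open scoped MatrixOrder in exact CStarAlgebra.nonneg_iff_eq_star_mul_self.1 hH.nonneg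
  have : ∑ i, ∑ j, (Bᴴ * B) i j * M (dl ξ₀ i * dl ξ₀ j) =
      ∑ k, M ((∑ i, B k i • dl ξ₀ i) * (∑ i, B k i • dl ξ₀ i)) := by
    simp only [Matrix.mul_apply, conjTranspose_apply, star_trivial, sum_mul, mul_sum, map_sum,
      smul_mul_assoc, mul_smul_comm, map_smul, smul_eq_mul]
    rw [sum_comm (s := univ (α := ι))]
    conv_lhs => enter [2, i]; rw [sum_comm]
    rw [sum_comm]
    refine sum_congr rfl fun k _ => sum_congr rfl fun i _ => sum_congr rfl fun j _ => ?_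
    rw [mul_comm (dl ξ₀ j)]
    ring
  rw [this]
  exact sum_nonneg fun k _ => hM.sq _ (Submodule.sum_mem _ fun i _ =>
    Submodule.smul_mem _ _ (dl_mem c ξ₀ i hL))

/-- The quadratic form of a combination of Hessians. -/
noncomputable def form {α : Type} [Fintype α] (q : α → MvPolynomial ι ℝ) (lam : α → ℝ)
    (ξ : ι → ℝ) (v : ι → ℝ) : ℝ :=
  ∑ a, lam a * ∑ i, ∑ j, v i * v j * hess (q a) ξ i j

/-- Local certificate: a combination with a nondegenerate critical zero is nonnegative on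
pseudo-moments of a small box. -/
theorem certificate {α : Type} [Fintype α] (c : ι → ℝ) (E : J → MvPolynomial ι ℝ)
    (q : α → MvPolynomial ι ℝ) (lam : (ι → ℝ) → α → ℝ) (hcont : ContinuousAt lam c)
    (hpos : ∀ v : ι → ℝ, v ≠ 0 → 0 < form q (lam c) c v) :
    ∃ (ρ₀ : ℝ) (D : ℕ), 0 < ρ₀ ∧ ∀ (ρ : ℝ) (L : ℕ) (M : Fn ι →ₗ[ℝ] ℝ) (ξ₀ : ι → ℝ),
      0 < ρ → ρ ≤ ρ₀ → D ≤ L → Feas c ρ L E M → ‖ξ₀ - c‖ ≤ ρ →
      ∑ a, lam ξ₀ a * eval ξ₀ (q a) = 0 →
      (∀ i, ∑ a, lam ξ₀ a * grad (q a) ξ₀ i = 0) →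
      0 ≤ ∑ a, lam ξ₀ a * M (fun ξ => eval ξ (q a)) := by
  classical
  choose C D hC hrem using fun a => rem_bound c E (q a)
  have hlam : ∀ a, ContinuousAt (fun ξ => lam ξ a) c := fun a =>
    (continuous_apply a).continuousAt.comp hcont
  have hform : ∀ v, ContinuousAt (fun z : (ι → ℝ) × (ι → ℝ) => form q (lam z.1) z.1 z.2) (c, v) := by
    intro v
    unfold form
    refine tendsto_finsetSum _ fun a _ => Tendsto.mul ?_ ?_
    · exact (hlam a).tendsto.comp continuousAt_fst.tendsto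
    · refine tendsto_finsetSum _ fun i _ => tendsto_finsetSum _ fun j _ => ?_
      exact ((by fun_prop : Continuous fun z : (ι → ℝ) × (ι → ℝ) => z.2 i * z.2 j).mul
        ((MvPolynomial.continuous_eval _).comp continuous_fst)).continuousAt.tendsto
  obtain ⟨γ, hγ, hev⟩ : ∃ γ > 0, ∀ᶠ ξ in 𝓝 c, ∀ v : ι → ℝ,
      γ * ∑ i, v i * v i ≤ form q (lam ξ) ξ v := by
    rcases isEmpty_or_nonempty ι with hι | hι
    · exact ⟨1, one_pos, Eventually.of_forall fun ξ v => by simp [form]⟩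
    obtain ⟨v₀, hv₀, hmin⟩ := (isCompact_sphere (0 : ι → ℝ) 1).exists_isMinOn
      (NormedSpace.sphere_nonempty.2 zero_le_one) (f := fun v => form q (lam c) c v)
      (by unfold form; fun_prop : Continuous _).continuousOn
    set m := form q (lam c) c v₀
    have hm : 0 < m := hpos v₀ (fun h0 => by rw [h0] at hv₀; simp at hv₀)
    have hsph : ∀ᶠ ξ in 𝓝 c, ∀ v ∈ Metric.sphere (0 : ι → ℝ) 1, m / 2 < form q (lam ξ) ξ v := by
      refine (isCompact_sphere _ _).eventually_forall_of_forall_eventually fun v hv => ?_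
      exact continuousAt_const.eventually_lt (hform v)
        (lt_of_lt_of_le (by linarith) (hmin hv))
    refine ⟨m / 2 / Fintype.card ι, by positivity, hsph.mono fun ξ hξ v => ?_⟩
    rcases eq_or_ne v 0 with rfl | hv
    · simp [form]
    have hn : 0 < ‖v‖ := norm_pos_iff.2 hv
    have h1 := hξ (‖v‖⁻¹ • v) (by simp [norm_smul, hn.ne'])
    have h2 : form q (lam ξ) ξ (‖v‖⁻¹ • v) = ‖v‖⁻¹ ^ 2 * form q (lam ξ) ξ v := by
      simp only [form, Pi.smul_apply, smul_eq_mul, mul_sum]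
      exact sum_congr rfl fun a _ => sum_congr rfl fun i _ => sum_congr rfl fun j _ => by ring
    rw [h2, inv_pow, lt_inv_mul_iff₀ (by positivity)] at h1
    have h3 : ∑ i, v i * v i ≤ Fintype.card ι * ‖v‖ ^ 2 := by
      refine (sum_le_card_nsmul _ _ (‖v‖ ^ 2) fun i _ => ?_).trans (by simp)
      rw [← sq, ← sq_abs]
      exact pow_le_pow_left₀ (abs_nonneg _) (by simpa using norm_le_pi_norm v i) 2
    rw [div_mul_eq_mul_div, div_le_iff₀ (by positivity)]
    nlinarith [mul_le_mul_of_nonneg_left h3 hm.le]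
  obtain ⟨r, hr, hball⟩ := Metric.eventually_nhds_iff.1
    (hev.and ((eventually_all.2 fun a => ((hlam a).abs.eventually (ge_mem_nhds
      (lt_add_one |lam c a|)))) : ∀ᶠ ξ in 𝓝 c, ∀ a, |lam ξ a| ≤ |lam c a| + 1))
  set Λ := ∑ a, (|lam c a| + 1) * C a
  have hΛ : 0 ≤ Λ := sum_nonneg fun a _ => mul_nonneg (by positivity) (hC a)
  refine ⟨min (min 1 (r / 2)) (γ / (2 * (Λ + 1))), ∑ a, D a + 1, by positivity,
    fun ρ L M ξ₀ hρ hρ₀ hL hM hξ h0 h1 => ?_⟩
  obtain ⟨hfo, hla⟩ := hball (y := ξ₀) (by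
    rw [dist_eq_norm]
    linarith [(le_min_iff.1 ((le_min_iff.1 hρ₀).1)).2])
  have hρ1 : ρ ≤ 1 := (le_min_iff.1 ((le_min_iff.1 hρ₀).1)).1
  have hV := hM.var_nonneg ξ₀ (by omega)
  have heval : ∀ a, (fun ξ => eval ξ (q a)) = eval ξ₀ (q a) • (1 : Fn ι) +
      ∑ i, grad (q a) ξ₀ i • dl ξ₀ i +
      ∑ i, ∑ j, (hess (q a) ξ₀ i j / 2) • (dl ξ₀ i * dl ξ₀ j) + rem (q a) ξ₀ := by
    intro a; rw [rem]; abel
  have hsplit : ∑ a, lam ξ₀ a * M (fun ξ => eval ξ (q a)) =
      (∑ i, ∑ j, (∑ a, lam ξ₀ a * hess (q a) ξ₀ i j) * M (dl ξ₀ i * dl ξ₀ j)) / 2 +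
        ∑ a, lam ξ₀ a * M (rem (q a) ξ₀) := by
    simp only [heval, map_add, map_sum, map_smul, smul_eq_mul, mul_add, sum_add_distrib]
    have z1 : ∑ a, lam ξ₀ a * (eval ξ₀ (q a) * M 1) = 0 := by
      simp only [← mul_assoc, ← sum_mul, h0, zero_mul]
    have z2 : ∑ a, lam ξ₀ a * ∑ i, grad (q a) ξ₀ i * M (dl ξ₀ i) = 0 := by
      simp only [mul_sum, ← mul_assoc]
      rw [sum_comm]
      simp only [← sum_mul, h1, zero_mul, sum_const_zero]
    rw [z1, z2, zero_add, zero_add, sum_div]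
    congr 1
    simp only [mul_sum, sum_mul, sum_div]
    rw [sum_comm]
    refine sum_congr rfl fun i _ => ?_
    rw [sum_comm]
    exact sum_congr rfl fun j _ => sum_congr rfl fun a _ => by ring
  let H : Matrix ι ι ℝ := fun i j => (∑ a, lam ξ₀ a * (hess (q a) ξ₀ i j + hess (q a) ξ₀ j i)) / 2 -
    if i = j then γ else 0
  have hH : H.PosSemidef := by
    refine posSemidef_iff_real.2 ⟨?_, fun v => ?_⟩
    · ext i j
      change H j i = H i j
      simp only [H, eq_comm (a := i), add_comm (hess _ _ i j)]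
    · have hv : v ⬝ᵥ (H *ᵥ v) = form q (lam ξ₀) ξ₀ v - γ * ∑ i, v i * v i := by
        simp only [dotProduct, mulVec, H, sub_mul, sum_sub_distrib, mul_sub, ite_mul, zero_mul,
          mul_ite, mul_zero, sum_ite_eq, Finset.mem_univ, if_true]
        congr 1
        · simp only [form, sum_div, sum_mul, mul_sum]
          have hsym : ∀ a, ∑ i, ∑ j, v i * (lam ξ₀ a * hess (q a) ξ₀ j i * v j) =
              ∑ i, ∑ j, lam ξ₀ a * (v i * v j * hess (q a) ξ₀ i j) := by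
            intro a; rw [sum_comm]
            exact sum_congr rfl fun i _ => sum_congr rfl fun j _ => by ring
          conv_lhs => enter [2, i]; rw [sum_comm]
          rw [sum_comm]
          refine sum_congr rfl fun a _ => ?_
          have : ∀ i j, v i * (lam ξ₀ a * (hess (q a) ξ₀ i j + hess (q a) ξ₀ j i) / 2 * v j) =
              (lam ξ₀ a * (v i * v j * hess (q a) ξ₀ i j)) / 2 +
                (v i * (lam ξ₀ a * hess (q a) ξ₀ j i * v j)) / 2 := fun i j => by ring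
          simp only [this, sum_add_distrib, ← sum_div, hsym]
          ring
        · rw [mul_sum]; exact sum_congr rfl fun i _ => by ring
      rw [hv]; linarith [hfo v]
  have hq := hM.quad_nonneg (by omega) hH ξ₀
  have hHsum : ∑ i, ∑ j, H i j * M (dl ξ₀ i * dl ξ₀ j) =
      (∑ i, ∑ j, (∑ a, lam ξ₀ a * hess (q a) ξ₀ i j) * M (dl ξ₀ i * dl ξ₀ j)) -
        γ * M (var ξ₀) := by
    simp only [H, sub_mul, sum_sub_distrib, ite_mul, zero_mul, sum_ite_eq, Finset.mem_univ, if_true,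
      var, map_sum, mul_sum]
    congr 1
    have hsw : ∑ i, ∑ j, (∑ a, lam ξ₀ a * hess (q a) ξ₀ j i) * M (dl ξ₀ i * dl ξ₀ j) =
        ∑ i, ∑ j, (∑ a, lam ξ₀ a * hess (q a) ξ₀ i j) * M (dl ξ₀ i * dl ξ₀ j) := by
      rw [sum_comm]
      simp only [mul_comm (dl ξ₀ _) (dl ξ₀ _)]
    simp only [mul_add, sum_add_distrib, add_div, add_mul, div_mul_eq_mul_div, ← sum_div]
    rw [hsw]; ring
  have hr' : |∑ a, lam ξ₀ a * M (rem (q a) ξ₀)| ≤ Λ * ρ * M (var ξ₀) := by
    refine (abs_sum_le_sum_abs _ _).trans ?_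
    simp only [Λ, sum_mul]
    refine sum_le_sum fun a _ => ?_
    rw [abs_mul]
    have := hrem a ρ L M ξ₀ hρ hρ1 hM hξ [] (by
      have := single_le_sum (f := D) (fun b _ => Nat.zero_le _) (mem_univ a)
      simp; omega)
    rw [W_nil, one_mul] at this
    calc |lam ξ₀ a| * |M (rem (q a) ξ₀)| ≤ (|lam c a| + 1) * (C a * ρ * M (var ξ₀)) :=
          mul_le_mul (hla a) this (abs_nonneg _) (by positivity)
      _ = _ := by ring
  rw [hsplit]
  have hρ2 := (le_min_iff.1 hρ₀).2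
  rw [le_div_iff₀ (by positivity)] at hρ2
  rw [hHsum] at hq
  nlinarith [mul_le_mul_of_nonneg_right hρ2 hV, abs_le.1 hr', mul_nonneg hρ.le hV]

/-- The weight of a localising block. -/
def locw (c : ι → ℝ) (ρ : ℝ) (o : Option ι) : Fn ι :=
  o.elim 1 fun k => (ρ ^ 2) • (1 : Fn ι) - dl c k * dl c k

/-- A localised moment matrix. -/
noncomputable def gram (c : ι → ℝ) (ρ : ℝ) (L : ℕ) (M : Fn ι →ₗ[ℝ] ℝ) (o : Option ι) :
    Matrix (Words ι L) (Words ι L) ℝ :=
  Matrix.of fun l l' => M (locw c ρ o * (W c l.1 * W c l'.1))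

/-- The block matrix expressing feasibility. -/
noncomputable def momMap [DecidableEq ι] [DecidableEq J] (c : ι → ℝ) (ρ : ℝ) (L : ℕ)
    (E : J → MvPolynomial ι ℝ) :
    (Fn ι →ₗ[ℝ] ℝ) →ₗ[ℝ] Matrix ((Σ _ : Option ι, Words ι L) ⊕ ((J × Words ι L) × Bool))
      ((Σ _ : Option ι, Words ι L) ⊕ ((J × Words ι L) × Bool)) ℝ where
  toFun M := fromBlocks (blockDiagonal' (gram c ρ L M)) 0 0
    (diagonal fun z => (if z.2 then 1 else -1) *
      M (W c z.1.2.1 * fun ξ => eval ξ (E z.1.1)))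
  map_add' M N := by
    have h1 : gram c ρ L (M + N) = gram c ρ L M + gram c ρ L N := by
      funext o; ext l l'; simp [gram]
    rw [h1, blockDiagonal'_add, fromBlocks_add, diagonal_add, add_zero, add_zero]
    simp [mul_add]
  map_smul' t M := by
    have h1 : gram c ρ L (t • M) = t • gram c ρ L M := by
      funext o; ext l l'; simp [gram]
    rw [RingHom.id_apply, h1, blockDiagonal'_smul, fromBlocks_smul, smul_zero, smul_zero,
      ← diagonal_smul]
    simp [mul_left_comm, Pi.smul_def]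

theorem momMap_symm [DecidableEq ι] [DecidableEq J] (c : ι → ℝ) (ρ : ℝ) (L : ℕ)
    (E : J → MvPolynomial ι ℝ) (M : Fn ι →ₗ[ℝ] ℝ) : (momMap c ρ L E M).IsSymm := by
  refine IsSymm.fromBlocks ?_ (by simp) (diagonal_transpose _)
  rw [IsSymm, blockDiagonal'_transpose]
  refine congrArg _ (funext fun o => ?_)
  ext l l'
  simp only [transpose_apply, gram, of_apply, mul_comm (W c l'.1)]

theorem feas_of_psd [DecidableEq ι] [DecidableEq J] [Fintype J] {c : ι → ℝ} {ρ : ℝ} {L : ℕ}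
    {E : J → MvPolynomial ι ℝ} {M : Fn ι →ₗ[ℝ] ℝ} (h : (momMap c ρ L E M).PosSemidef) :
    Feas c ρ L E M := by
  obtain ⟨h1, h2⟩ := posSemidef_fromBlocks_diag.1 h
  rw [posSemidef_blockDiagonal'] at h1
  have hg : ∀ o, ∀ g ∈ Sp c L,
      0 ≤ M (locw c ρ o * (g * g)) := by
    intro o g hg
    obtain ⟨a, rfl⟩ := (Submodule.mem_span_range_iff_exists_fun ℝ).1 hg
    have := (posSemidef_iff_real.1 (h1 o)).2 a
    refine this.trans (le_of_eq ?_)
    simp only [dotProduct, mulVec, gram, of_apply, mul_sum, sum_mul, map_sum, smul_mul_assoc,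
      mul_smul_comm, map_smul, smul_eq_mul]
    rw [sum_comm]
    exact sum_congr rfl fun l _ => sum_congr rfl fun l' _ => by
      rw [mul_comm (W c l'.1)]; ring
  refine ⟨fun g hg' => by simpa [locw] using hg none g hg', fun k g hg' => hg (some k) g hg',
    fun j l hl => ?_⟩
  rw [posSemidef_diagonal_iff] at h2
  have e1 := h2 ((j, ⟨l, hl⟩), true)
  have e2 := h2 ((j, ⟨l, hl⟩), false)
  simp at e1 e2; linarith

theorem psd_eval [DecidableEq ι] [DecidableEq J] [Fintype J] {c : ι → ℝ} {ρ : ℝ} (L : ℕ)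
    {E : J → MvPolynomial ι ℝ} {ξ : ι → ℝ} (hξ : ‖ξ - c‖ ≤ ρ) (hE : ∀ j, eval ξ (E j) = 0) :
    (momMap c ρ L E (LinearMap.proj ξ)).PosSemidef := by
  refine posSemidef_fromBlocks_diag.2 ⟨posSemidef_blockDiagonal'.2 fun o => ?_,
    posSemidef_diagonal_iff.2 fun z => ?_⟩
  · set f : ℝ := locw c ρ o ξ
    have hf : 0 ≤ f := by
      cases o with
      | none => simp [f, locw]
      | some k =>
        have hk : |ξ k - c k| ≤ ρ := le_trans (by simpa using norm_le_pi_norm (ξ - c) k) hξ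
        simp [f, dl, locw]
        nlinarith [abs_le.1 hk]
    refine posSemidef_iff_real.2 ⟨?_, fun v => ?_⟩
    · ext l l'
      simp only [transpose_apply, gram, of_apply, mul_comm (W c l'.1)]
    · refine le_of_le_of_eq (mul_nonneg hf (sq_nonneg (∑ l, v l * W c l.1 ξ))) ?_
      simp only [dotProduct, mulVec, gram, of_apply, LinearMap.proj_apply, Pi.mul_apply, mul_sum,
        sum_mul, sq]
      rw [sum_comm]
      exact sum_congr rfl fun l _ => sum_congr rfl fun l' _ => by simp only [f]; ring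
  · simp [hE]

end Vale.Agent.P256.Conical
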