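import Vale.Agent.P256.Conical.Local
import Vale.Agent.P256.Conical.Moment

/-!
Facts shared by the two kinds of local pieces.
-/

namespace Vale.Agent.P256.Conical

open MvPolynomial Finset Topology Filter

variable {ι : Type} [Fintype ι] {J : Type}

omit [Fintype ι] in
theorem Sp_mono (c : ι → ℝ) {a L : ℕ} (h : a ≤ L) : Sp c a ≤ Sp c L := fun g hg => by
  simpa using Sp_mul c hg [] (L := L) (by simpa using h)

omit [Fintype ι] in
theorem poly_mem (c : ι → ℝ) (q : MvPolynomial ι ℝ) :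
    ∃ D, (fun ξ => eval ξ q) ∈ Sp c D := by
  induction q using MvPolynomial.induction_on with
  | C a => exact ⟨0, by convert const_mem c 0 a using 1; funext ξ; simp⟩
  | add p q hp hq =>
    obtain ⟨D₁, h₁⟩ := hp
    obtain ⟨D₂, h₂⟩ := hq
    refine ⟨D₁ + D₂, ?_⟩
    convert Submodule.add_mem _ (Sp_mono c (Nat.le_add_right D₁ D₂) h₁)
      (Sp_mono c (Nat.le_add_left D₂ D₁) h₂) using 1
    funext ξ; simp
  | mul_X p k hp =>
    obtain ⟨D, h⟩ := hp
    refine ⟨D + 1, ?_⟩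
    convert Submodule.add_mem _ (Sp_mul c h [k] (L := D + 1) (by simp; omega))
      (Submodule.smul_mem _ (c k) (Sp_mono c (Nat.le_add_right D 1) h)) using 1
    funext ξ; simp [W, dl]; ring

omit [Fintype ι] in
theorem Feas.eq_mul {c : ι → ℝ} {ρ : ℝ} {L : ℕ} {E : J → MvPolynomial ι ℝ} {M : Fn ι →ₗ[ℝ] ℝ}
    (hM : Feas c ρ L E M) {g : Fn ι} (hg : g ∈ Sp c L) (j : J) :
    M (g * fun ξ => eval ξ (E j)) = 0 := by
  induction hg using Submodule.span_induction with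
  | mem x hx =>
    obtain ⟨⟨l, hl⟩, rfl⟩ := hx
    exact hM.eq j l hl
  | zero => simp
  | add x y _ _ hx hy => rw [add_mul, map_add, hx, hy, add_zero]
  | smul r x _ hx => rw [smul_mul_assoc, map_smul, hx, smul_zero]

omit [Fintype ι] in
theorem Feas.eq_one {c : ι → ℝ} {ρ : ℝ} {L : ℕ} {E : J → MvPolynomial ι ℝ} {M : Fn ι →ₗ[ℝ] ℝ}
    (hM : Feas c ρ L E M) (j : J) : M (fun ξ => eval ξ (E j)) = 0 := by
  simpa using hM.eq j [] (Nat.zero_le _)

omit [Fintype ι] in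
theorem Feas.mono {c : ι → ℝ} {ρ ρ' : ℝ} {L : ℕ} {E : J → MvPolynomial ι ℝ} {M : Fn ι →ₗ[ℝ] ℝ}
    (hM : Feas c ρ L E M) (h0 : 0 ≤ ρ) (h : ρ ≤ ρ') : Feas c ρ' L E M := by
  refine ⟨hM.sq, fun k g hg => ?_, hM.eq⟩
  have h1 := hM.box k g hg
  have h2 := mul_nonneg (sub_nonneg.2 (pow_le_pow_left₀ h0 h 2)) (hM.sq g hg)
  rw [sub_mul, map_sub, smul_mul_assoc, one_mul, map_smul, smul_eq_mul] at h1 ⊢
  nlinarith

/-- `M` of a coordinate is its centre value up to the box size. -/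
theorem Feas.coord {c : ι → ℝ} {ρ : ℝ} {L : ℕ} {E : J → MvPolynomial ι ℝ} {M : Fn ι →ₗ[ℝ] ℝ}
    (hM : Feas c ρ L E M) (hρ : 0 < ρ) (k : ι) (hL : 1 ≤ L) :
    |M (fun ξ => ξ k) - c k * M 1| ≤ ρ * M 1 := by
  have : (fun ξ : ι → ℝ => ξ k) = dl c k + c k • (1 : Fn ι) := by funext ξ; simp [dl]
  rw [this, map_add, map_smul, smul_eq_mul, add_sub_cancel_right]
  exact hM.first hρ k hL

variable {n : ℕ} {p : MvPolynomial (Fin n) ℝ} {d : ℕ} {e : Fin n → ℝ} (H : Hyp p d e)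
include H

theorem Hyp.isCompact_base :
    IsCompact {y : Fin n → ℝ | y ∈ cone p e ∧ l0 p e y = 1} := by
  have hc : IsClosed {y : Fin n → ℝ | y ∈ cone p e ∧ l0 p e y = 1} :=
    (isClosed_cone p e).inter (isClosed_eq continuous_l0 continuous_const)
  have hS : IsCompact (Metric.sphere (0 : Fin n → ℝ) 1 ∩ cone p e) :=
    (isCompact_sphere _ _).inter_right (isClosed_cone p e)
  obtain ⟨μ, hμ, hle⟩ : ∃ μ > 0, ∀ x ∈ Metric.sphere (0 : Fin n → ℝ) 1 ∩ cone p e,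
      μ ≤ l0 p e x := by
    rcases (Metric.sphere (0 : Fin n → ℝ) 1 ∩ cone p e).eq_empty_or_nonempty with h0 | h0
    · exact ⟨1, one_pos, by simp [h0]⟩
    obtain ⟨x, hx, hmin⟩ := hS.exists_isMinOn h0 (continuous_l0 (p := p) (e := e)).continuousOn
    exact ⟨_, H.l0_pos hx.2 (fun h => by have h' := hx.1; rw [h] at h'; simp at h'),
      fun y hy => hmin hy⟩
  refine (isCompact_closedBall (0 : Fin n → ℝ) (1 / μ)).of_isClosed_subset hc fun y hy => ?_
  rw [mem_closedBall_zero_iff]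
  have hne : y ≠ 0 := fun h => by have h' := hy.2; rw [h] at h'; simp [l0, lc_one] at h'
  have hn : 0 < ‖y‖ := norm_pos_iff.2 hne
  have h1 := hle (‖y‖⁻¹ • y) ⟨by simp [norm_smul, hn.ne'], H.cone_smul hy.1 (inv_nonneg.2 hn.le)⟩
  rw [l0_smul, hy.2, mul_one] at h1
  rw [le_div_iff₀ hμ]
  have := mul_le_mul_of_nonneg_left h1 hn.le
  rwa [mul_inv_cancel₀ hn.ne'] at this

theorem Hyp.base_bd_compact :
    IsCompact {y : Fin n → ℝ | y ∈ cone p e ∧ l0 p e y = 1 ∧ eval y p = 0} := by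
  have : {y : Fin n → ℝ | y ∈ cone p e ∧ l0 p e y = 1 ∧ eval y p = 0} =
      {y : Fin n → ℝ | y ∈ cone p e ∧ l0 p e y = 1} ∩ {y | eval y p = 0} := by
    ext y; simp only [Set.mem_ofPred_eq, Set.mem_inter_iff]; tauto
  rw [this]
  exact H.isCompact_base.inter_right (isClosed_eq (MvPolynomial.continuous_eval p) continuous_const)

end Vale.Agent.P256.Conical
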