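import Vale.Agent.P256.Conical.Line
import Vale.Agent.P256.Basic

/-!
Gårding's theory of hyperbolicity cones and the second-order behaviour of their boundary.
-/

namespace Vale.Agent.P256.Conical

open MvPolynomial Finset Topology Filter

variable {n : ℕ}

/-- `p` is hyperbolic of degree `d` with respect to `e`. -/
structure HB (p : MvPolynomial (Fin n) ℝ) (d : ℕ) (e : Fin n → ℝ) : Prop where
  hom : p.IsHomogeneous d
  pos : 0 < eval e p
  rr : ∀ x, RR (line p x e)

/-- The cone, through coefficient signs. -/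
def cone (p : MvPolynomial (Fin n) ℝ) (e : Fin n → ℝ) : Set (Fin n → ℝ) :=
  {x | ∀ k, 0 ≤ lc p k x e}

/-- The open cone. -/
def inner (p : MvPolynomial (Fin n) ℝ) (d : ℕ) (e : Fin n → ℝ) : Set (Fin n → ℝ) :=
  {x | ∀ k ∈ range (d + 1), 0 < lc p k x e}

theorem isClosed_cone (p : MvPolynomial (Fin n) ℝ) (e : Fin n → ℝ) : IsClosed (cone p e) := by
  simp only [cone, Set.ofPred_forall]
  exact isClosed_iInter fun k =>
    isClosed_le continuous_const (continuous_lc p k continuous_id continuous_const)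

theorem isOpen_inner (p : MvPolynomial (Fin n) ℝ) (d : ℕ) (e : Fin n → ℝ) :
    IsOpen (inner p d e) := by
  have : inner p d e = ⋂ k ∈ range (d + 1), {x | 0 < lc p k x e} := by
    ext x; simp [inner]
  rw [this]
  exact isOpen_biInter_finset fun k _ =>
    isOpen_lt continuous_const (continuous_lc p k continuous_id continuous_const)

/-- Restriction to a complex line. -/
noncomputable def cline (p : MvPolynomial (Fin n) ℝ) (w a : Fin n → ℂ) : Polynomial ℂ :=
  aeval (fun i => Polynomial.C (w i) + Polynomial.C (a i) * Polynomial.X) p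

theorem eval_cline (p : MvPolynomial (Fin n) ℝ) (w a : Fin n → ℂ) (s : ℂ) :
    (cline p w a).eval s = aeval (fun i => w i + a i * s) p := by
  have h : (cline p w a).eval s = (Polynomial.aeval s).restrictScalars ℝ (cline p w a) := by
    simp [Polynomial.coe_aeval_eq_eval]
  rw [h, cline, ← AlgHom.comp_apply, comp_aeval]
  simp

theorem cline_degree {p : MvPolynomial (Fin n) ℝ} {d : ℕ} (hp : p.IsHomogeneous d)
    (w a : Fin n → ℂ) :
    (cline p w a).natDegree ≤ d ∧ (cline p w a).coeff d = aeval a p := by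
  suffices H : ∀ m : Fin n →₀ ℕ,
      (m.prod fun i j => (Polynomial.C (w i) + Polynomial.C (a i) * Polynomial.X) ^ j).natDegree
        ≤ m.degree ∧
      (m.prod fun i j => (Polynomial.C (w i) + Polynomial.C (a i) * Polynomial.X) ^ j).coeff
        m.degree = m.prod fun i j => a i ^ j by
    have hd : ∀ m ∈ p.support, m.degree = d := fun m hm => by
      have := hp (mem_support_iff.1 hm)
      rw [Finsupp.degree_eq_weight_one]; exact this
    rw [p.as_sum, cline, map_sum, map_sum, Polynomial.finsetSum_coeff]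
    refine ⟨Polynomial.natDegree_sum_le_of_forall_le _ _ fun m hm => ?_,
      sum_congr rfl fun m hm => ?_⟩
    · rw [aeval_monomial, ← hd m hm]
      exact (Polynomial.natDegree_C_mul_le _ _).trans (H m).1
    · rw [aeval_monomial, aeval_monomial, ← hd m hm, ← (H m).2]
      exact Polynomial.coeff_C_mul _
  intro m
  induction m using Finsupp.induction with
  | zero => simp
  | @single_add i j f hi hj ih =>
    rw [Finsupp.prod_add_index' (by simp) (fun _ _ _ => pow_add _ _ _),
      Finsupp.prod_add_index' (by simp) (fun _ _ _ => pow_add _ _ _), map_add,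
      Finsupp.prod_single_index (by simp), Finsupp.prod_single_index (by simp),
      Finsupp.degree_single]
    have h1 : (Polynomial.C (w i) + Polynomial.C (a i) * Polynomial.X).natDegree ≤ 1 := by
      refine Polynomial.natDegree_add_le_of_degree_le (by simp) ?_
      exact (Polynomial.natDegree_C_mul_le _ _).trans Polynomial.natDegree_X_le
    have h2 : ((Polynomial.C (w i) + Polynomial.C (a i) * Polynomial.X) ^ j).natDegree ≤ j :=
      Polynomial.natDegree_pow_le.trans (by simpa using Nat.mul_le_mul_left j h1)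
    refine ⟨Polynomial.natDegree_mul_le.trans (add_le_add h2 ih.1), ?_⟩
    rw [Polynomial.coeff_mul_add_eq_of_natDegree_le h2 ih.1, ih.2]
    have := Polynomial.coeff_pow_of_natDegree_le (m := j) h1
    rw [mul_one] at this
    rw [this]
    simp [Polynomial.coeff_C]

theorem cline_lower {p : MvPolynomial (Fin n) ℝ} {d : ℕ} (hp : p.IsHomogeneous d)
    (w a : Fin n → ℂ) (ha : aeval a p ≠ 0)
    (hr : ∀ z : ℂ, 0 < z.im → aeval (fun i => w i + a i * z) p ≠ 0) {s : ℂ} (hs : 0 < s.im) :
    ‖aeval a p‖ * s.im ^ d ≤ ‖aeval (fun i => w i + a i * s) p‖ := by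
  obtain ⟨h1, h2⟩ := cline_degree hp w a
  set Q := cline p w a with hQ
  have hQd : Q.natDegree = d :=
    le_antisymm h1 (Polynomial.le_natDegree_of_ne_zero (by rwa [h2]))
  have hl : Q.leadingCoeff = aeval a p := by rw [Polynomial.leadingCoeff, hQd, h2]
  have hsp : Q.Splits := IsAlgClosed.splits Q
  have hc : Q.roots.card = Q.natDegree := hsp.natDegree_eq_card_roots.symm
  rw [← eval_cline, ← hQ, ← Polynomial.C_leadingCoeff_mul_prod_multiset_X_sub_C hc,
    Polynomial.eval_mul, Polynomial.eval_C, norm_mul, hl, Polynomial.eval_multiset_prod,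
    Multiset.map_map]
  refine mul_le_mul_of_nonneg_left ?_ (norm_nonneg _)
  have hroot : ∀ z ∈ Q.roots, z.im ≤ 0 := by
    intro z hz
    by_contra hzi
    refine hr z (not_le.1 hzi) ?_
    rw [← eval_cline]
    exact (Polynomial.mem_roots'.1 hz).2
  rw [← hQd, ← hc]
  revert hroot
  generalize Q.roots = R
  induction R using Multiset.induction_on with
  | empty => simp
  | cons z t ih =>
    intro hz
    rw [Multiset.card_cons, pow_succ', Multiset.map_cons, Multiset.prod_cons, norm_mul]
    refine mul_le_mul ?_ (ih fun x hx => hz x (Multiset.mem_cons_of_mem hx)) (by positivity)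
      (norm_nonneg _)
    refine le_trans ?_ (Complex.abs_im_le_norm _)
    simp only [Function.comp_apply, Polynomial.eval_sub, Polynomial.eval_X, Polynomial.eval_C,
      Complex.sub_im]
    exact le_trans (by linarith [hz z (Multiset.mem_cons_self z t)]) (le_abs_self _)

variable {p : MvPolynomial (Fin n) ℝ} {d : ℕ} {e : Fin n → ℝ} (h : HB p d e)

include h

theorem HB.ofReal_eval (x : Fin n → ℝ) :
    aeval (fun i => (x i : ℂ)) p = (eval x p : ℂ) := by
  have := eval₂_comp (f := algebraMap ℝ ℂ) (g := x) p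
  simpa [aeval_def, Function.comp_def] using this.symm

theorem HB.line_ne_zero {a : Fin n → ℝ} (ha : eval a p ≠ 0) (x : Fin n → ℝ) : line p x a ≠ 0 :=
  fun h0 => ha (by rw [← lc_top h.hom x a, lc, h0, Polynomial.coeff_zero])

theorem HB.natDegree_eq {a : Fin n → ℝ} (ha : eval a p ≠ 0) (x : Fin n → ℝ) :
    (line p x a).natDegree = d :=
  le_antisymm (natDegree_line_le h.hom.totalDegree_le x a)
    (Polynomial.le_natDegree_of_ne_zero
      (by rw [show (line p x a).coeff d = lc p d x a from rfl, lc_top h.hom]; exact ha))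

theorem HB.leading {a : Fin n → ℝ} (ha : eval a p ≠ 0) (x : Fin n → ℝ) :
    (line p x a).leadingCoeff = eval a p := by
  rw [Polynomial.leadingCoeff, h.natDegree_eq ha, show (line p x a).coeff d = lc p d x a from rfl,
    lc_top h.hom]

theorem HB.inner_pos {x : Fin n → ℝ} (hx : x ∈ inner p d e) : 0 < eval x p := by
  rw [← lc_zero p x e]; exact hx 0 (by simp)

theorem HB.inner_subset : inner p d e ⊆ cone p e := by
  intro x hx k
  rcases le_or_gt k d with hk | hk
  · exact (hx k (mem_range.2 (by omega))).le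
  · rw [lc_eq_zero h.hom.totalDegree_le hk]

theorem HB.eval_pos_of_cone {x : Fin n → ℝ} (hx : x ∈ cone p e) {s : ℝ} (hs : 0 < s) :
    0 < eval (x + s • e) p := by
  rw [← eval_line]
  refine eval_pos_of_coeff_nonneg (natDegree_line_le h.hom.totalDegree_le _ _) hx le_rfl ?_ hs
  rw [show (line p x e).coeff d = lc p d x e from rfl, lc_top h.hom]; exact h.pos

/-- Positivity on the whole ray characterises the open cone. -/
theorem HB.inner_of_pos {x : Fin n → ℝ} (hx : ∀ s : ℝ, 0 ≤ s → eval (x + s • e) p ≠ 0) :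
    x ∈ inner p d e := fun k hk => by
  refine (h.rr x).coeff_pos ?_ (fun s hs => by rw [eval_line]; exact hx s hs) k ?_
  · rw [h.leading h.pos.ne']; exact h.pos
  · rw [h.natDegree_eq h.pos.ne']; exact Nat.lt_succ_iff.1 (mem_range.1 hk)

theorem HB.inner_of_cone_pos {x : Fin n → ℝ} (hx : x ∈ cone p e) (hp : eval x p ≠ 0) :
    x ∈ inner p d e := by
  refine h.inner_of_pos fun s hs => ?_
  rcases hs.eq_or_lt with rfl | hs
  · simpa using hp
  · exact (h.eval_pos_of_cone hx hs).ne'

theorem HB.inner_add_e {x : Fin n → ℝ} (hx : x ∈ cone p e) {t : ℝ} (ht : 0 < t) :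
    x + t • e ∈ inner p d e := by
  refine h.inner_of_pos fun s hs => ?_
  rw [add_assoc, ← add_smul]
  exact (h.eval_pos_of_cone hx (by linarith)).ne'

theorem HB.lc_smul_left (x u : Fin n → ℝ) (c : ℝ) {k : ℕ} (hk : k ≤ d) :
    lc p k (c • x) u = c ^ (d - k) * lc p k x u := by
  rw [lc_reflect h.hom hk, lc_scale h.hom.totalDegree_le, lc_reflect h.hom hk x u]

theorem HB.cone_smul {x : Fin n → ℝ} (hx : x ∈ cone p e) {c : ℝ} (hc : 0 ≤ c) :
    c • x ∈ cone p e := fun k => by
  rcases le_or_gt k d with hk | hk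
  · rw [h.lc_smul_left _ _ _ hk]; exact mul_nonneg (by positivity) (hx k)
  · rw [lc_eq_zero h.hom.totalDegree_le hk]

theorem HB.inner_smul {x : Fin n → ℝ} (hx : x ∈ inner p d e) {c : ℝ} (hc : 0 < c) :
    c • x ∈ inner p d e := fun k hk => by
  rw [h.lc_smul_left _ _ _ (Nat.lt_succ_iff.1 (mem_range.1 hk))]
  exact mul_pos (by positivity) (hx k hk)

theorem HB.e_inner : e ∈ inner p d e := by
  refine h.inner_of_pos fun s hs => ?_
  rw [show e + s • e = (1 + s) • e by rw [add_smul, one_smul], eval_smul h.hom]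
  exact mul_ne_zero (pow_ne_zero _ (by linarith)) h.pos.ne'

theorem HB.zero_mem : (0 : Fin n → ℝ) ∈ cone p e := by
  simpa using h.cone_smul (h.inner_subset h.e_inner) (le_refl (0 : ℝ))

/-- Hyperbolicity with respect to every interior point (Gårding). -/
theorem HB.garding {a : Fin n → ℝ} (ha : a ∈ inner p d e) (x : Fin n → ℝ) : RR (line p x a) := by
  have hpa : 0 < eval a p := h.inner_pos ha
  have hpaC : aeval (fun i => (a i : ℂ)) p ≠ 0 := by
    rw [h.ofReal_eval]; exact_mod_cast hpa.ne'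
  let w : ℝ → ℝ → Fin n → ℂ := fun τ ε i => (τ : ℂ) * x i + Complex.I * ε * e i
  let F : ℝ → ℝ → ℂ → ℂ := fun τ ε s => aeval (fun i => w τ ε i + (a i : ℂ) * s) p
  have hF : Continuous fun q : ℝ × ℝ × ℂ => F q.1 q.2.1 q.2.2 := by
    simp only [F, w, aeval_def, eval₂_eq_eval_map]
    exact (MvPolynomial.continuous_eval _).comp (continuous_pi fun i => by fun_prop)
  have hroot : ∀ (y : Fin n → ℝ) (ε : ℝ), ε ≠ 0 →
      aeval (fun i => (y i : ℂ) + (e i : ℂ) * (Complex.I * ε)) p ≠ 0 := by
    intro y ε hε h0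
    have h1 := aeval_line (A := ℂ) p y e (Complex.I * ε)
    simp only [Complex.coe_algebraMap] at h1
    rw [h0] at h1
    simpa [hε] using h.rr y (Complex.I * ε) h1
  have hreal : ∀ τ ε (s : ℂ), ε ≠ 0 → s.im = 0 → F τ ε s ≠ 0 := by
    intro τ ε s hε hs
    have : s = ((s.re : ℝ) : ℂ) := Complex.ext rfl (by simp [hs])
    convert hroot (fun i => τ * x i + s.re * a i) ε hε using 3 with i
    simp only [w]; rw [this]; funext i; simp; ring
  have main : ∀ ε : ℝ, 0 < ε → ∀ s : ℂ, 0 < s.im → eval a p * s.im ^ d ≤ ‖F 1 ε s‖ := by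
    intro ε hε
    let G : Set (Set.Icc (0 : ℝ) 1) := {τ | ∀ s : ℂ, 0 < s.im → eval a p * s.im ^ d ≤ ‖F τ ε s‖}
    have hGiff : ∀ τ : Set.Icc (0 : ℝ) 1, τ ∈ G ↔ ∀ s : ℂ, 0 ≤ s.im → F τ ε s ≠ 0 := by
      intro τ
      refine ⟨fun hτ s hs => ?_, fun hτ s hs => ?_⟩
      · rcases hs.eq_or_lt with hs | hs
        · exact hreal _ _ _ hε.ne' hs.symm
        · intro h0
          have h3 := hτ s hs
          rw [h0, norm_zero] at h3
          nlinarith [pow_pos hs d]
      · have := cline_lower h.hom (w τ ε) (fun i => (a i : ℂ)) hpaC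
          (fun z hz => hτ z hz.le) hs
        rwa [h.ofReal_eval, Complex.norm_real, Real.norm_of_nonneg hpa.le] at this
    have hclosed : IsClosed G := by
      simp only [G, Set.ofPred_forall]
      refine isClosed_iInter fun s => isClosed_iInter fun _ => isClosed_le continuous_const ?_
      exact (hF.comp (f := fun τ : Set.Icc (0 : ℝ) 1 => ((τ : ℝ), ε, s)) (by fun_prop)).norm
    have hU : IsOpen {z : Fin n → ℂ | aeval z p ≠ 0} := by
      refine isOpen_ne_fun ?_ continuous_const
      simp only [aeval_def, eval₂_eq_eval_map]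
      exact MvPolynomial.continuous_eval _
    obtain ⟨δ, hδ, hball⟩ := Metric.isOpen_iff.1 hU (fun i => (a i : ℂ)) hpaC
    obtain ⟨W, hW⟩ := ((isCompact_Icc (a := (0 : ℝ)) (b := 1)).image
      (f := fun τ => w τ ε) (by fun_prop)).isBounded.exists_norm_le
    have hbound : ∀ τ : Set.Icc (0 : ℝ) 1, ∀ s : ℂ, F τ ε s = 0 → ‖s‖ ≤ W / δ := by
      intro τ s hs
      by_contra hlt
      rw [not_le, div_lt_iff₀ hδ] at hlt
      have hW0 : ‖w τ ε‖ ≤ W := hW _ ⟨τ, τ.2, rfl⟩
      have hs0 : 0 < ‖s‖ := by nlinarith [norm_nonneg (w τ ε)]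
      have hs1 : s ≠ 0 := norm_pos_iff.1 hs0
      have hmem : (fun i => (a i : ℂ)) + s⁻¹ • w τ ε ∈ Metric.ball (fun i => (a i : ℂ)) δ := by
        rw [mem_ball_iff_norm, add_sub_cancel_left, norm_smul, norm_inv, inv_mul_lt_iff₀ hs0]
        linarith
      refine hball hmem ?_
      have := aeval_smul h.hom s ((fun i => (a i : ℂ)) + s⁻¹ • w τ ε)
      have heq : (fun i => s * (((fun j => (a j : ℂ)) + s⁻¹ • w τ ε : Fin n → ℂ) i)) =
          fun i => w τ ε i + (a i : ℂ) * s := by
        funext i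
        simp only [Pi.add_apply, Pi.smul_apply, smul_eq_mul]
        field_simp
        ring
      rw [heq, show aeval (fun i => w τ ε i + (a i : ℂ) * s) p = 0 from hs] at this
      exact (mul_eq_zero.1 this.symm).resolve_left (pow_ne_zero _ hs1)
    have hopen : IsOpen G := by
      rw [← isClosed_compl_iff]
      have hK : IsCompact (Metric.closedBall (0 : ℂ) (W / δ) ∩ {s | 0 ≤ s.im}) :=
        (isCompact_closedBall _ _).inter_right (isClosed_le continuous_const Complex.continuous_im)
      have : Gᶜ = Prod.fst '' {q : Set.Icc (0 : ℝ) 1 × ℂ |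
          q.2 ∈ Metric.closedBall (0 : ℂ) (W / δ) ∩ {s | 0 ≤ s.im} ∧ F q.1 ε q.2 = 0} := by
        ext τ
        simp only [Set.mem_compl_iff, hGiff, Set.mem_image, Set.mem_ofPred_eq, Set.mem_inter_iff,
          mem_closedBall_zero_iff]
        push Not
        refine ⟨fun ⟨s, hs, h0⟩ => ⟨(τ, s), ⟨⟨hbound τ s h0, hs⟩, h0⟩, rfl⟩, ?_⟩
        rintro ⟨⟨τ', s⟩, ⟨⟨-, hs⟩, h0⟩, rfl⟩
        exact ⟨s, hs, h0⟩
      rw [this]
      refine (IsCompact.image (IsCompact.of_isClosed_subset (isCompact_univ.prod hK) ?_ ?_)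
        continuous_fst).isClosed
      · refine (hK.isClosed.preimage continuous_snd).inter (isClosed_eq ?_ continuous_const)
        exact hF.comp (f := fun q : Set.Icc (0 : ℝ) 1 × ℂ => ((q.1 : ℝ), ε, q.2)) (by fun_prop)
      · exact fun q hq => ⟨trivial, hq.1⟩
    have h0mem : (⟨0, by simp⟩ : Set.Icc (0 : ℝ) 1) ∈ G := by
      rw [hGiff]
      intro s hs h0
      rcases eq_or_ne s 0 with rfl | hs0
      · exact hreal _ _ _ hε.ne' (by simp) h0
      have h2 : Polynomial.aeval (Complex.I * ε / s) (line p a e) = 0 := by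
        rw [aeval_line]
        simp only [Complex.coe_algebraMap]
        have := aeval_smul h.hom s (fun i => (a i : ℂ) + (e i : ℂ) * (Complex.I * ε / s))
        have heq : (fun i => s * ((a i : ℂ) + (e i : ℂ) * (Complex.I * ε / s))) =
            fun i => w ((⟨0, by simp⟩ : Set.Icc (0 : ℝ) 1) : ℝ) ε i + (a i : ℂ) * s := by
          funext i; simp only [w]; push_cast; field_simp; ring
        rw [heq, show aeval (fun i => w _ ε i + (a i : ℂ) * s) p = 0 from h0] at this
        exact (mul_eq_zero.1 this.symm).resolve_left (pow_ne_zero _ hs0)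
      have him := h.rr a _ h2
      set z := Complex.I * ε / s with hz
      have hz' : z = ((z.re : ℝ) : ℂ) := Complex.ext rfl (by simp [him])
      have hzneg : z.re < 0 := by
        by_contra hge
        have h5 : (line p a e).eval z.re = 0 := by
          rw [hz', ← Complex.coe_algebraMap, Polynomial.aeval_algebraMap_apply] at h2
          simpa [Polynomial.coe_aeval_eq_eval] using h2
        rw [eval_line] at h5
        rcases (not_lt.1 hge).eq_or_lt with h6 | h6
        · rw [← h6] at h5; simp at h5; linarith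
        · linarith [h.eval_pos_of_cone (h.inner_subset ha) h6]
      have h7 : z * s = Complex.I * ε := by rw [hz]; field_simp
      rw [hz'] at h7
      have h8 := congrArg Complex.im h7
      simp at h8
      nlinarith
    have huniv := (show IsClopen G from ⟨hclosed, hopen⟩).eq_univ ⟨_, h0mem⟩
    have h1mem : (⟨1, by simp⟩ : Set.Icc (0 : ℝ) 1) ∈ G := by rw [huniv]; trivial
    exact fun s hs => h1mem s hs
  have hlim : ∀ s : ℂ, 0 < s.im → Polynomial.aeval s (line p x a) ≠ 0 := by
    intro s hs h0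
    have hle : eval a p * s.im ^ d ≤ ‖F 1 0 s‖ := by
      refine ge_of_tendsto (x := 𝓝[>] (0 : ℝ)) (f := fun ε => ‖F 1 ε s‖) ?_
        (eventually_nhdsWithin_of_forall fun ε hε => main ε hε s hs)
      exact ((hF.comp (f := fun ε : ℝ => ((1 : ℝ), ε, s)) (by fun_prop)).norm.tendsto 0).mono_left
        nhdsWithin_le_nhds
    rw [aeval_line] at h0
    simp only [Complex.coe_algebraMap] at h0
    have : F 1 0 s = 0 := by simpa [F, w] using h0
    rw [this, norm_zero] at hle
    nlinarith [pow_pos hs d]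
  intro z hz
  by_contra hne
  rcases lt_or_gt_of_ne hne with hlt | hgt
  · refine hlim (starRingEnd ℂ z) (by simpa using hlt) ?_
    rw [Polynomial.aeval_conj, hz, map_zero]
  · exact hlim z hgt hz

theorem HB.lc_pos_inner {a b : Fin n → ℝ} (ha : a ∈ inner p d e) (hb : b ∈ inner p d e) :
    ∀ k ∈ range (d + 1), 0 < lc p k b a := by
  let c : Set.Icc (0 : ℝ) 1 → Fin n → ℝ := fun τ => (1 - (τ : ℝ)) • b + (τ : ℝ) • e
  have hc : ∀ τ, c τ ∈ inner p d e := by
    intro τ
    rcases eq_or_lt_of_le τ.2.2 with h1 | h1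
    · simp only [c, h1, sub_self, zero_smul, zero_add, one_smul]; exact h.e_inner
    · rcases eq_or_lt_of_le τ.2.1 with h0 | h0
      · simp only [c, ← h0, sub_zero, one_smul, zero_smul, add_zero]; exact hb
      · exact h.inner_add_e (h.cone_smul (h.inner_subset hb) (by linarith)) h0
  have hcc : Continuous c := by fun_prop
  let G : Set (Set.Icc (0 : ℝ) 1) := {τ | ∀ k ∈ range (d + 1), 0 < lc p k (c τ) a}
  have hopen : IsOpen G := by
    have : G = ⋂ k ∈ range (d + 1), {τ | 0 < lc p k (c τ) a} := by ext τ; simp [G]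
    rw [this]
    exact isOpen_biInter_finset fun k _ =>
      isOpen_lt continuous_const (continuous_lc p k hcc continuous_const)
  have hiff : G = {τ | ∀ k, 0 ≤ lc p k (c τ) a} := by
    ext τ
    refine ⟨fun hτ k => ?_, fun hτ k hk => ?_⟩
    · rcases le_or_gt k d with hk | hk
      · exact (hτ k (mem_range.2 (by omega))).le
      · rw [lc_eq_zero h.hom.totalDegree_le hk]
    · have hl : 0 < (line p (c τ) a).leadingCoeff := by
        rw [h.leading (h.inner_pos ha).ne']; exact h.inner_pos ha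
      refine (h.garding ha _).coeff_pos hl (fun s hs => ?_) k ?_
      · rcases hs.eq_or_lt with rfl | hs
        · rw [eval_line, zero_smul, add_zero]; exact (h.inner_pos (hc τ)).ne'
        · exact (eval_pos_of_coeff_nonneg le_rfl hτ le_rfl hl hs).ne'
      · rw [h.natDegree_eq (h.inner_pos ha).ne']; exact Nat.lt_succ_iff.1 (mem_range.1 hk)
  have hclosed : IsClosed G := by
    rw [hiff]; simp only [Set.ofPred_forall]
    exact isClosed_iInter fun k =>
      isClosed_le continuous_const (continuous_lc p k hcc continuous_const)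
  have h1 : (⟨1, by simp⟩ : Set.Icc (0 : ℝ) 1) ∈ G := by
    intro k hk
    simp only [c, sub_self, zero_smul, zero_add, one_smul]
    rw [lc_reflect h.hom (Nat.lt_succ_iff.1 (mem_range.1 hk))]
    exact ha _ (mem_range.2 (by omega))
  have huniv := (show IsClopen G from ⟨hclosed, hopen⟩).eq_univ ⟨_, h1⟩
  have h0 : (⟨0, by simp⟩ : Set.Icc (0 : ℝ) 1) ∈ G := by rw [huniv]; trivial
  intro k hk
  simpa [c] using h0 k hk

theorem HB.lc_nonneg {a b : Fin n → ℝ} (ha : a ∈ cone p e) (hb : b ∈ cone p e) (k : ℕ) :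
    0 ≤ lc p k b a := by
  rcases le_or_gt k d with hk | hk
  swap
  · rw [lc_eq_zero h.hom.totalDegree_le hk]
  refine ge_of_tendsto (x := 𝓝[>] (0 : ℝ)) (f := fun t => lc p k (b + t • e) (a + t • e)) ?_
    (eventually_nhdsWithin_of_forall fun t ht =>
      (h.lc_pos_inner (h.inner_add_e ha ht) (h.inner_add_e hb ht) k (mem_range.2 (by omega))).le)
  have hf : Continuous fun t : ℝ => lc p k (b + t • e) (a + t • e) :=
    continuous_lc p k (by fun_prop) (by fun_prop)
  simpa using (hf.tendsto 0).mono_left nhdsWithin_le_nhds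

theorem HB.inner_add {a b : Fin n → ℝ} (ha : a ∈ inner p d e) (hb : b ∈ cone p e) :
    a + b ∈ inner p d e := by
  refine h.inner_of_pos fun s hs => ne_of_gt ?_
  have hy : a + s • e ∈ inner p d e := by
    rcases hs.eq_or_lt with rfl | hs
    · simpa using ha
    · exact h.inner_add_e (h.inner_subset ha) hs
  rw [show a + b + s • e = (a + s • e) + (1 : ℝ) • b by rw [one_smul]; abel,
    eval_eq_sum_lc h.hom.totalDegree_le]
  refine sum_pos' (fun k _ => mul_nonneg (h.lc_nonneg hb (h.inner_subset hy) k) (by norm_num))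
    ⟨0, by simp, ?_⟩
  simpa [lc_zero] using h.inner_pos hy

theorem HB.cone_add {a b : Fin n → ℝ} (ha : a ∈ cone p e) (hb : b ∈ cone p e) :
    a + b ∈ cone p e := by
  refine (isClosed_cone p e).mem_of_tendsto (b := 𝓝[>] (0 : ℝ)) (f := fun t => a + b + t • e) ?_
    (eventually_nhdsWithin_of_forall fun t ht => ?_)
  · have hf : Continuous fun t : ℝ => a + b + t • e := by fun_prop
    simpa using (hf.tendsto 0).mono_left nhdsWithin_le_nhds
  · rw [show a + b + t • e = a + t • e + b by abel]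
    exact h.inner_subset (h.inner_add (h.inner_add_e ha ht) hb)

theorem HB.eval_nonneg {x : Fin n → ℝ} (hx : x ∈ cone p e) : 0 ≤ eval x p := by
  rw [← lc_zero p x e]; exact hx 0

/-- If the sum of two cone points lies on the boundary, `p` vanishes on their span. -/
theorem HB.span_zero {a b : Fin n → ℝ} (ha : a ∈ cone p e) (hb : b ∈ cone p e)
    (hab : eval (a + b) p = 0) (α β : ℝ) : eval (α • a + β • b) p = 0 := by
  have hz : ∀ k, lc p k a b = 0 := by
    intro k
    rcases le_or_gt k d with hk | hk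
    swap
    · exact lc_eq_zero h.hom.totalDegree_le hk _ _
    rw [show a + b = a + (1 : ℝ) • b by rw [one_smul], eval_eq_sum_lc h.hom.totalDegree_le] at hab
    have := (sum_eq_zero_iff_of_nonneg (fun j _ => mul_nonneg (h.lc_nonneg hb ha j) (by norm_num))).1
      hab k (mem_range.2 (by omega))
    simpa using this
  rcases eq_or_ne α 0 with rfl | hα
  · have h1 : eval b p = 0 := by rw [← lc_top h.hom a b]; exact hz d
    rw [zero_smul, zero_add, eval_smul h.hom, h1, mul_zero]
  · rw [show α • a + β • b = α • (a + (β / α) • b) by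
        rw [smul_add, smul_smul, mul_div_cancel₀ _ hα],
      eval_smul h.hom, eval_eq_sum_lc h.hom.totalDegree_le]
    simp [hz]

/-- On the boundary, a vanishing `e`-derivative forces a vanishing gradient. -/
theorem HB.sing_all {x : Fin n → ℝ} (hx : x ∈ cone p e) (h1 : lc p 1 x e = 0) (u : Fin n → ℝ) :
    lc p 1 x u = 0 := by
  have hnb : ∀ᶠ δ : ℝ in 𝓝 0, e + δ • u ∈ inner p d e ∧ e - δ • u ∈ inner p d e := by
    have hc1 : Continuous fun δ : ℝ => e + δ • u := by fun_prop
    have hc2 : Continuous fun δ : ℝ => e - δ • u := by fun_prop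
    exact ((hc1.tendsto' 0 e (by simp)).eventually ((isOpen_inner p d e).mem_nhds h.e_inner)).and
      ((hc2.tendsto' 0 e (by simp)).eventually ((isOpen_inner p d e).mem_nhds h.e_inner))
  obtain ⟨δ, hδ, hpos⟩ :=
    ((hnb.filter_mono nhdsWithin_le_nhds).and (self_mem_nhdsWithin (a := (0 : ℝ)) (s := Set.Ioi 0))).exists
  have e1 := h.lc_nonneg (h.inner_subset hδ.1) hx 1
  have e2 := h.lc_nonneg (h.inner_subset hδ.2) hx 1
  rw [lc_one] at h1 e1 e2 ⊢
  simp only [Pi.add_apply, Pi.sub_apply, Pi.smul_apply, smul_eq_mul, add_mul, sub_mul, mul_assoc,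
    sum_add_distrib, sum_sub_distrib, ← mul_sum, h1] at e1 e2
  rcases lt_trichotomy (∑ i, u i * grad p x i) 0 with hs | hs | hs
  · nlinarith [show (0 : ℝ) < δ from hpos]
  · exact hs
  · nlinarith [show (0 : ℝ) < δ from hpos]

theorem HB.sing_iff {x : Fin n → ℝ} (hx : x ∈ cone p e) :
    lc p 1 x e = 0 ↔ ∀ i, eval x (pderiv i p) = 0 := by
  refine ⟨fun h1 i => ?_, fun hall => by simp [lc_one, grad, hall]⟩
  have := h.sing_all hx h1 (Pi.single i 1)
  simpa [lc_one, grad, Pi.single_apply] using this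

theorem HB.lc_pos_smooth {x : Fin n → ℝ} (hx : x ∈ cone p e) (h0 : eval x p = 0)
    (h1 : 0 < lc p 1 x e) : ∀ k, 1 ≤ k → k ≤ d → 0 < lc p k x e := by
  obtain ⟨Q, hQ⟩ : Polynomial.X ∣ line p x e := Polynomial.X_dvd_iff.2 (by
    rw [show (line p x e).coeff 0 = lc p 0 x e from rfl, lc_zero, h0])
  have hQk : ∀ j, Q.coeff j = lc p (j + 1) x e := fun j => by
    rw [lc, hQ, Polynomial.coeff_X_mul]
  have hne : line p x e ≠ 0 := h.line_ne_zero h.pos.ne' x
  have hQ0 : Q ≠ 0 := fun h0' => hne (by rw [hQ, h0', mul_zero])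
  have hdeg : Q.natDegree + 1 = d := by
    rw [← h.natDegree_eq h.pos.ne' x, hQ, Polynomial.natDegree_X_mul hQ0]
  have hlead : 0 < Q.leadingCoeff := by
    have h2 := h.leading h.pos.ne' x
    rw [hQ, Polynomial.leadingCoeff_mul, Polynomial.leadingCoeff_X, one_mul] at h2
    rw [h2]; exact h.pos
  intro k hk hkd
  obtain ⟨j, rfl⟩ : ∃ j, k = j + 1 := ⟨k - 1, by omega⟩
  rw [← hQk]
  refine RR.coeff_pos (fun z hz => h.rr x z (by rw [hQ]; simp [hz])) hlead (fun s hs => ?_) j
    (by omega)
  rcases hs.eq_or_lt with rfl | hs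
  · rw [← Polynomial.coeff_zero_eq_eval_zero, hQk]; exact h1.ne'
  · exact (eval_pos_of_coeff_nonneg le_rfl (fun j => by rw [hQk]; exact hx _) le_rfl hlead hs).ne'

omit h in
theorem lc_lip {d : ℕ} (hp : p.totalDegree ≤ d) (v a u : Fin n → ℝ) :
    ∃ B : ℝ, 0 ≤ B ∧ ∀ k, ∀ ε ∈ Set.Icc (0 : ℝ) 1,
      |lc p k (v + ε • a) u - lc p k v u| ≤ B * ε := by
  refine ⟨∑ k ∈ range (d + 1), ∑ j ∈ range (d + 1), |lc (tp p v j) k a u|,
    sum_nonneg fun k _ => sum_nonneg fun j _ => abs_nonneg _, fun k ε hε => ?_⟩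
  rcases le_or_gt k d with hk | hk
  swap
  · rw [lc_eq_zero hp hk, lc_eq_zero hp hk, sub_zero, abs_zero]
    exact mul_nonneg (sum_nonneg fun k _ => sum_nonneg fun j _ => abs_nonneg _) hε.1
  have hv : lc p k v u = ∑ j ∈ range (d + 1), (0 : ℝ) ^ (j - k) * lc (tp p v j) k a u := by
    rw [← lc_near hp, zero_smul, add_zero]
  rw [lc_near hp v a u ε k, hv, ← sum_sub_distrib]
  refine (abs_sum_le_sum_abs _ _).trans ?_
  refine le_trans ?_ (mul_le_mul_of_nonneg_right
    (single_le_sum (f := fun k => ∑ j ∈ range (d + 1), |lc (tp p v j) k a u|)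
      (fun k _ => sum_nonneg fun j _ => abs_nonneg _) (mem_range.2 (Nat.lt_succ_iff.2 hk))) hε.1)
  rw [sum_mul]
  refine sum_le_sum fun j _ => ?_
  rw [← sub_mul, abs_mul, mul_comm]
  refine mul_le_mul_of_nonneg_left ?_ (abs_nonneg _)
  rcases Nat.eq_zero_or_pos (j - k) with h0 | h0
  · simp [h0, hε.1]
  · rw [zero_pow (by omega), sub_zero, abs_of_nonneg (pow_nonneg hε.1 _)]
    exact pow_le_of_le_one hε.1 hε.2 (by omega)

omit h in
/-- Three consecutive coefficients of order `ε` push all higher coefficients to zero. -/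
theorem higher_zero {d : ℕ} (f : ℝ → Polynomial ℝ) (c : ℕ → ℝ) (i : ℕ) {B β : ℝ} (hβ : 0 < β)
    (hrr : ∀ ε ∈ Set.Ioc (0 : ℝ) 1, RR (f ε)) (hd : ∀ ε, (f ε).natDegree ≤ d)
    (hlip : ∀ k, ∀ ε ∈ Set.Icc (0 : ℝ) 1, |(f ε).coeff k - c k| ≤ B * ε)
    (hlo : ∀ᶠ ε in 𝓝[>] (0 : ℝ), β * ε ≤ |(f ε).coeff i|)
    (h0 : c i = 0) (h1 : c (i + 1) = 0) (h2 : c (i + 2) = 0) : ∀ k, i ≤ k → c k = 0 := by
  have hB : 0 ≤ B := by simpa using (abs_nonneg _).trans (hlip 0 1 (by simp))
  set Φ : ℕ → ℝ := fun j => ((i + j).descFactorial i : ℝ)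
  have hΦ : ∀ j, 1 ≤ Φ j := fun j => by
    simp only [Φ, Nat.one_le_cast]; exact Nat.descFactorial_pos.2 (by omega)
  set A := (Φ 1 + Φ 2) * B / β with hA
  have hA0 : 0 ≤ A := by have := hΦ 1; have := hΦ 2; positivity
  intro k hk
  obtain ⟨j, rfl⟩ : ∃ j, k = i + j := ⟨k - i, by omega⟩
  have key : ∀ᶠ ε in 𝓝[>] (0 : ℝ), |c (i + j)| ≤ ((2 + A) ^ d * Φ 0 * B + B) * ε := by
    filter_upwards [hlo, Ioc_mem_nhdsGT (zero_lt_one' ℝ)] with ε hε hε1
    have hε' : ε ∈ Set.Icc (0 : ℝ) 1 := ⟨hε1.1.le, hε1.2⟩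
    have hco : ∀ m, (Polynomial.derivative^[i] (f ε)).coeff m = Φ m * (f ε).coeff (i + m) := by
      intro m
      rw [Polynomial.coeff_iterate_derivative, nsmul_eq_mul, add_comm m i]
    have hq0 : Φ 0 * β * ε ≤ |(Polynomial.derivative^[i] (f ε)).coeff 0| := by
      rw [hco, abs_mul, abs_of_nonneg (zero_le_one.trans (hΦ 0)), mul_assoc]
      exact mul_le_mul_of_nonneg_left hε (zero_le_one.trans (hΦ 0))
    have hne : (Polynomial.derivative^[i] (f ε)).coeff 0 ≠ 0 := by
      intro hz; rw [hz, abs_zero] at hq0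
      nlinarith [hΦ 0, mul_pos hβ hε1.1]
    have hsmall : ∀ m, c (i + m) = 0 → Φ m ≤ Φ 1 + Φ 2 →
        |(Polynomial.derivative^[i] (f ε)).coeff m| ≤
          A * |(Polynomial.derivative^[i] (f ε)).coeff 0| := by
      intro m hm hm'
      have := hlip (i + m) ε hε'
      rw [hm, sub_zero] at this
      rw [hco, abs_mul, abs_of_nonneg (zero_le_one.trans (hΦ m))]
      calc Φ m * |(f ε).coeff (i + m)| ≤ (Φ 1 + Φ 2) * (B * ε) :=
            mul_le_mul hm' this (abs_nonneg _) (by linarith [hΦ 1, hΦ 2])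
        _ = A * (β * ε) := by rw [hA]; field_simp
        _ ≤ A * (Φ 0 * β * ε) := by
            refine mul_le_mul_of_nonneg_left ?_ hA0
            nlinarith [hΦ 0, mul_pos hβ hε1.1]
        _ ≤ _ := mul_le_mul_of_nonneg_left hq0 hA0
    have hb := ((hrr ε hε1).iterate_derivative i (fun hz => hne (by rw [hz, Polynomial.coeff_zero]))).coeff_bound
      ((Polynomial.natDegree_iterate_derivative _ _).trans ((Nat.sub_le _ _).trans (hd ε)))
      hA0 hne (hsmall 1 h1 (by linarith [hΦ 2])) (hsmall 2 h2 (by linarith [hΦ 1])) j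
    rw [hco, hco, abs_mul, abs_mul, abs_of_nonneg (zero_le_one.trans (hΦ j)),
      abs_of_nonneg (zero_le_one.trans (hΦ 0))] at hb
    have hl0 := hlip i ε hε'
    rw [h0, sub_zero] at hl0
    have hlj := hlip (i + j) ε hε'
    have h3 : |(f ε).coeff (i + j)| ≤ (2 + A) ^ d * Φ 0 * B * ε := by
      refine le_trans (le_mul_of_one_le_left (abs_nonneg _) (hΦ j)) (hb.trans ?_)
      rw [mul_assoc ((2 + A) ^ d * Φ 0), mul_assoc ((2 + A) ^ d), Nat.add_zero]
      exact mul_le_mul_of_nonneg_left (mul_le_mul_of_nonneg_left hl0 (zero_le_one.trans (hΦ 0)))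
        (by positivity)
    calc |c (i + j)| = |(f ε).coeff (i + j) - ((f ε).coeff (i + j) - c (i + j))| := by ring_nf
      _ ≤ _ := (abs_sub _ _).trans (by linarith)
  have : |c (i + j)| ≤ 0 := by
    refine ge_of_tendsto (x := 𝓝[>] (0 : ℝ)) ?_ key
    have hf : Continuous fun ε : ℝ => ((2 + A) ^ d * Φ 0 * B + B) * ε := by fun_prop
    simpa using (hf.tendsto 0).mono_left nhdsWithin_le_nhds
  exact abs_nonpos_iff.1 this

/-- Along a tangent direction at a smooth boundary point the second coefficient is nonpositive,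
and if it vanishes then `p` vanishes on the whole line. -/
theorem HB.second_order {c : Fin n → ℝ} (hc : c ∈ cone p e) (h0 : eval c p = 0)
    (h1 : 0 < lc p 1 c e) {u : Fin n → ℝ} (hu : lc p 1 c u = 0) :
    lc p 2 c u ≤ 0 ∧ (lc p 2 c u = 0 → ∀ s : ℝ, eval (c + s • u) p = 0) := by
  obtain ⟨B, hB, hlip⟩ := lc_lip h.hom.totalDegree_le c e u
  have hrr : ∀ ε ∈ Set.Ioc (0 : ℝ) 1, RR (line p (c + ε • e) u) := by
    intro ε hε
    have hg := h.garding (h.inner_add_e hc hε.1) u
    intro z hz
    rcases eq_or_ne z 0 with rfl | hz0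
    · simp
    · have h2 : Polynomial.aeval z⁻¹ (line p u (c + ε • e)) = 0 := by
        rw [aeval_line] at hz ⊢
        have := aeval_smul h.hom z⁻¹
          (fun i => algebraMap ℝ ℂ ((c + ε • e) i) + algebraMap ℝ ℂ (u i) * z)
        rw [hz, mul_zero] at this
        rw [← this]
        congr 2
        funext i; field_simp; ring
      have h3 := hg _ h2
      simpa [Complex.inv_im, hz0] using h3
  have hlow : ∀ᶠ ε in 𝓝[>] (0 : ℝ), lc p 1 c e * ε ≤ lc p 0 (c + ε • e) u := by
    filter_upwards [self_mem_nhdsWithin] with ε (hε : (0 : ℝ) < ε)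
    rw [lc_zero, eval_eq_sum_lc h.hom.totalDegree_le]
    rcases Nat.eq_zero_or_pos d with hd | hd
    · have := lc_eq_zero h.hom.totalDegree_le (k := 1) (by omega) c e
      linarith
    · refine le_trans (le_of_eq ?_) (single_le_sum
        (f := fun k => lc p k c e * ε ^ k) (fun k _ => mul_nonneg (hc k) (by positivity))
        (mem_range.2 (by omega : 1 < d + 1)))
      simp
  have hnewton : ∀ q : Polynomial ℝ, RR q → 2 * (q.coeff 0 * q.coeff 2) ≤ q.coeff 1 ^ 2 := by
    intro q hq
    obtain ⟨a, S, rfl⟩ := hq.factor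
    simp only [Polynomial.coeff_C_mul]
    suffices 2 * ((rootsProd S).coeff 0 * (rootsProd S).coeff 2) ≤ (rootsProd S).coeff 1 ^ 2 by
      nlinarith [mul_le_mul_of_nonneg_left this (sq_nonneg a)]
    clear hq
    induction S using Multiset.induction_on with
    | empty => simp [rootsProd, Polynomial.coeff_one]
    | cons r t ih =>
      simp only [rootsProd, Multiset.map_cons, Multiset.prod_cons] at ih ⊢
      simp only [sub_mul, Polynomial.coeff_sub, Polynomial.coeff_X_mul, Polynomial.coeff_C_mul,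
        Polynomial.coeff_X_mul_zero]
      generalize (Multiset.map (fun r => Polynomial.X - Polynomial.C r) t).prod = P at ih ⊢
      nlinarith [mul_le_mul_of_nonneg_left ih (sq_nonneg r), sq_nonneg (P.coeff 0)]
  refine ⟨?_, fun h2 => ?_⟩
  · have key : ∀ᶠ ε in 𝓝[>] (0 : ℝ), lc p 2 c u ≤ (B ^ 2 / (2 * lc p 1 c e) + B) * ε := by
      filter_upwards [hlow, Ioc_mem_nhdsGT (zero_lt_one' ℝ)] with ε hε hε1
      have hε' : ε ∈ Set.Icc (0 : ℝ) 1 := ⟨hε1.1.le, hε1.2⟩
      have hn : 2 * (lc p 0 (c + ε • e) u * lc p 2 (c + ε • e) u) ≤ lc p 1 (c + ε • e) u ^ 2 :=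
        hnewton _ (hrr ε hε1)
      have e1 := hlip 1 ε hε'
      rw [hu, sub_zero] at e1
      have e1' : lc p 1 (c + ε • e) u ^ 2 ≤ (B * ε) ^ 2 := by
        rw [← sq_abs]; exact pow_le_pow_left₀ (abs_nonneg _) e1 2
      have e2 := abs_le.1 (hlip 2 ε hε')
      by_contra hlt
      have hpos : 0 < lc p 2 (c + ε • e) u := by
        nlinarith [mul_nonneg (div_nonneg (sq_nonneg B) (by linarith : 0 ≤ 2 * lc p 1 c e)) hε'.1]
      have h5 : 2 * lc p 1 c e * lc p 2 (c + ε • e) u ≤ B ^ 2 * ε := by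
        refine le_of_mul_le_mul_left ?_ hε1.1
        nlinarith [mul_le_mul_of_nonneg_right hε hpos.le]
      have h6 : lc p 2 (c + ε • e) u ≤ B ^ 2 / (2 * lc p 1 c e) * ε := by
        rw [div_mul_eq_mul_div, le_div_iff₀ (by linarith)]; linarith
      linarith
    refine ge_of_tendsto ?_ key
    have hf : Continuous fun ε : ℝ => (B ^ 2 / (2 * lc p 1 c e) + B) * ε := by fun_prop
    simpa using (hf.tendsto 0).mono_left nhdsWithin_le_nhds
  · intro s
    have hz := higher_zero (d := d) (fun ε => line p (c + ε • e) u) (fun k => lc p k c u) 0 h1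
      hrr (fun ε => natDegree_line_le h.hom.totalDegree_le _ _) hlip
      (hlow.mono fun ε hε => hε.trans (le_abs_self _)) (by simp [lc_zero, h0]) hu h2
    rw [eval_eq_sum_lc h.hom.totalDegree_le]
    exact sum_eq_zero fun k _ => by rw [hz k (Nat.zero_le _), zero_mul]

/-- A line in the zero set leaves the cone through a singular point. -/
theorem HB.exit_sing {x u : Fin n → ℝ} (hx : x ∈ cone p e) (hu : u ∉ cone p e)
    (hz : ∀ s : ℝ, eval (x + s • u) p = 0) :
    ∃ s : ℝ, 0 ≤ s ∧ x + s • u ∈ cone p e ∧ lc p 1 (x + s • u) e = 0 := by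
  set S := {s : ℝ | 0 ≤ s ∧ x + s • u ∈ cone p e}
  have hbdd : BddAbove S := by
    by_contra hb
    simp only [not_bddAbove_iff] at hb
    choose f hf hf' using fun m : ℕ => hb m
    refine hu ((isClosed_cone p e).mem_of_tendsto (b := atTop)
      (f := fun m : ℕ => (f m)⁻¹ • x + u) ?_ ?_)
    · have hlim : Tendsto f atTop atTop :=
        tendsto_atTop_mono (fun m => (hf' m).le) tendsto_natCast_atTop_atTop
      simpa using ((tendsto_inv_atTop_zero.comp hlim).smul_const x).add_const u
    · refine Eventually.of_forall fun m => ?_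
      have hpos : 0 < f m := lt_of_le_of_lt (Nat.cast_nonneg m) (hf' m)
      have := h.cone_smul (hf m).2 (inv_nonneg.2 hpos.le)
      rwa [smul_add, smul_smul, inv_mul_cancel₀ hpos.ne', one_smul] at this
  have hcl : IsClosed S :=
    (isClosed_le continuous_const continuous_id).inter
      ((isClosed_cone p e).preimage (by fun_prop : Continuous fun s : ℝ => x + s • u))
  have hne : S.Nonempty := ⟨0, le_rfl, by simpa using hx⟩
  obtain ⟨hs0, hsc⟩ := hcl.csSup_mem hne hbdd
  refine ⟨sSup S, hs0, hsc, ?_⟩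
  by_contra hne1
  have hpos := h.lc_pos_smooth hsc (hz _) (lt_of_le_of_ne (hsc 1) (Ne.symm hne1))
  have hev : ∀ᶠ s in 𝓝 (sSup S), ∀ k ∈ Finset.Icc 1 d, 0 < lc p k (x + s • u) e := by
    rw [Filter.eventually_all_finset]
    intro k hk
    exact continuousAt_const.eventually_lt
      ((continuous_lc p k (by fun_prop) continuous_const).continuousAt)
      (hpos k (Finset.mem_Icc.1 hk).1 (Finset.mem_Icc.1 hk).2)
  obtain ⟨s, hs, hslt⟩ := ((hev.filter_mono nhdsWithin_le_nhds).and
    (self_mem_nhdsWithin (a := sSup S) (s := Set.Ioi (sSup S)))).exists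
  have hmem : s ∈ S := by
    refine ⟨hs0.trans (le_of_lt hslt), fun k => ?_⟩
    rcases Nat.eq_zero_or_pos k with rfl | hk
    · rw [lc_zero, hz]
    rcases le_or_gt k d with hkd | hkd
    · exact (hs k (Finset.mem_Icc.2 ⟨hk, hkd⟩)).le
    · rw [lc_eq_zero h.hom.totalDegree_le hkd]
  exact absurd (le_csSup hbdd hmem) (not_le.2 hslt)

omit h in
theorem hb_of_isHyperbolic (hp : IsHyperbolic p e) : ∃ d, HB p d e ∧ hypCone p e = cone p e := by
  obtain ⟨⟨d, hd⟩, hpos, hroots⟩ := hp
  have key : ∀ (x : Fin n → ℝ) (z : ℂ),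
      aeval (fun i => z * (e i : ℂ) - (x i : ℂ)) p =
        (-1) ^ d * Polynomial.aeval (-z) (line p x e) := by
    intro x z
    rw [aeval_line, ← aeval_smul hd]
    congr 2
    funext i
    simp; ring
  have hb : HB p d e := by
    refine ⟨hd, hpos, fun x z hz => ?_⟩
    have := hroots x (-z) (by rw [key, neg_neg, hz, mul_zero])
    simpa using this
  refine ⟨d, hb, Set.ext fun x => ⟨fun hx k => ?_, fun hx z hz => ?_⟩⟩
  · refine (hb.rr x).coeff_nonneg (by rw [hb.leading hpos.ne']; exact hpos) (fun s hs h0 => ?_) k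
    have h1 := hx (-(s : ℂ)) (by
      rw [key, neg_neg, ← Complex.coe_algebraMap, Polynomial.aeval_algebraMap_apply,
        Polynomial.coe_aeval_eq_eval, h0, map_zero, mul_zero])
    simp at h1; linarith
  · rw [key] at hz
    have hz' := (mul_eq_zero.1 hz).resolve_left (pow_ne_zero _ (by norm_num))
    have him := hb.rr x _ hz'
    have hzr : -z = (((-z).re : ℝ) : ℂ) := Complex.ext rfl (by simpa using him)
    by_contra hlt
    have hpos' : 0 < (-z).re := by simpa using not_le.1 hlt
    rw [hzr, ← Complex.coe_algebraMap, Polynomial.aeval_algebraMap_apply,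
      Polynomial.coe_aeval_eq_eval] at hz'
    have h2 := hb.eval_pos_of_cone hx hpos'
    rw [← eval_line] at h2
    have h3 : ((line p x e).eval (-z).re : ℝ) = 0 := by simpa using hz'
    linarith

end Vale.Agent.P256.Conical
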