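import Vale.Agent.P256.Conical.Cone

/-!
Further facts: tangent functionals, separation, pointedness, quadratic penalties.
-/

namespace Vale.Agent.P256.Conical

open MvPolynomial Finset Topology Filter

variable {σ : Type*}

theorem lc_sum {κ : Type*} (s : Finset κ) (f : κ → MvPolynomial σ ℝ) (k : ℕ) (x u : σ → ℝ) :
    lc (∑ a ∈ s, f a) k x u = ∑ a ∈ s, lc (f a) k x u := by
  simp [lc, line]

theorem lc_sub (p q : MvPolynomial σ ℝ) (k : ℕ) (x u : σ → ℝ) :
    lc (p - q) k x u = lc p k x u - lc q k x u := by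
  simp [lc, line]

theorem lc_C (a : ℝ) (k : ℕ) (x u : σ → ℝ) :
    lc (C a : MvPolynomial σ ℝ) k x u = if k = 0 then a else 0 := by
  simp [lc, line, Polynomial.coeff_C]

theorem lc_X (i : σ) (k : ℕ) (x u : σ → ℝ) :
    lc (X i : MvPolynomial σ ℝ) k x u = if k = 0 then x i else if k = 1 then u i else 0 := by
  rcases k with _ | _ | k <;> simp [lc, line, Polynomial.coeff_X, Polynomial.coeff_C]

theorem lc_mul_one (p q : MvPolynomial σ ℝ) (x u : σ → ℝ) :
    lc (p * q) 1 x u = eval x p * lc q 1 x u + lc p 1 x u * eval x q := by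
  rw [lc_mul, Finset.Nat.sum_antidiagonal_succ, Finset.Nat.antidiagonal_zero, sum_singleton]
  simp [lc_zero]

theorem lc_mul_two (p q : MvPolynomial σ ℝ) (x u : σ → ℝ) :
    lc (p * q) 2 x u =
      eval x p * lc q 2 x u + lc p 1 x u * lc q 1 x u + lc p 2 x u * eval x q := by
  rw [lc_mul, Finset.Nat.sum_antidiagonal_succ, Finset.Nat.sum_antidiagonal_succ,
    Finset.Nat.antidiagonal_zero, sum_singleton]
  simp [lc_zero]
  ring

/-- The linear function with coefficients `a`. -/
noncomputable def linP [Fintype σ] (a : σ → ℝ) : MvPolynomial σ ℝ := ∑ i, C (a i) * X i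

theorem eval_linP [Fintype σ] (a x : σ → ℝ) : eval x (linP a) = ∑ i, a i * x i := by
  simp [linP]

theorem lc_linP_one [Fintype σ] (a x u : σ → ℝ) : lc (linP a) 1 x u = ∑ i, a i * u i := by
  simp [linP, lc_sum, lc_C_mul, lc_X]

theorem lc_linP_two [Fintype σ] (a x u : σ → ℝ) : lc (linP a) 2 x u = 0 := by
  simp [linP, lc_sum, lc_C_mul, lc_X]

/-- A penalty makes a quadratic form positive. -/
theorem penalty {α : Type*} [NormedAddCommGroup α] [NormedSpace ℝ α] [FiniteDimensional ℝ α]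
    (Q P : α → ℝ) (Z : Set α) (hQ : Continuous Q) (hP : Continuous P) (hZ : IsClosed Z)
    (hQs : ∀ (t : ℝ) v, Q (t • v) = t ^ 2 * Q v) (hPs : ∀ (t : ℝ) v, P (t • v) = t ^ 2 * P v)
    (hZs : ∀ (t : ℝ), ∀ v ∈ Z, t • v ∈ Z) (hP0 : ∀ v, 0 ≤ P v)
    (hpos : ∀ v ∈ Z, v ≠ 0 → P v = 0 → 0 < Q v) :
    ∃ k₀ : ℝ, 0 < k₀ ∧ ∀ k, k₀ ≤ k → ∀ v ∈ Z, v ≠ 0 → 0 < Q v + k * P v := by
  have : ProperSpace α := FiniteDimensional.proper ℝ α
  set S := Metric.sphere (0 : α) 1 ∩ Z ∩ {v | Q v ≤ 0}
  have hS : IsCompact S :=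
    ((isCompact_sphere _ _).inter_right hZ).inter_right (isClosed_le hQ continuous_const)
  obtain ⟨b, hb⟩ := hS.bddAbove_image (f := fun v => -Q v / P v) (by
    refine (hQ.neg.continuousOn).div hP.continuousOn fun v hv h0 => ?_
    refine (not_lt.2 (hv.2 : Q v ≤ 0)) (hpos v hv.1.2 ?_ h0)
    intro h; rw [h] at hv; simp [S] at hv)
  refine ⟨max b 0 + 1, by positivity, fun k hk v hv hv0 => ?_⟩
  have hn : 0 < ‖v‖ := norm_pos_iff.2 hv0
  set w := ‖v‖⁻¹ • v with hw
  have hwZ : w ∈ Z := hZs _ _ hv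
  have hw1 : w ∈ Metric.sphere (0 : α) 1 := by simp [w, norm_smul, hn.ne']
  have hkey : 0 < Q w + k * P w := by
    rcases le_or_gt (Q w) 0 with hQw | hQw
    · have hP' : 0 < P w := (hP0 w).lt_of_ne fun h0 => absurd
        (hpos w hwZ (fun h => by rw [h] at hw1; simp at hw1) h0.symm) (not_lt.2 hQw)
      have hle : -Q w / P w ≤ b := hb ⟨w, ⟨⟨hw1, hwZ⟩, hQw⟩, rfl⟩
      rw [div_le_iff₀ hP'] at hle
      nlinarith [le_max_left b 0]
    · have : 0 ≤ k * P w := mul_nonneg (by linarith [le_max_right b 0]) (hP0 w)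
      linarith
  rw [hw, hQs, hPs] at hkey
  have : 0 < ‖v‖⁻¹ ^ 2 := by positivity
  nlinarith

variable {n : ℕ} {p : MvPolynomial (Fin n) ℝ} {d : ℕ} {e : Fin n → ℝ} (h : HB p d e)

include h

theorem HB.rr_line {a : Fin n → ℝ} (ha : a ∈ inner p d e) (u : Fin n → ℝ) : RR (line p a u) := by
  intro z hz
  rcases eq_or_ne z 0 with rfl | hz0
  · simp
  · have h2 : Polynomial.aeval z⁻¹ (line p u a) = 0 := by
      rw [aeval_line] at hz ⊢
      have := aeval_smul h.hom z⁻¹ (fun i => algebraMap ℝ ℂ (a i) + algebraMap ℝ ℂ (u i) * z)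
      rw [hz, mul_zero] at this
      rw [← this]
      congr 2
      funext i; field_simp; ring
    simpa [Complex.inv_im, hz0] using h.garding ha u _ h2

theorem HB.lc_neg {x : Fin n → ℝ} {k : ℕ} (hk : k ≤ d) :
    lc p k (-x) e = (-1) ^ (d - k) * lc p k x e := by
  rw [← neg_one_smul ℝ x, h.lc_smul_left _ _ _ hk]

/-- If a cone point has vanishing root sum, all its roots vanish. -/
theorem HB.low_zero {x : Fin n → ℝ} (hx : x ∈ cone p e) (h1 : lc p (d - 1) x e = 0) :
    ∀ k < d, lc p k x e = 0 := by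
  obtain ⟨c, s, hs⟩ := (h.rr x).factor
  have hdeg := h.natDegree_eq h.pos.ne' x
  have hl := h.leading h.pos.ne' x
  have hc : c ≠ 0 := by
    rintro rfl
    exact h.line_ne_zero h.pos.ne' x (by rw [hs]; simp)
  rw [hs, Polynomial.natDegree_C_mul hc, natDegree_rootsProd] at hdeg
  intro k hk
  have hneg : ∀ r ∈ s, r ≤ 0 := fun r hr => by
    by_contra hr'
    have := h.eval_pos_of_cone hx (not_le.1 hr')
    rw [← eval_line, hs, Polynomial.eval_mul, eval_rootsProd,
      Multiset.prod_eq_zero (Multiset.mem_map.2 ⟨r, hr, sub_self r⟩), mul_zero] at this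
    exact lt_irrefl _ this
  have hsum : s.sum = 0 := by
    have h2 : (rootsProd s).coeff (s.card - 1) = -s.sum :=
      Polynomial.multiset_prod_X_sub_C_coeff_card_pred s (by omega)
    rw [lc, hs, Polynomial.coeff_C_mul, ← hdeg, h2] at h1
    simpa [hc] using h1
  have hzero : ∀ r ∈ s, r = 0 := by
    intro r hr
    obtain ⟨t, rfl⟩ := Multiset.exists_cons_of_mem hr
    have : t.sum ≤ 0 := (Multiset.sum_le_card_nsmul t 0 fun x hx => hneg x (Multiset.mem_cons_of_mem hx)).trans (by simp)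
    rw [Multiset.sum_cons] at hsum
    have := hneg r hr
    linarith
  have hrp : rootsProd s = Polynomial.X ^ s.card := by
    have hm : s.map (fun r => Polynomial.X - Polynomial.C r) =
        s.map (fun _ => (Polynomial.X : Polynomial ℝ)) :=
      Multiset.map_congr rfl fun r hr => by rw [hzero r hr, Polynomial.C_0, sub_zero]
    rw [rootsProd, hm, Multiset.map_const', Multiset.prod_replicate]
  rw [lc, hs, hrp, Polynomial.coeff_C_mul, Polynomial.coeff_X_pow, if_neg (by omega), mul_zero]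

theorem HB.neg_mem {x : Fin n → ℝ} (h0 : ∀ k < d, lc p k x e = 0) : -x ∈ cone p e := fun k => by
  rcases lt_trichotomy k d with hk | rfl | hk
  · rw [h.lc_neg hk.le, h0 k hk, mul_zero]
  · rw [lc_top h.hom]; exact h.pos.le
  · rw [lc_eq_zero h.hom.totalDegree_le hk]

/-- On the boundary with positive higher coefficients, nearby points of the zero set stay in the
cone. -/
theorem HB.near_zero {X : Type*} [TopologicalSpace X] {f : X → Fin n → ℝ} (hf : Continuous f)
    {a : X} (hc : f a ∈ cone p e) (h0 : eval (f a) p = 0) (h1 : 0 < lc p 1 (f a) e) :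
    ∀ᶠ b in 𝓝 a, eval (f b) p = 0 → f b ∈ cone p e := by
  have hpos := h.lc_pos_smooth hc h0 h1
  have hev : ∀ᶠ b in 𝓝 a, ∀ k ∈ Finset.Icc 1 d, 0 < lc p k (f b) e := by
    rw [Filter.eventually_all_finset]
    intro k hk
    exact continuousAt_const.eventually_lt
      ((continuous_lc p k hf continuous_const).continuousAt)
      (hpos k (Finset.mem_Icc.1 hk).1 (Finset.mem_Icc.1 hk).2)
  refine hev.mono fun b hb hb0 k => ?_
  rcases Nat.eq_zero_or_pos k with rfl | hk
  · rw [lc_zero, hb0]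
  rcases le_or_gt k d with hkd | hkd
  · exact (hb k (Finset.mem_Icc.2 ⟨hk, hkd⟩)).le
  · rw [lc_eq_zero h.hom.totalDegree_le hkd]

omit h in
/-- The tangent functional at `y`, normalised at `e`. -/
noncomputable def tang (p : MvPolynomial (Fin n) ℝ) (e y : Fin n → ℝ) : Fin n → ℝ :=
  fun i => grad p y i / lc p 1 y e

omit h in
theorem tang_apply (y u : Fin n → ℝ) :
    ∑ i, tang p e y i * u i = lc p 1 y u / lc p 1 y e := by
  rw [lc_one p y u, sum_div]
  exact sum_congr rfl fun i _ => by rw [tang]; ring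

theorem HB.tang_e {y : Fin n → ℝ} (h1 : lc p 1 y e ≠ 0) : ∑ i, tang p e y i * e i = 1 := by
  rw [tang_apply, div_self h1]

theorem HB.tang_nonneg {y x : Fin n → ℝ} (hy : y ∈ cone p e) (hx : x ∈ cone p e) :
    0 ≤ ∑ i, tang p e y i * x i := by
  rw [tang_apply]; exact div_nonneg (h.lc_nonneg hx hy 1) (hy 1)

omit h in
theorem lc_linear (y a b : Fin n → ℝ) (s : ℝ) :
    lc p 1 y (a + s • b) = lc p 1 y a + s * lc p 1 y b := by
  simp only [lc_one, Pi.add_apply, Pi.smul_apply, smul_eq_mul, add_mul, sum_add_distrib, mul_sum,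
    mul_assoc]

theorem HB.euler {y : Fin n → ℝ} (h0 : eval y p = 0) : lc p 1 y y = 0 := by
  have : line p y y = 0 := Polynomial.funext fun s => by
    rw [eval_line, show y + s • y = (1 + s) • y by rw [add_smul, one_smul], eval_smul h.hom, h0,
      mul_zero, Polynomial.eval_zero]
  rw [lc, this, Polynomial.coeff_zero]

/-- Normalised supporting functionals are uniformly bounded. -/
theorem HB.support_bound : ∃ C : ℝ, 0 < C ∧ ∀ g : Fin n → ℝ,
    (∀ x ∈ cone p e, 0 ≤ ∑ i, g i * x i) → (∑ i, g i * e i) = 1 → ∀ u : Fin n → ℝ,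
      |∑ i, g i * u i| ≤ C * ‖u‖ := by
  obtain ⟨δ, hδ, hball⟩ := Metric.isOpen_iff.1 (isOpen_inner p d e) e h.e_inner
  refine ⟨2 / δ, by positivity, fun g hg he u => ?_⟩
  rcases eq_or_ne u 0 with rfl | hu
  · simp
  have hn : 0 < ‖u‖ := norm_pos_iff.2 hu
  have hmem : ∀ t : ℝ, |t| * ‖u‖ ≤ δ / 2 → 0 ≤ 1 + t * ∑ i, g i * u i := by
    intro t ht
    have h1 := hg _ (h.inner_subset (hball (show e + t • u ∈ Metric.ball e δ by
      rw [mem_ball_iff_norm, add_sub_cancel_left, norm_smul, Real.norm_eq_abs]; linarith)))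
    simp only [Pi.add_apply, Pi.smul_apply, smul_eq_mul, mul_add, sum_add_distrib, he] at h1
    rw [mul_sum]
    refine le_of_le_of_eq h1 ?_
    congr 1
    exact sum_congr rfl fun i _ => by ring
  have h1 := hmem (δ / (2 * ‖u‖)) (by rw [abs_of_pos (by positivity)]; apply le_of_eq; field_simp)
  have h2 := hmem (-(δ / (2 * ‖u‖))) (by
    rw [abs_neg, abs_of_pos (by positivity)]; apply le_of_eq; field_simp)
  rw [abs_le]
  have e1 : δ / (2 * ‖u‖) * (2 / δ * ‖u‖) = 1 := by field_simp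
  constructor <;> nlinarith [show 0 < δ / (2 * ‖u‖) by positivity]

theorem HB.tang_bound : ∃ C : ℝ, 0 < C ∧ ∀ y ∈ cone p e, lc p 1 y e ≠ 0 → ∀ u : Fin n → ℝ,
    |∑ i, tang p e y i * u i| ≤ C * ‖u‖ := by
  obtain ⟨C, hC, hb⟩ := h.support_bound
  exact ⟨C, hC, fun y hy h1 u => hb _ (fun x hx => h.tang_nonneg hy hx) (h.tang_e h1) u⟩

/-- A functional that is nonnegative on the cone and kills two cone points kills a boundary sum. -/
theorem HB.sum_boundary {g a b : Fin n → ℝ} (hg : ∀ x ∈ cone p e, 0 ≤ ∑ i, g i * x i)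
    (he : ∑ i, g i * e i = 1) (ha : a ∈ cone p e) (hb : b ∈ cone p e)
    (h0 : ∑ i, g i * a i + ∑ i, g i * b i ≤ 0) : eval (a + b) p = 0 := by
  by_contra hne
  have hin := h.inner_of_cone_pos (h.cone_add ha hb) hne
  have hcont : Continuous fun t : ℝ => a + b - t • e := by fun_prop
  obtain ⟨t, ht, htpos⟩ := ((((hcont.tendsto' 0 (a + b) (by simp)).eventually
    ((isOpen_inner p d e).mem_nhds hin))).filter_mono nhdsWithin_le_nhds |>.and
      (self_mem_nhdsWithin (a := (0 : ℝ)) (s := Set.Ioi 0))).exists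
  have := hg _ (h.inner_subset ht)
  simp only [Pi.sub_apply, Pi.add_apply, Pi.smul_apply, smul_eq_mul, mul_sub, mul_add,
    sum_sub_distrib, sum_add_distrib, mul_left_comm _ t, ← mul_sum, he] at this
  linarith [show (0 : ℝ) < t from htpos]

/-- The first boundary point on the way from an outside point towards `e`. -/
theorem HB.exit_point {x : Fin n → ℝ} (hx : x ∉ cone p e) :
    ∃ t : ℝ, 0 < t ∧ x + t • e ∈ cone p e ∧ eval (x + t • e) p = 0 := by
  set S := {t : ℝ | 0 ≤ t ∧ x + t • e ∈ cone p e}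
  have hcl : IsClosed S :=
    (isClosed_le continuous_const continuous_id).inter
      ((isClosed_cone p e).preimage (by fun_prop : Continuous fun s : ℝ => x + s • e))
  have hne : S.Nonempty := by
    have hc : Continuous fun s : ℝ => s • x + e := by fun_prop
    obtain ⟨s, hs, hspos⟩ := ((((hc.tendsto' 0 e (by simp)).eventually
      ((isOpen_inner p d e).mem_nhds h.e_inner))).filter_mono nhdsWithin_le_nhds |>.and
        (self_mem_nhdsWithin (a := (0 : ℝ)) (s := Set.Ioi 0))).exists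
    have hs0 : 0 < s := hspos
    refine ⟨s⁻¹, inv_nonneg.2 hs0.le, ?_⟩
    have := h.cone_smul (h.inner_subset hs) (inv_nonneg.2 hs0.le)
    rwa [smul_add, smul_smul, inv_mul_cancel₀ hs0.ne', one_smul] at this
  have hbdd : BddBelow S := ⟨0, fun t ht => ht.1⟩
  obtain ⟨ht0, htc⟩ := hcl.csInf_mem hne hbdd
  have htpos : 0 < sInf S := by
    rcases ht0.eq_or_lt with h0 | h0
    · rw [← h0, zero_smul, add_zero] at htc; exact absurd htc hx
    · exact h0
  refine ⟨sInf S, htpos, htc, ?_⟩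
  by_contra hne'
  have hin := h.inner_of_cone_pos htc hne'
  have hc : Continuous fun t : ℝ => x + t • e := by fun_prop
  obtain ⟨t, ⟨ht, htlt⟩, htnn⟩ := (((((hc.continuousAt (x := sInf S)).eventually
    ((isOpen_inner p d e).mem_nhds hin))).filter_mono nhdsWithin_le_nhds |>.and
      (self_mem_nhdsWithin (a := sInf S) (s := Set.Iio (sInf S)))).and
      ((eventually_ge_nhds htpos).filter_mono nhdsWithin_le_nhds)).exists
  exact absurd (csInf_le hbdd ⟨htnn, h.inner_subset ht⟩) (not_le.2 htlt)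

/-- Membership is decided by the tangent functionals at points outside finitely many planes. -/
theorem HB.mem_cone_of_tangent (Ss : Finset (Fin n → ℝ)) (hn : 3 ≤ n)
    (hS : ∀ y ∈ cone p e, eval y p = 0 → lc p 1 y e = 0 → ∃ v ∈ insert 0 Ss, ∃ c : ℝ, y = c • v)
    {x : Fin n → ℝ}
    (hx : ∀ y ∈ cone p e, eval y p = 0 → lc p 1 y e ≠ 0 → 0 ≤ ∑ i, tang p e y i * x i) :
    x ∈ cone p e := by
  classical
  by_contra hne
  let P : (Fin n → ℝ) → Submodule ℝ (Fin n → ℝ) := fun v => Submodule.span ℝ {v, e}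
  obtain ⟨w, hw⟩ : ∃ w, ∀ v ∈ insert 0 Ss, w ∉ P v := by
    by_contra hall
    push Not at hall
    refine Subspace.biUnion_ne_univ_of_top_notMem (s := (insert 0 Ss).image P) ?_ ?_
    · intro htop
      obtain ⟨v, -, hv⟩ := Finset.mem_image.1 htop
      have h1 : Module.finrank ℝ (P v) ≤ ({v, e} : Finset (Fin n → ℝ)).card := by
        have := finrank_span_finset_le_card (R := ℝ) ({v, e} : Finset (Fin n → ℝ))
        rwa [Finset.coe_pair] at this
      rw [hv, finrank_top, Module.finrank_fin_fun] at h1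
      have h2 : ({v, e} : Finset (Fin n → ℝ)).card ≤ 2 := Finset.card_le_two
      omega
    · refine Set.eq_univ_iff_forall.2 fun w => ?_
      obtain ⟨v, hv, hwv⟩ := hall w
      exact Set.mem_biUnion (Finset.mem_image_of_mem P hv) hwv
  obtain ⟨C, hC, hb⟩ := h.tang_bound
  have hev : ∀ᶠ z : ℝ × ℝ in 𝓝 (0, 0), x + z.1 • w + z.2 • e ∉ cone p e := by
    have hc : Continuous fun z : ℝ × ℝ => x + z.1 • w + z.2 • e := by fun_prop
    exact (hc.tendsto' (0, 0) x (by simp)).eventually ((isClosed_cone p e).isOpen_compl.mem_nhds hne)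
  obtain ⟨r, hr, hball⟩ := Metric.eventually_nhds_iff.1 hev
  set τ := r / 2 with hτ
  have hτ0 : 0 < τ := by positivity
  have hgood : ∀ v ∈ insert 0 Ss, Set.Subsingleton {δ : ℝ | x + δ • w ∈ P v} := by
    intro v hv a ha b hb
    by_contra hab
    refine hw v hv ?_
    have h1 : (a - b) • w ∈ P v := by
      have := (P v).sub_mem ha hb
      rwa [add_sub_add_left_eq_sub, ← sub_smul] at this
    exact ((P v).smul_mem_iff (sub_ne_zero.2 hab)).1 h1
  obtain ⟨δ, hδ, hδbad⟩ : ∃ δ ∈ Set.Ioo (0 : ℝ) (min τ (τ / (C * (‖w‖ + 1)))),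
      ∀ v ∈ insert 0 Ss, x + δ • w ∉ P v := by
    have hfin : (⋃ v ∈ insert 0 Ss, {δ : ℝ | x + δ • w ∈ P v}).Finite :=
      (Finset.finite_toSet _).biUnion fun v hv => (hgood v hv).finite
    obtain ⟨δ, hδ, hδ'⟩ :=
      ((Set.Ioo_infinite (show (0 : ℝ) < min τ (τ / (C * (‖w‖ + 1))) by positivity)).sdiff hfin).nonempty
    refine ⟨δ, hδ, fun v hv hmem => hδ' ?_⟩
    simp only [Set.mem_iUnion, Set.mem_ofPred_eq]
    exact ⟨v, hv, hmem⟩
  have hx' : x + δ • w ∉ cone p e := by
    simpa using hball (y := (δ, 0)) (by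
      simp only [Prod.dist_eq, Real.dist_eq, sub_zero, abs_zero]
      exact max_lt (by rw [abs_of_pos hδ.1]; linarith [(lt_min_iff.1 hδ.2).1]) hr)
  obtain ⟨t, ht, hyc, hy0⟩ := h.exit_point hx'
  have htτ : τ ≤ t := by
    by_contra hlt
    refine hball (y := (δ, t)) ?_ hyc
    simp only [Prod.dist_eq, Real.dist_eq, sub_zero]
    exact max_lt (by rw [abs_of_pos hδ.1]; linarith [(lt_min_iff.1 hδ.2).1])
      (by rw [abs_of_pos ht]; linarith [not_le.1 hlt])
  set y := x + δ • w + t • e with hy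
  have hsm : lc p 1 y e ≠ 0 := by
    intro hsing
    obtain ⟨v, hv, c, hc⟩ := hS y hyc hy0 hsing
    refine hδbad v hv ?_
    have hy' : x + δ • w = c • v + (-t) • e := by rw [← hc, hy, neg_smul, add_neg_cancel_right]
    rw [hy']
    exact (P v).add_mem ((P v).smul_mem _ (Submodule.subset_span (by simp)))
      ((P v).smul_mem _ (Submodule.subset_span (by simp)))
  have hzero : ∑ i, tang p e y i * y i = 0 := by rw [tang_apply, h.euler hy0, zero_div]
  have h1 : ∑ i, tang p e y i * y i =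
      ∑ i, tang p e y i * x i + δ * ∑ i, tang p e y i * w i + t := by
    conv_rhs => rw [← mul_one t, ← h.tang_e hsm, mul_sum, mul_sum, ← sum_add_distrib, ← sum_add_distrib]
    exact sum_congr rfl fun i _ => by
      have : y i = x i + δ * w i + t * e i := by simp [hy]
      rw [this]; ring
  have h2 := hb y hyc hsm w
  have h3 : δ * (C * (‖w‖ + 1)) < τ := by
    have := (lt_min_iff.1 hδ.2).2
    rwa [lt_div_iff₀ (by positivity)] at this
  have h4 := hx y hyc hy0 hsm
  nlinarith [abs_le.1 h2, mul_le_mul_of_nonneg_left (abs_le.1 h2).1 hδ.1.le, norm_nonneg w,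
    mul_pos hC hδ.1]

end Vale.Agent.P256.Conical
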