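import Vale.Agent.P256.Conical.Univ

/-!
Polynomials restricted to lines, and their Taylor forms.
-/

namespace Vale.Agent.P256.Conical

open MvPolynomial Finset

variable {σ : Type*}

/-- The restriction `s ↦ p (x + s u)`. -/
noncomputable def line (p : MvPolynomial σ ℝ) (x u : σ → ℝ) : Polynomial ℝ :=
  aeval (fun i => Polynomial.C (x i) + Polynomial.C (u i) * Polynomial.X) p

/-- The `k`-th coefficient of the restriction. -/
noncomputable def lc (p : MvPolynomial σ ℝ) (k : ℕ) (x u : σ → ℝ) : ℝ := (line p x u).coeff k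

theorem aeval_line {A : Type*} [CommRing A] [Algebra ℝ A] (p : MvPolynomial σ ℝ) (x u : σ → ℝ)
    (z : A) : Polynomial.aeval z (line p x u) =
      aeval (fun i => algebraMap ℝ A (x i) + algebraMap ℝ A (u i) * z) p := by
  rw [line, ← AlgHom.comp_apply, comp_aeval]
  simp

theorem eval_line (p : MvPolynomial σ ℝ) (x u : σ → ℝ) (s : ℝ) :
    (line p x u).eval s = eval (x + s • u) p := by
  rw [← Polynomial.coe_aeval_eq_eval, aeval_line]
  simp only [Algebra.algebraMap_self, RingHom.id_apply, aeval_eq_eval]
  refine congrFun (congrArg DFunLike.coe ?_) p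
  refine congrArg eval (funext fun i => ?_)
  simp [mul_comm]

theorem lc_zero (p : MvPolynomial σ ℝ) (x u : σ → ℝ) : lc p 0 x u = eval x p := by
  rw [lc, Polynomial.coeff_zero_eq_eval_zero, eval_line]; simp

theorem continuous_lc {α : Type*} [TopologicalSpace α] (p : MvPolynomial σ ℝ) (k : ℕ)
    {f g : α → σ → ℝ} (hf : Continuous f) (hg : Continuous g) :
    Continuous fun a => lc p k (f a) (g a) := by
  have key : ∀ x u : σ → ℝ, lc p k x u = eval (Sum.elim x u)
      ((aeval (fun i => Polynomial.C (X (Sum.inl i)) + Polynomial.C (X (Sum.inr i)) *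
        Polynomial.X) p : Polynomial (MvPolynomial (σ ⊕ σ) ℝ)).coeff k) := by
    intro x u
    rw [← Polynomial.coeff_map, lc]
    congr 1
    induction p using MvPolynomial.induction_on with
    | C a =>
      simp only [line, aeval_C]
      rw [show (algebraMap ℝ (Polynomial (MvPolynomial (σ ⊕ σ) ℝ))) a = Polynomial.C (C a) from rfl,
        Polynomial.map_C, eval_C]
      rfl
    | add p q hp hq => simp only [line, map_add, Polynomial.map_add] at hp hq ⊢; rw [hp, hq]
    | mul_X p i hp =>
      simp only [line, map_mul, aeval_X, Polynomial.map_mul] at hp ⊢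
      rw [hp]
      simp
  simp only [key]
  refine ((MvPolynomial.continuous_eval _).comp ?_)
  refine continuous_pi fun i => ?_
  cases i with
  | inl i => exact (continuous_apply i).comp hf
  | inr i => exact (continuous_apply i).comp hg

theorem lc_add (p q : MvPolynomial σ ℝ) (k : ℕ) (x u : σ → ℝ) :
    lc (p + q) k x u = lc p k x u + lc q k x u := by
  simp [lc, line]

theorem lc_C_mul (a : ℝ) (p : MvPolynomial σ ℝ) (k : ℕ) (x u : σ → ℝ) :
    lc (C a * p) k x u = a * lc p k x u := by
  simp [lc, line]

theorem lc_mul (p q : MvPolynomial σ ℝ) (k : ℕ) (x u : σ → ℝ) :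
    lc (p * q) k x u = ∑ m ∈ antidiagonal k, lc p m.1 x u * lc q m.2 x u := by
  simp [lc, line, Polynomial.coeff_mul]

/-- The gradient. -/
noncomputable def grad (p : MvPolynomial σ ℝ) (x : σ → ℝ) (i : σ) : ℝ := eval x (pderiv i p)

/-- The second derivative, as a matrix. -/
noncomputable def hess (p : MvPolynomial σ ℝ) (x : σ → ℝ) (i j : σ) : ℝ :=
  eval x (pderiv j (pderiv i p))

theorem lc_one [Fintype σ] (p : MvPolynomial σ ℝ) (x u : σ → ℝ) :
    lc p 1 x u = ∑ i, u i * grad p x i := by
  classical
  induction p using MvPolynomial.induction_on with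
  | C a => simp [lc, line, grad]
  | add p q hp hq => simp [lc_add, hp, hq, grad, mul_add, sum_add_distrib]
  | mul_X p k hp =>
    have hX : ∀ m, lc (X k : MvPolynomial σ ℝ) m x u =
        if m = 0 then x k else if m = 1 then u k else 0 := by
      intro m
      rcases m with _ | _ | m <;> simp [lc, line, Polynomial.coeff_X, Polynomial.coeff_C]
    rw [lc_mul, Finset.Nat.sum_antidiagonal_succ, Finset.Nat.antidiagonal_zero, sum_singleton]
    simp only [hX, zero_add, one_ne_zero, if_false, if_true, lc_zero, hp]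
    simp only [grad, pderiv_mul, pderiv_X, map_add, map_mul, eval_X, mul_add, sum_add_distrib]
    rw [add_comm]
    congr 1
    · rw [sum_mul]; exact sum_congr rfl fun i _ => by ring
    · rw [sum_eq_single k]
      · simp; ring
      · intro b _ hb; simp [Pi.single_eq_of_ne' hb]
      · simp

theorem lc_two [Fintype σ] (p : MvPolynomial σ ℝ) (x u : σ → ℝ) :
    2 * lc p 2 x u = ∑ i, ∑ j, u i * u j * hess p x i j := by
  classical
  induction p using MvPolynomial.induction_on with
  | C a => simp [lc, line, hess]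
  | add p q hp hq => simp [lc_add, mul_add, hp, hq, hess, sum_add_distrib]
  | mul_X p k hp =>
    have hX : ∀ m, lc (X k : MvPolynomial σ ℝ) m x u =
        if m = 0 then x k else if m = 1 then u k else 0 := by
      intro m
      rcases m with _ | _ | m <;> simp [lc, line, Polynomial.coeff_X, Polynomial.coeff_C]
    rw [lc_mul, Finset.Nat.sum_antidiagonal_succ, Finset.Nat.sum_antidiagonal_succ,
      Finset.Nat.antidiagonal_zero, sum_singleton]
    simp only [hX, zero_add, if_false, one_ne_zero, if_true, lc_one]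
    have hh : ∀ i j, hess (p * X k) x i j = hess p x i j * x k +
        (grad p x i * (if j = k then 1 else 0) + grad p x j * (if i = k then 1 else 0)) := by
      intro i j
      by_cases hi : i = k <;> by_cases hj : j = k
      · subst hi hj; simp [hess, grad]; ring
      · subst hi; simp [hess, grad, pderiv_X_of_ne (Ne.symm hj), hj]; ring
      · subst hj; simp [hess, grad, pderiv_X_of_ne (Ne.symm hi), hi]; ring
      · simp [hess, grad, pderiv_X_of_ne (Ne.symm hi), pderiv_X_of_ne (Ne.symm hj), hi, hj]; ring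
    simp only [hh, mul_add, sum_add_distrib, ← mul_assoc, ← sum_mul, ← hp, mul_ite, mul_one,
      mul_zero, sum_ite_eq', Finset.mem_univ, if_true, sum_ite_irrel, sum_const_zero]
    norm_num [mul_sum, sum_mul]
    rw [show ∀ a b c : ℝ, a + b = b + a from fun a b _ => add_comm a b]
    · congr 1
      rw [← sum_add_distrib]
      exact sum_congr rfl fun i _ => by ring
    · exact 0

theorem natDegree_line_le {p : MvPolynomial σ ℝ} {d : ℕ} (hp : p.totalDegree ≤ d) (x u : σ → ℝ) :
    (line p x u).natDegree ≤ d := by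
  rw [p.as_sum, line, map_sum]
  refine Polynomial.natDegree_sum_le_of_forall_le _ _ fun m hm => ?_
  rw [aeval_monomial, ← Polynomial.C_eq_algebraMap]
  refine (Polynomial.natDegree_C_mul_le _ _).trans ?_
  rw [Finsupp.prod]
  refine (Polynomial.natDegree_prod_le _ _).trans ((sum_le_sum fun i _ => ?_).trans
    ((le_totalDegree hm).trans hp))
  refine Polynomial.natDegree_pow_le.trans ?_
  have : (Polynomial.C (x i) + Polynomial.C (u i) * Polynomial.X).natDegree ≤ 1 := by
    refine Polynomial.natDegree_add_le_of_degree_le (by simp) ?_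
    exact (Polynomial.natDegree_C_mul_le _ _).trans Polynomial.natDegree_X_le
  simpa using Nat.mul_le_mul_left (m i) this

theorem lc_eq_zero {p : MvPolynomial σ ℝ} {d k : ℕ} (hp : p.totalDegree ≤ d) (hk : d < k)
    (x u : σ → ℝ) : lc p k x u = 0 :=
  Polynomial.coeff_eq_zero_of_natDegree_lt ((natDegree_line_le hp x u).trans_lt hk)

theorem eval_eq_sum_lc {p : MvPolynomial σ ℝ} {d : ℕ} (hp : p.totalDegree ≤ d) (x u : σ → ℝ)
    (s : ℝ) : eval (x + s • u) p = ∑ k ∈ range (d + 1), lc p k x u * s ^ k := by
  rw [← eval_line]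
  exact eval_eq_sum_coeff (natDegree_line_le hp x u) s

theorem aeval_smul {A : Type*} [CommRing A] [Algebra ℝ A] {p : MvPolynomial σ ℝ} {d : ℕ}
    (hp : p.IsHomogeneous d) (c : A) (f : σ → A) :
    aeval (fun i => c * f i) p = c ^ d * aeval f p := by
  rw [p.as_sum, map_sum, map_sum, mul_sum]
  refine sum_congr rfl fun m hm => ?_
  rw [aeval_monomial, aeval_monomial]
  have hd : m.degree = d := by
    have := hp (mem_support_iff.1 hm)
    rw [Finsupp.degree_eq_weight_one]; exact this
  rw [← hd, Finsupp.prod, Finsupp.prod, Finsupp.degree_apply, ← prod_pow_eq_pow_sum]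
  simp only [mul_pow, prod_mul_distrib]
  ring

theorem eval_smul {p : MvPolynomial σ ℝ} {d : ℕ} (hp : p.IsHomogeneous d) (c : ℝ) (x : σ → ℝ) :
    eval (c • x) p = c ^ d * eval x p := by
  have := aeval_smul hp c x
  simp only [aeval_eq_eval] at this
  exact this

theorem lc_reflect {p : MvPolynomial σ ℝ} {d k : ℕ} (hp : p.IsHomogeneous d) (hk : k ≤ d)
    (x u : σ → ℝ) : lc p k x u = lc p (d - k) u x := by
  have hq : line p x u =
      ∑ j ∈ range (d + 1), Polynomial.C (lc p j u x) * Polynomial.X ^ (d - j) := by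
    refine Polynomial.eq_of_infinite_eval_eq _ _
      (Set.Infinite.mono (fun s hs => ?_) (Set.Ioi_infinite (0 : ℝ)))
    have hs' : s ≠ 0 := ne_of_gt hs
    simp only [Set.mem_ofPred_eq, eval_line, Polynomial.eval_finsetSum, Polynomial.eval_mul,
      Polynomial.eval_C, Polynomial.eval_pow, Polynomial.eval_X]
    rw [show x + s • u = s • (u + s⁻¹ • x) by rw [smul_add, smul_smul, mul_inv_cancel₀ hs', one_smul, add_comm],
      eval_smul hp, eval_eq_sum_lc hp.totalDegree_le, mul_sum]
    refine sum_congr rfl fun j hj => ?_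
    rw [pow_sub₀ s hs' (Nat.lt_succ_iff.1 (mem_range.1 hj)), inv_pow]
    ring
  rw [lc, hq, Polynomial.finsetSum_coeff]
  simp only [Polynomial.coeff_C_mul_X_pow]
  rw [sum_eq_single (d - k)]
  · rw [if_pos (by omega)]
  · intro j hj hne
    have := mem_range.1 hj
    rw [if_neg (by omega)]
  · intro h; exact absurd (mem_range.2 (by omega)) h

theorem lc_top {p : MvPolynomial σ ℝ} {d : ℕ} (hp : p.IsHomogeneous d) (x u : σ → ℝ) :
    lc p d x u = eval u p := by
  rw [lc_reflect hp le_rfl, Nat.sub_self, lc_zero]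

/-- The Taylor form of degree `j` at `v`. -/
noncomputable def tp (p : MvPolynomial σ ℝ) (v : σ → ℝ) (j : ℕ) : MvPolynomial σ ℝ :=
  homogeneousComponent j (bind₁ (fun i => C (v i) + X i) p)

theorem tp_isHomogeneous (p : MvPolynomial σ ℝ) (v : σ → ℝ) (j : ℕ) :
    (tp p v j).IsHomogeneous j :=
  homogeneousComponent_isHomogeneous _ _

theorem eval_tp {p : MvPolynomial σ ℝ} (v y : σ → ℝ) (j : ℕ) :
    eval y (tp p v j) = lc p j v y := by
  set q := bind₁ (fun i => C (v i) + X i) p
  set D := max q.totalDegree j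
  have hline : line p v y =
      ∑ i ∈ range (D + 1), Polynomial.C (eval y (tp p v i)) * Polynomial.X ^ i := by
    refine Polynomial.funext fun s => ?_
    simp only [eval_line, Polynomial.eval_finsetSum, Polynomial.eval_mul, Polynomial.eval_C,
      Polynomial.eval_pow, Polynomial.eval_X]
    have hsum : eval (s • y) q = ∑ i ∈ range (D + 1), eval (s • y) (homogeneousComponent i q) := by
      rw [← map_sum, ← sum_subset (range_subset_range.2 (by omega : q.totalDegree + 1 ≤ D + 1))
        (fun i _ hi => homogeneousComponent_eq_zero i q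
          (by simp only [mem_range] at hi; omega)), sum_homogeneousComponent]
    have hev : eval (s • y) q = eval (v + s • y) p := by
      rw [← aeval_eq_eval, aeval_bind₁, ← aeval_eq_eval]
      simp
      rfl
    rw [← hev, hsum]
    exact sum_congr rfl fun i _ => by rw [eval_smul (homogeneousComponent_isHomogeneous i q), tp]; ring
  rw [lc, hline, Polynomial.finsetSum_coeff]
  simp only [Polynomial.coeff_C_mul_X_pow]
  rw [sum_ite_eq, if_pos (mem_range.2 (by omega))]

theorem tp_eq_zero {p : MvPolynomial σ ℝ} {d j : ℕ} (hp : p.totalDegree ≤ d) (hj : d < j)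
    (v : σ → ℝ) : tp p v j = 0 :=
  MvPolynomial.funext fun y => by rw [eval_tp, lc_eq_zero hp hj, map_zero]

theorem eval_add_eq_sum {p : MvPolynomial σ ℝ} {d : ℕ} (hp : p.totalDegree ≤ d) (v y : σ → ℝ) :
    eval (v + y) p = ∑ j ∈ range (d + 1), eval y (tp p v j) := by
  have := eval_eq_sum_lc hp v y 1
  simpa [eval_tp] using this

theorem lc_scale {p : MvPolynomial σ ℝ} {d : ℕ} (hp : p.totalDegree ≤ d) (x u : σ → ℝ) (c : ℝ)
    (k : ℕ) : lc p k x (c • u) = c ^ k * lc p k x u := by
  have h : line p x (c • u) =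
      ∑ j ∈ range (d + 1), Polynomial.C (c ^ j * lc p j x u) * Polynomial.X ^ j := by
    refine Polynomial.funext fun s => ?_
    rw [eval_line, smul_smul, eval_eq_sum_lc hp, Polynomial.eval_finsetSum]
    exact sum_congr rfl fun j _ => by simp; ring
  rw [lc, h, Polynomial.finsetSum_coeff]
  simp only [Polynomial.coeff_C_mul_X_pow]
  rw [sum_ite_eq]
  split_ifs with hk
  · rfl
  · rw [lc_eq_zero hp (by simpa using hk), mul_zero]

/-- Coefficients along a line near `v`, through the Taylor forms at `v`. -/
theorem lc_near {p : MvPolynomial σ ℝ} {d : ℕ} (hp : p.totalDegree ≤ d) (v a u : σ → ℝ) (ε : ℝ)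
    (k : ℕ) :
    lc p k (v + ε • a) u = ∑ j ∈ range (d + 1), ε ^ (j - k) * lc (tp p v j) k a u := by
  have h1 : line p (v + ε • a) u = ∑ j ∈ range (d + 1), line (tp p v j) (ε • a) u := by
    refine Polynomial.funext fun s => ?_
    simp only [eval_line, Polynomial.eval_finsetSum]
    rw [add_assoc, eval_add_eq_sum hp]
  rw [lc, h1, Polynomial.finsetSum_coeff]
  refine sum_congr rfl fun j _ => ?_
  change lc (tp p v j) k (ε • a) u = _
  have hj := tp_isHomogeneous p v j
  rcases le_or_gt k j with hk | hk
  · rw [lc_reflect hj hk, lc_scale hj.totalDegree_le, lc_reflect hj hk a u]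
  · rw [lc_eq_zero hj.totalDegree_le hk, lc_eq_zero hj.totalDegree_le hk, mul_zero]

end Vale.Agent.P256.Conical
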