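import Vale.Agent.P256.Conical.Facts

/-!
The hypothesis, rotundity of the base, and the tangent cone at a singular boundary ray.
-/

namespace Vale.Agent.P256.Conical

open MvPolynomial Finset Topology Filter

variable {n : ℕ}

/-- A nonzero singular boundary point. -/
def Sing (p : MvPolynomial (Fin n) ℝ) (e x : Fin n → ℝ) : Prop :=
  x ∈ cone p e ∧ x ≠ 0 ∧ eval x p = 0 ∧ lc p 1 x e = 0

/-- Pointed, with isolated conical singularities not joined by boundary segments. -/
structure Hyp (p : MvPolynomial (Fin n) ℝ) (d : ℕ) (e : Fin n → ℝ) : Prop extends HB p d e where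
  pointed : ∀ x ∈ cone p e, -x ∈ cone p e → x = 0
  deg : 1 ≤ d
  seg : ∀ a b, Sing p e a → Sing p e b → eval (a + b) p = 0 → ∃ c : ℝ, b = c • a
  loc : ∀ v, Sing p e v → ∀ m, tp p v m ≠ 0 → (∀ j < m, tp p v j = 0) →
    ∀ x ∈ cone (tp p v m) e, eval x (tp p v m) = 0 → lc (tp p v m) 1 x e = 0 → ∃ c : ℝ, x = c • v

variable {p : MvPolynomial (Fin n) ℝ} {d : ℕ} {e : Fin n → ℝ}

/-- The base functional. -/
noncomputable def l0 (p : MvPolynomial (Fin n) ℝ) (e : Fin n → ℝ) : (Fin n → ℝ) → ℝ :=
  fun x => lc p 1 e x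

theorem continuous_l0 : Continuous (l0 p e) :=
  continuous_lc p 1 continuous_const continuous_id

theorem l0_add (a b : Fin n → ℝ) : l0 p e (a + b) = l0 p e a + l0 p e b := by
  simpa [l0] using lc_linear (p := p) e a b 1

theorem l0_smul (c : ℝ) (a : Fin n → ℝ) : l0 p e (c • a) = c * l0 p e a := by
  simp [l0, lc_one, Finset.mul_sum, mul_assoc]

theorem l0_sub (a b : Fin n → ℝ) : l0 p e (a - b) = l0 p e a - l0 p e b := by
  rw [sub_eq_add_neg, l0_add, ← neg_one_smul ℝ b, l0_smul]; ring

variable (H : Hyp p d e)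
include H

theorem Hyp.l0_pos {x : Fin n → ℝ} (hx : x ∈ cone p e) (h0 : x ≠ 0) : 0 < l0 p e x := by
  have hd := H.deg
  refine lt_of_le_of_ne ?_ fun h1 => h0 ?_
  · exact H.lc_nonneg hx (H.inner_subset H.e_inner) 1
  · refine H.pointed x hx (H.neg_mem (H.low_zero hx ?_))
    rw [lc_reflect H.hom (by omega)]
    rw [show d - (d - 1) = 1 by omega]
    exact h1.symm

/-- Two points of the base whose sum is on the boundary coincide. -/
theorem Hyp.rotund {a b : Fin n → ℝ} (ha : a ∈ cone p e) (hb : b ∈ cone p e) (hla : l0 p e a = 1)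
    (hlb : l0 p e b = 1) (hab : eval (a + b) p = 0) : a = b := by
  by_contra hne
  set u := b - a with hu
  have hl0 : l0 p e u = 0 := by rw [hu, l0_sub, hla, hlb, sub_self]
  have hu0 : u ≠ 0 := sub_ne_zero.2 (Ne.symm hne)
  have hzero : ∀ s : ℝ, eval (a + s • u) p = 0 := by
    intro s
    rw [show a + s • u = (1 - s) • a + s • b by rw [hu]; module]
    exact H.span_zero ha hb hab _ _
  have hnp : ∀ z : Fin n → ℝ, l0 p e z = 0 → z ≠ 0 → z ∉ cone p e := fun z hz hz0 hzc =>
    (H.l0_pos hzc hz0).ne' hz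
  have hne0 : ∀ z : Fin n → ℝ, l0 p e z = 1 → z ≠ 0 := fun z hz h0 => by
    rw [h0] at hz; simp [l0, lc_one] at hz
  have hun : l0 p e (-u) = 0 := by rw [← neg_one_smul ℝ u, l0_smul, hl0, mul_zero]
  have key : ∀ x : Fin n → ℝ, x ∈ cone p e → l0 p e x = 1 →
      (∀ s : ℝ, eval (x + s • u) p = 0) → Sing p e x := by
    intro x hx hlx hz
    obtain ⟨s, hs, h1, h2⟩ := H.exit_sing hx (hnp u hl0 hu0) hz
    obtain ⟨t, ht, h3, h4⟩ := H.exit_sing hx (hnp (-u) hun (neg_ne_zero.2 hu0)) fun s => by
      rw [smul_neg, ← neg_smul]; exact hz _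
    have hA : l0 p e (x + s • u) = 1 := by rw [l0_add, l0_smul, hlx, hl0]; ring
    have hB : l0 p e (x + t • -u) = 1 := by rw [l0_add, l0_smul, hlx, hun]; ring
    have hsum : eval (x + s • u + (x + t • -u)) p = 0 := by
      rw [show x + s • u + (x + t • -u) = (2 : ℝ) • (x + ((s - t) / 2) • u) by module,
        eval_smul H.hom, hz, mul_zero]
    obtain ⟨c, hc⟩ := H.seg _ _ ⟨h1, hne0 _ hA, hz s, h2⟩
      ⟨h3, hne0 _ hB, by rw [smul_neg, ← neg_smul]; exact hz _, h4⟩ hsum
    have hc1 : c = 1 := by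
      have := congrArg (l0 p e) hc
      rw [l0_smul, hA, hB, mul_one] at this
      exact this.symm
    rw [hc1, one_smul] at hc
    have hst : (s + t) • u = 0 := by
      have := sub_eq_zero.2 hc.symm
      rw [← this]; module
    have hs0 : s = 0 := by
      rcases smul_eq_zero.1 hst with h | h
      · linarith
      · exact absurd h hu0
    rw [hs0, zero_smul, add_zero] at h1 h2
    exact ⟨hx, hne0 x hlx, by simpa using hz 0, h2⟩
  have hsa := key a ha hla hzero
  have hsb := key b hb hlb fun s => by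
    rw [show b + s • u = a + (1 + s) • u by rw [hu]; module]; exact hzero _
  obtain ⟨c, hc⟩ := H.seg a b hsa hsb hab
  have hc1 : c = 1 := by
    have := congrArg (l0 p e) hc
    rw [l0_smul, hla, hlb, mul_one] at this
    exact this.symm
  exact hne (by rw [hc, hc1, one_smul])

/-- Strict second-order condition at smooth base points. -/
theorem Hyp.strict {c u : Fin n → ℝ} (hc : c ∈ cone p e) (hl : l0 p e c = 1) (h0 : eval c p = 0)
    (h1 : 0 < lc p 1 c e) (hu : lc p 1 c u = 0) (hlu : l0 p e u = 0) (hne : u ≠ 0) :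
    lc p 2 c u < 0 := by
  obtain ⟨hle, heq⟩ := H.second_order hc h0 h1 hu
  refine lt_of_le_of_ne hle fun h2 => hne ?_
  have hz := heq h2
  have hev := H.near_zero (f := fun s : ℝ => c + s • u) (a := (0 : ℝ)) (by fun_prop)
    (by simpa using hc) (by simpa using h0) (by simpa using h1)
  obtain ⟨s, hs, hspos⟩ := ((hev.filter_mono nhdsWithin_le_nhds).and
    (self_mem_nhdsWithin (a := (0 : ℝ)) (s := Set.Ioi 0))).exists
  have hmem := hs (hz s)
  have := H.rotund hc hmem hl (by rw [l0_add, l0_smul, hl, hlu]; ring) (by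
    rw [show c + (c + s • u) = (2 : ℝ) • (c + (s / 2) • u) by module, eval_smul H.hom, hz, mul_zero])
  have h3 : s • u = 0 := by
    have := sub_eq_zero.2 this.symm
    rw [← this]; module
  exact (smul_eq_zero.1 h3).resolve_left (ne_of_gt hspos)

omit H

/-- The data at a singular base point. -/
structure AtSing (p : MvPolynomial (Fin n) ℝ) (d : ℕ) (e v : Fin n → ℝ) (m : ℕ) : Prop where
  sing : Sing p e v
  base : l0 p e v = 1
  low : ∀ j < m, tp p v j = 0
  two_le : 2 ≤ m
  lt_deg : m < d
  hyp : HB (tp p v m) m e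
  mem_v : v ∈ cone (tp p v m) e
  neg_v : -v ∈ cone (tp p v m) e
  sub : cone p e ⊆ cone (tp p v m) e
  high : ∀ k, m ≤ k → k ≤ d → 0 < lc p k v e
  only : ∀ x ∈ cone (tp p v m) e, eval x (tp p v m) = 0 → lc (tp p v m) 1 x e = 0 →
    ∃ c : ℝ, x = c • v

theorem lc_tp_zero {v : Fin n → ℝ} {j : ℕ} (h : tp p v j = 0) (k : ℕ) (a u : Fin n → ℝ) :
    lc (tp p v j) k a u = 0 := by
  simp [h, lc, line]

include H

omit H in
/-- The lowest Taylor form at a cone point is hyperbolic. -/
theorem HB.tp_hb (H : HB p d e) {v : Fin n → ℝ} (hvc : v ∈ cone p e) {m : ℕ}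
    (hq : tp p v m ≠ 0) (hlow : ∀ j < m, tp p v j = 0) : HB (tp p v m) m e := by
  have hdeg : m ≤ d := not_lt.1 fun hlt => hq (tp_eq_zero H.hom.totalDegree_le hlt v)
  have hcoef : ∀ j < m, ∀ y, lc p j v y = 0 := fun j hj y => by
    rw [← eval_tp, hlow j hj, map_zero]
  have hqe : 0 < eval e (tp p v m) := by
    refine lt_of_le_of_ne (by rw [eval_tp]; exact H.lc_nonneg (H.inner_subset H.e_inner) hvc m)
      fun h0 => hq ?_
    obtain ⟨δ, hδ, hball⟩ := Metric.isOpen_iff.1 (isOpen_inner p d e) e H.e_inner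
    obtain ⟨C, hC, hCa⟩ : ∃ C : ℝ, 0 < C ∧ ∀ a ∈ Metric.ball e δ, C • e - a ∈ cone p e := by
      refine ⟨2 * ((‖e‖ + δ) / δ) + 1, by positivity, fun a ha => ?_⟩
      rw [mem_ball_iff_norm] at ha
      set C := 2 * ((‖e‖ + δ) / δ) + 1
      have hC : 0 < C := by positivity
      have hmem : C • e - a = C • (e - C⁻¹ • a) := by
        rw [smul_sub, smul_smul, mul_inv_cancel₀ hC.ne', one_smul]
      rw [hmem]
      refine H.cone_smul (H.inner_subset (hball ?_)) hC.le
      rw [mem_ball_iff_norm, sub_sub_cancel_left, norm_neg, norm_smul, norm_inv,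
        Real.norm_of_nonneg hC.le, inv_mul_lt_iff₀ hC]
      have : ‖a‖ ≤ ‖e‖ + δ := by linarith [norm_le_norm_add_norm_sub' a e]
      have e1 : (2 * ((‖e‖ + δ) / δ)) * δ = 2 * (‖e‖ + δ) := by field_simp
      nlinarith [norm_nonneg e]
    have hball0 : ∀ a ∈ Metric.ball e δ, eval a (tp p v m) = 0 := by
      intro a ha
      rw [eval_tp]
      refine le_antisymm ?_ (H.lc_nonneg (H.inner_subset (hball ha)) hvc m)
      have hsum : ∀ s ∈ Set.Ioc (0 : ℝ) 1,
          lc p m v a ≤ s * ∑ k ∈ range (d + 1), |lc p k v (C • e)| := by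
        intro s hs
        have h1 : lc p m v a * s ^ m ≤ eval (v + s • a) p := by
          rw [eval_eq_sum_lc H.hom.totalDegree_le]
          exact single_le_sum (f := fun k => lc p k v a * s ^ k) (fun k _ =>
            mul_nonneg (H.lc_nonneg (H.inner_subset (hball ha)) hvc k) (pow_nonneg hs.1.le _))
            (mem_range.2 (by omega))
        have h2 : eval (v + s • a) p ≤ eval (v + s • (C • e)) p := by
          have hb : s • (C • e - a) ∈ cone p e := H.cone_smul (hCa a ha) hs.1.le
          have hx : v + s • a ∈ cone p e :=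
            H.cone_add hvc (H.cone_smul (H.inner_subset (hball ha)) hs.1.le)
          rw [show v + s • (C • e) = v + s • a + (1 : ℝ) • (s • (C • e - a)) by module,
            eval_eq_sum_lc H.hom.totalDegree_le (v + s • a) (s • (C • e - a))]
          refine le_trans (le_of_eq ?_) (single_le_sum
            (f := fun k => lc p k (v + s • a) (s • (C • e - a)) * (1 : ℝ) ^ k)
            (fun k _ => mul_nonneg (H.lc_nonneg hb hx k) (by norm_num))
            (mem_range.2 (Nat.succ_pos d)))
          simp [lc_zero]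
        have h3 : eval (v + s • (C • e)) p ≤
            s ^ (m + 1) * ∑ k ∈ range (d + 1), |lc p k v (C • e)| := by
          rw [eval_eq_sum_lc H.hom.totalDegree_le, mul_sum]
          refine sum_le_sum fun k _ => ?_
          rcases le_or_gt k m with hk | hk
          · have : lc p k v (C • e) = 0 := by
              rcases hk.eq_or_lt with rfl | hk
              · rw [lc_scale H.hom.totalDegree_le, ← eval_tp, ← h0, mul_zero]
              · exact hcoef k hk _
            simp [this]
          · calc lc p k v (C • e) * s ^ k ≤ |lc p k v (C • e)| * s ^ k :=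
                  mul_le_mul_of_nonneg_right (le_abs_self _) (pow_nonneg hs.1.le _)
              _ ≤ |lc p k v (C • e)| * s ^ (m + 1) :=
                  mul_le_mul_of_nonneg_left (pow_le_pow_of_le_one hs.1.le hs.2 hk) (abs_nonneg _)
              _ = _ := mul_comm _ _
        have h4 := (h1.trans h2).trans h3
        rw [pow_succ, mul_assoc, mul_comm (lc p m v a)] at h4
        exact le_of_mul_le_mul_left h4 (pow_pos hs.1 _)
      refine ge_of_tendsto (x := 𝓝[>] (0 : ℝ)) ?_
        (eventually_of_mem (Ioc_mem_nhdsGT (zero_lt_one' ℝ)) hsum)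
      have hf : Continuous fun s : ℝ => s * ∑ k ∈ range (d + 1), |lc p k v (C • e)| := by fun_prop
      simpa using (hf.tendsto 0).mono_left nhdsWithin_le_nhds
    refine MvPolynomial.funext_set (fun i => Set.Ioo (e i - δ) (e i + δ))
      (fun i => Set.Ioo_infinite (by linarith)) fun y hy => ?_
    rw [map_zero]
    refine hball0 y ?_
    rw [Metric.mem_ball, dist_pi_lt_iff hδ]
    intro i
    rw [Real.dist_eq, abs_lt]
    have := hy i (Set.mem_univ i)
    constructor <;> linarith [this.1, this.2]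
  -- the rescaled polynomials near `v`
  set a : ℕ → (Fin n → ℝ) → ℝ → ℝ :=
    fun k y s => ∑ j ∈ range (d + 1), s ^ (j - m) * lc (tp p v j) k y e with ha
  have hrel : ∀ (k : ℕ) (y : Fin n → ℝ) (s : ℝ),
      s ^ k * lc p k (v + s • y) e = s ^ m * a k y s := by
    intro k y s
    rw [lc_near H.hom.totalDegree_le, mul_sum, ha, mul_sum]
    refine sum_congr rfl fun j _ => ?_
    rcases lt_or_ge j m with hj | hj
    · simp [lc_tp_zero (hlow j hj)]
    rcases lt_or_ge j k with hjk | hjk
    · simp [lc_eq_zero (tp_isHomogeneous p v j).totalDegree_le hjk]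
    · rw [← mul_assoc, ← mul_assoc, ← pow_add, ← pow_add, Nat.add_sub_cancel' hj,
        Nat.add_sub_cancel' hjk]
  have ha0 : ∀ k y, a k y 0 = lc (tp p v m) k y e := by
    intro k y
    simp only [ha]
    rw [sum_eq_single m]
    · simp
    · intro j _ hj
      rcases lt_or_ge j m with hj' | hj'
      · simp [lc_tp_zero (hlow j hj')]
      · rw [zero_pow (by omega), zero_mul]
    · intro hh; exact absurd (mem_range.2 (by omega)) hh
  have hacont : ∀ k y, Continuous (a k y) := fun k y => by simp only [ha]; fun_prop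
  have hqhom := tp_isHomogeneous p v m
  have hqne : ∀ y, line (tp p v m) y e ≠ 0 := fun y h0 =>
    hqe.ne' (by rw [← lc_top hqhom y e, lc, h0, Polynomial.coeff_zero])
  have hqrr : ∀ y, RR (line (tp p v m) y e) := by
    intro y
    refine rr_of_mono (hqne y) fun α β β' hβ => ?_
    let F : ℝ → ℂ → ℂ := fun s z => ∑ k ∈ range (d + 1), (a k y s : ℂ) * z ^ k
    have hF0 : ∀ z, F 0 z = Polynomial.aeval z (line (tp p v m) y e) := by
      intro z
      rw [Polynomial.aeval_eq_sum_range' (n := d + 1)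
        (by have := natDegree_line_le hqhom.totalDegree_le y e; omega)]
      exact sum_congr rfl fun k _ => by rw [ha0, Algebra.smul_def]; rfl
    have hFs : ∀ (s : ℝ) (z : ℂ),
        Polynomial.aeval ((s : ℂ) * z) (line p (v + s • y) e) = (s : ℂ) ^ m * F s z := by
      intro s z
      rw [Polynomial.aeval_eq_sum_range' (n := d + 1)
        (by have := natDegree_line_le H.hom.totalDegree_le (v + s • y) e; omega), mul_sum]
      refine sum_congr rfl fun k _ => ?_
      have hrk : ((s : ℂ) ^ k * (lc p k (v + s • y) e : ℂ)) = (s : ℂ) ^ m * (a k y s : ℂ) := by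
        exact_mod_cast hrel k y s
      rw [Algebra.smul_def, Complex.coe_algebraMap, mul_pow, ← mul_assoc ((s : ℂ) ^ m), ← hrk, lc]
      ring
    have key : ∀ s : ℝ, 0 < s → ‖F s ⟨α, β'⟩‖ ≤ ‖F s ⟨α, β⟩‖ := by
      intro s hs
      have h := (H.rr (v + s • y)).norm_mono (s * α) (s * β) (s * β')
        (by rw [abs_mul, abs_mul]; exact mul_le_mul_of_nonneg_left hβ (abs_nonneg s))
      have hmk : ∀ b : ℝ, (⟨s * α, s * b⟩ : ℂ) = (s : ℂ) * ⟨α, b⟩ := fun b =>
        Complex.ext (by simp) (by simp)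
      rw [hmk, hmk, hFs, hFs, norm_mul, norm_mul] at h
      refine le_of_mul_le_mul_left h ?_
      rw [norm_pow, Complex.norm_real, Real.norm_of_nonneg hs.le]; positivity
    have hFc : ∀ z, Continuous fun s => F s z := fun z =>
      continuous_finsetSum _ fun k _ => (Complex.continuous_ofReal.comp (hacont k y)).mul continuous_const
    rw [← hF0, ← hF0]
    exact le_of_tendsto_of_tendsto (b := 𝓝[>] (0 : ℝ))
      (((hFc ⟨α, β'⟩).norm.tendsto 0).mono_left nhdsWithin_le_nhds)
      (((hFc ⟨α, β⟩).norm.tendsto 0).mono_left nhdsWithin_le_nhds)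
      (eventually_nhdsWithin_of_forall key)
  exact ⟨hqhom, hqe, hqrr⟩

theorem Hyp.atSing {v : Fin n → ℝ} (hv : Sing p e v) (hbase : l0 p e v = 1) :
    ∃ m, AtSing p d e v m := by
  classical
  obtain ⟨hvc, hv0, hpv, hv1⟩ := hv
  have hex : ∃ j, tp p v j ≠ 0 := by
    refine ⟨d, fun h0 => H.pos.ne' ?_⟩
    rw [← lc_top H.hom v e, ← eval_tp, h0, map_zero]
  set m := Nat.find hex with hm
  have hlow : ∀ j < m, tp p v j = 0 := fun j hj => not_not.1 (Nat.find_min hex hj)
  have hq : tp p v m ≠ 0 := Nat.find_spec hex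
  have hdeg : m ≤ d := not_lt.1 fun hlt => hq (tp_eq_zero H.hom.totalDegree_le hlt v)
  have h2 : 2 ≤ m := by
    by_contra hlt
    refine hq (MvPolynomial.funext fun y => ?_)
    rw [eval_tp, map_zero]
    rcases Nat.lt_succ_iff.1 (not_le.1 hlt) |>.eq_or_lt with h1 | h1
    · rw [h1]; exact H.sing_all hvc hv1 y
    · rw [Nat.lt_one_iff.1 h1, lc_zero]; exact hpv
  have hcoef : ∀ j < m, ∀ y, lc p j v y = 0 := fun j hj y => by
    rw [← eval_tp, hlow j hj, map_zero]
  have hq' : HB (tp p v m) m e := H.toHB.tp_hb hvc hq hlow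
  have hqe := hq'.pos
  -- the rescaled polynomials near `v`
  set a : ℕ → (Fin n → ℝ) → ℝ → ℝ :=
    fun k y s => ∑ j ∈ range (d + 1), s ^ (j - m) * lc (tp p v j) k y e with ha
  have hrel : ∀ (k : ℕ) (y : Fin n → ℝ) (s : ℝ),
      s ^ k * lc p k (v + s • y) e = s ^ m * a k y s := by
    intro k y s
    rw [lc_near H.hom.totalDegree_le, mul_sum, ha, mul_sum]
    refine sum_congr rfl fun j _ => ?_
    rcases lt_or_ge j m with hj | hj
    · simp [lc_tp_zero (hlow j hj)]
    rcases lt_or_ge j k with hjk | hjk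
    · simp [lc_eq_zero (tp_isHomogeneous p v j).totalDegree_le hjk]
    · rw [← mul_assoc, ← mul_assoc, ← pow_add, ← pow_add, Nat.add_sub_cancel' hj,
        Nat.add_sub_cancel' hjk]
  have ha0 : ∀ k y, a k y 0 = lc (tp p v m) k y e := by
    intro k y
    simp only [ha]
    rw [sum_eq_single m]
    · simp
    · intro j _ hj
      rcases lt_or_ge j m with hj' | hj'
      · simp [lc_tp_zero (hlow j hj')]
      · rw [zero_pow (by omega), zero_mul]
    · intro hh; exact absurd (mem_range.2 (by omega)) hh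
  have hacont : ∀ k y, Continuous (a k y) := fun k y => by simp only [ha]; fun_prop
  have hqhom := tp_isHomogeneous p v m
  have hmd : m < d := by
    rcases hdeg.eq_or_lt with hmeq | hlt
    · refine absurd (H.pointed v hvc (H.neg_mem fun k hk => hcoef k (by omega) e)) hv0
    · exact hlt
  have hsub : cone p e ⊆ cone (tp p v m) e := by
    intro x hx k
    rw [← ha0]
    refine ge_of_tendsto (x := 𝓝[>] (0 : ℝ)) (f := fun s => a k x s)
      (((hacont k x).tendsto 0).mono_left nhdsWithin_le_nhds)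
      (eventually_nhdsWithin_of_forall fun s (hs : 0 < s) => ?_)
    have h1 : 0 ≤ s ^ k * lc p k (v + s • x) e :=
      mul_nonneg (pow_nonneg hs.le _) (H.cone_add hvc (H.cone_smul hx hs.le) k)
    rw [hrel] at h1
    exact nonneg_of_mul_nonneg_right h1 (pow_pos hs _)
  have hvlow : ∀ k < m, lc (tp p v m) k v e = 0 := by
    intro k hk
    rw [← ha0]
    refine tendsto_nhds_unique (l := 𝓝[>] (0 : ℝ))
      (((hacont k v).tendsto 0).mono_left nhdsWithin_le_nhds)
      (tendsto_const_nhds.congr' (eventually_nhdsWithin_of_forall fun s (hs : 0 < s) => ?_))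
    have h1 := hrel k v s
    rw [show v + s • v = (1 + s) • v by rw [add_smul, one_smul],
      H.lc_smul_left _ _ _ (by omega), hcoef k hk e, mul_zero, mul_zero] at h1
    exact ((mul_eq_zero.1 h1.symm).resolve_left (pow_ne_zero _ hs.ne')).symm
  refine ⟨m, ⟨hvc, hv0, hpv, hv1⟩, hbase, hlow, h2, hmd, hq', hsub hvc, ?_, hsub, ?_, ?_⟩
  · exact hq'.neg_mem hvlow
  · intro k hk hkd
    obtain ⟨Q, hQ⟩ : Polynomial.X ^ m ∣ line p v e := Polynomial.X_pow_dvd_iff.2 fun j hj => hcoef j hj e
    have hQk : ∀ j, Q.coeff j = lc p (j + m) v e := fun j => by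
      rw [lc, hQ, Polynomial.coeff_X_pow_mul]
    have hne : line p v e ≠ 0 := H.line_ne_zero H.pos.ne' v
    have hQ0 : Q ≠ 0 := fun h0' => hne (by rw [hQ, h0', mul_zero])
    have hdegQ : Q.natDegree + m = d := by
      rw [← H.natDegree_eq H.pos.ne' v, hQ, Polynomial.natDegree_mul (pow_ne_zero _ Polynomial.X_ne_zero) hQ0,
        Polynomial.natDegree_X_pow, add_comm]
    have hlead : 0 < Q.leadingCoeff := by
      have h2' := H.leading H.pos.ne' v
      rw [hQ, Polynomial.leadingCoeff_mul, Polynomial.leadingCoeff_pow, Polynomial.leadingCoeff_X,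
        one_pow, one_mul] at h2'
      rw [h2']; exact H.pos
    rw [show k = (k - m) + m by omega, ← hQk]
    refine RR.coeff_pos (fun z hz => H.rr v z (by rw [hQ]; simp [hz])) hlead (fun s hs => ?_) _
      (by omega)
    rcases hs.eq_or_lt with rfl | hs
    · rw [← Polynomial.coeff_zero_eq_eval_zero, hQk, zero_add, ← eval_tp]; exact hqe.ne'
    · exact (eval_pos_of_coeff_nonneg le_rfl (fun j => by rw [hQk]; exact hvc _) le_rfl hlead hs).ne'
  · exact H.loc v ⟨hvc, hv0, hpv, hv1⟩ m hq hlow

end Vale.Agent.P256.Conical
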