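import Vale.Agent.P256.Conical.Local

/-!
The tangent cone and the blown-up boundary equation at a singular base point.
-/

namespace Vale.Agent.P256.Conical

open MvPolynomial Finset Topology Filter

theorem lc_one_linear {σ : Type*} [Fintype σ] (p : MvPolynomial σ ℝ) (y a b : σ → ℝ) (s : ℝ) :
    lc p 1 y (a + s • b) = lc p 1 y a + s * lc p 1 y b := by
  simp only [lc_one, Pi.add_apply, Pi.smul_apply, smul_eq_mul, add_mul, sum_add_distrib, mul_sum,
    mul_assoc]

variable {n : ℕ}

/-- A point of the blown-up chart. -/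
def pt (θ : Fin n → ℝ) (r : ℝ) : Option (Fin n) → ℝ := fun o => o.elim r θ

/-- The angular part of a chart point. -/
def ang (ξ : Option (Fin n) → ℝ) : Fin n → ℝ := fun i => ξ (some i)

@[simp] theorem pt_none (θ : Fin n → ℝ) (r : ℝ) : pt θ r none = r := rfl
@[simp] theorem pt_some (θ : Fin n → ℝ) (r : ℝ) (i : Fin n) : pt θ r (some i) = θ i := rfl
@[simp] theorem ang_pt (θ : Fin n → ℝ) (r : ℝ) : ang (pt θ r) = θ := rfl

theorem pt_ang (ξ : Option (Fin n) → ℝ) : pt (ang ξ) (ξ none) = ξ := by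
  funext o; cases o <;> rfl

theorem dir_split (w : Option (Fin n) → ℝ) :
    w = pt (ang w) 0 + w none • pt (0 : Fin n → ℝ) 1 := by
  funext o; cases o <;> simp [pt, ang]

theorem continuous_pt {X : Type*} [TopologicalSpace X] {f : X → Fin n → ℝ} {g : X → ℝ}
    (hf : Continuous f) (hg : Continuous g) : Continuous fun x => pt (f x) (g x) :=
  continuous_pi fun o => by
    cases o with
    | none => exact hg
    | some i => exact (continuous_apply i).comp hf

theorem continuous_ang : Continuous (ang : (Option (Fin n) → ℝ) → Fin n → ℝ) :=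
  continuous_pi fun i => continuous_apply (some i)

/-- The boundary equation in the blown-up chart at `v`. -/
noncomputable def eqn (p : MvPolynomial (Fin n) ℝ) (v : Fin n → ℝ) (m d : ℕ) :
    MvPolynomial (Option (Fin n)) ℝ :=
  ∑ j ∈ range (d + 1), rename some (tp p v j) * X none ^ (j - m)

theorem eval_eqn (p : MvPolynomial (Fin n) ℝ) (v : Fin n → ℝ) (m d : ℕ)
    (ξ : Option (Fin n) → ℝ) :
    eval ξ (eqn p v m d) = ∑ j ∈ range (d + 1), eval (ang ξ) (tp p v j) * ξ none ^ (j - m) := by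
  simp [eqn, eval_rename, Function.comp_def]
  rfl

variable {p : MvPolynomial (Fin n) ℝ} {d m : ℕ} {e v : Fin n → ℝ} (H : Hyp p d e)
  (A : AtSing p d e v m)

/-- The slice of the tangent cone. -/
def slice (p : MvPolynomial (Fin n) ℝ) (e v : Fin n → ℝ) (m : ℕ) : Set (Fin n → ℝ) :=
  {θ | θ ∈ cone (tp p v m) e ∧ l0 p e θ = 0 ∧ l0 (tp p v m) e θ = 1}

include A

theorem AtSing.phi_eq (x : Fin n → ℝ) :
    l0 (tp p v m) e x = lc (tp p v m) (m - 1) x e := by
  have := A.two_le
  rw [lc_reflect A.hyp.hom (by omega), show m - (m - 1) = 1 by omega]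
  rfl

theorem AtSing.phi_nonneg {x : Fin n → ℝ} (hx : x ∈ cone (tp p v m) e) :
    0 ≤ l0 (tp p v m) e x := by
  rw [A.phi_eq]; exact hx _

theorem AtSing.phi_v : l0 (tp p v m) e v = 0 := by
  have h1 := A.phi_nonneg A.mem_v
  have h2 := A.phi_nonneg A.neg_v
  rw [← neg_one_smul ℝ v, l0_smul] at h2
  linarith

theorem AtSing.phi_zero {x : Fin n → ℝ} (hx : x ∈ cone (tp p v m) e)
    (h0 : l0 (tp p v m) e x = 0) : ∃ c : ℝ, x = c • v := by
  have hlow := A.hyp.low_zero hx (by rwa [← A.phi_eq])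
  have := A.two_le
  exact A.only x hx (by rw [← lc_zero _ x e]; exact hlow 0 (by omega)) (hlow 1 (by omega))

theorem AtSing.eq_zero {x : Fin n → ℝ} (hx : x ∈ cone (tp p v m) e) (h0 : l0 p e x = 0)
    (h1 : l0 (tp p v m) e x = 0) : x = 0 := by
  obtain ⟨c, hc⟩ := A.phi_zero hx h1
  rw [hc, l0_smul, A.base, mul_one] at h0
  rw [hc, h0, zero_smul]

theorem AtSing.slice_ne_smul {θ : Fin n → ℝ} (hθ : θ ∈ slice p e v m) (c : ℝ) : θ ≠ c • v :=
  fun h => by
    have := hθ.2.2
    rw [h, l0_smul, A.phi_v, mul_zero] at this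
    exact zero_ne_one this

theorem AtSing.smooth {θ : Fin n → ℝ} (hθ : θ ∈ slice p e v m) (h0 : eval θ (tp p v m) = 0) :
    0 < lc (tp p v m) 1 θ e :=
  lt_of_le_of_ne (hθ.1 1) fun h1 => by
    obtain ⟨c, hc⟩ := A.only θ hθ.1 h0 h1.symm
    exact A.slice_ne_smul hθ c hc

theorem AtSing.isCompact_slice : IsCompact (slice p e v m) := by
  have hc : IsClosed (slice p e v m) :=
    (isClosed_cone _ _).inter ((isClosed_eq continuous_l0 continuous_const).inter
      (isClosed_eq continuous_l0 continuous_const))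
  set S := Metric.sphere (0 : Fin n → ℝ) 1 ∩ cone (tp p v m) e ∩ {x | l0 p e x = 0}
  have hS : IsCompact S := ((isCompact_sphere _ _).inter_right (isClosed_cone _ _)).inter_right
    (isClosed_eq continuous_l0 continuous_const)
  obtain ⟨μ, hμ, hμle⟩ : ∃ μ > 0, ∀ x ∈ S, μ ≤ l0 (tp p v m) e x := by
    rcases S.eq_empty_or_nonempty with hS0 | hS0
    · exact ⟨1, one_pos, by simp [hS0]⟩
    obtain ⟨x, hx, hmin⟩ := hS.exists_isMinOn hS0
      (continuous_l0 (p := tp p v m) (e := e)).continuousOn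
    refine ⟨_, lt_of_le_of_ne (A.phi_nonneg hx.1.2) fun h0 => ?_, fun y hy => hmin hy⟩
    have hxs := hx.1.1
    rw [A.eq_zero hx.1.2 hx.2 h0.symm] at hxs
    simp at hxs
  refine (isCompact_closedBall (0 : Fin n → ℝ) (1 / μ)).of_isClosed_subset hc fun θ hθ => ?_
  rw [mem_closedBall_zero_iff]
  have hne : θ ≠ 0 := fun h => by
    have := hθ.2.2
    rw [h] at this; simp [l0, lc_one] at this
  have hn : 0 < ‖θ‖ := norm_pos_iff.2 hne
  have h1 := hμle (‖θ‖⁻¹ • θ) ⟨⟨by simp [norm_smul, hn.ne'],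
    A.hyp.cone_smul hθ.1 (inv_nonneg.2 hn.le)⟩, by simp [l0_smul, hθ.2.1]⟩
  rw [l0_smul, hθ.2.2, mul_one] at h1
  rw [le_div_iff₀ hμ]
  have := mul_le_mul_of_nonneg_left h1 hn.le
  rwa [mul_inv_cancel₀ hn.ne'] at this

theorem AtSing.rotund {a b : Fin n → ℝ} (ha : a ∈ slice p e v m) (hb : b ∈ slice p e v m)
    (hab : eval (a + b) (tp p v m) = 0) : a = b := by
  by_contra hne
  have hu1 : l0 p e (b - a) = 0 := by rw [l0_sub, ha.2.1, hb.2.1, sub_zero]
  have hu2 : l0 (tp p v m) e (b - a) = 0 := by rw [l0_sub, ha.2.2, hb.2.2, sub_self]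
  obtain ⟨s, -, h1, h2⟩ := A.hyp.exit_sing ha.1 (u := b - a)
    (fun hc => hne (sub_eq_zero.1 (A.eq_zero hc hu1 hu2)).symm) fun s => by
      rw [show a + s • (b - a) = (1 - s) • a + s • b by module]
      exact A.hyp.span_zero ha.1 hb.1 hab _ _
  have h0 : eval (a + s • (b - a)) (tp p v m) = 0 := by
    rw [show a + s • (b - a) = (1 - s) • a + s • b by module]
    exact A.hyp.span_zero ha.1 hb.1 hab _ _
  obtain ⟨c, hc⟩ := A.only _ h1 h0 h2
  refine A.slice_ne_smul (θ := a + s • (b - a)) ⟨h1, ?_, ?_⟩ c hc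
  · rw [l0_add, l0_smul, ha.2.1, hu1]; ring
  · rw [l0_add, l0_smul, ha.2.2, hu2]; ring

theorem AtSing.strict {θ u : Fin n → ℝ} (hθ : θ ∈ slice p e v m) (h0 : eval θ (tp p v m) = 0)
    (hu : lc (tp p v m) 1 θ u = 0) (hu1 : l0 p e u = 0) (hu2 : l0 (tp p v m) e u = 0)
    (hne : u ≠ 0) : lc (tp p v m) 2 θ u < 0 := by
  have h1 := A.smooth hθ h0
  obtain ⟨hle, heq⟩ := A.hyp.second_order hθ.1 h0 h1 hu
  refine lt_of_le_of_ne hle fun h2 => hne ?_
  have hz := heq h2
  have hev := A.hyp.near_zero (f := fun s : ℝ => θ + s • u) (a := (0 : ℝ)) (by fun_prop)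
    (by simpa using hθ.1) (by simpa using h0) (by simpa using h1)
  obtain ⟨s, hs, hspos⟩ := ((hev.filter_mono nhdsWithin_le_nhds).and
    (self_mem_nhdsWithin (a := (0 : ℝ)) (s := Set.Ioi 0))).exists
  have := A.rotund hθ (b := θ + s • u) ⟨hs (hz s), by rw [l0_add, l0_smul, hθ.2.1, hu1]; ring,
    by rw [l0_add, l0_smul, hθ.2.2, hu2]; ring⟩ (by
      rw [show θ + (θ + s • u) = (2 : ℝ) • (θ + (s / 2) • u) by module, eval_smul A.hyp.hom, hz,
        mul_zero])
  have h3 : s • u = 0 := by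
    have := sub_eq_zero.2 this.symm
    rw [← this]; module
  exact (smul_eq_zero.1 h3).resolve_left (ne_of_gt hspos)

theorem AtSing.pow_eqn (hp : p.totalDegree ≤ d) (ξ : Option (Fin n) → ℝ) :
    ξ none ^ m * eval ξ (eqn p v m d) = eval (v + ξ none • ang ξ) p := by
  rw [eval_eqn, eval_add_eq_sum hp, mul_sum]
  refine sum_congr rfl fun j _ => ?_
  rw [eval_smul (tp_isHomogeneous p v j)]
  rcases lt_or_ge j m with hj | hj
  · simp [A.low j hj]
  · rw [mul_left_comm, ← pow_add, Nat.add_sub_cancel' hj]; ring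

theorem AtSing.eqn_theta (hp : p.totalDegree ≤ d) (ξ : Option (Fin n) → ℝ) (u : Fin n → ℝ)
    (k : ℕ) :
    ξ none ^ m * lc (eqn p v m d) k ξ (pt u 0) =
      ξ none ^ k * lc p k (v + ξ none • ang ξ) u := by
  have h : Polynomial.C (ξ none ^ m) * line (eqn p v m d) ξ (pt u 0) =
      line p (v + ξ none • ang ξ) (ξ none • u) := by
    refine Polynomial.funext fun s => ?_
    have h1 := A.pow_eqn hp (ξ + s • pt u 0)
    rw [Polynomial.eval_mul, Polynomial.eval_C, eval_line, eval_line]
    have h2 : (ξ + s • pt u 0) none = ξ none := by simp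
    have h3 : ang (ξ + s • pt u 0) = ang ξ + s • u := by funext i; simp [ang]
    rw [h2, h3] at h1
    rw [h1]; congr 1; simp [smul_smul, mul_comm s, add_assoc]
  rw [← lc_scale hp, lc, ← Polynomial.coeff_C_mul, h]
  rfl

theorem AtSing.eqn_radial (hp : p.totalDegree ≤ d) (ξ : Option (Fin n) → ℝ)
    (hE : eval ξ (eqn p v m d) = 0) :
    ξ none ^ m * lc (eqn p v m d) 1 ξ (pt 0 1) = lc p 1 (v + ξ none • ang ξ) (ang ξ) := by
  have h : (Polynomial.C (ξ none) + Polynomial.X) ^ m * line (eqn p v m d) ξ (pt 0 1) =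
      line p (v + ξ none • ang ξ) (ang ξ) := by
    refine Polynomial.funext fun s => ?_
    have h1 := A.pow_eqn hp (ξ + s • pt 0 1)
    rw [Polynomial.eval_mul, Polynomial.eval_pow, Polynomial.eval_add, Polynomial.eval_C,
      Polynomial.eval_X, eval_line, eval_line]
    have h2 : (ξ + s • pt (0 : Fin n → ℝ) 1) none = ξ none + s := by simp
    have h3 : ang (ξ + s • pt (0 : Fin n → ℝ) 1) = ang ξ := by funext i; simp [ang]
    rw [h2, h3] at h1
    rw [h1]; congr 1; rw [add_smul, add_assoc]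
  have h0 : (line (eqn p v m d) ξ (pt 0 1)).coeff 0 = 0 := by
    rw [show (line (eqn p v m d) ξ (pt 0 1)).coeff 0 = lc (eqn p v m d) 0 ξ (pt 0 1) from rfl,
      lc_zero, hE]
  rw [lc, lc, ← h, Polynomial.coeff_mul, Finset.Nat.sum_antidiagonal_succ,
    Finset.Nat.antidiagonal_zero, sum_singleton, h0, mul_zero, add_zero,
    Polynomial.coeff_zero_eq_eval_zero]
  simp

theorem AtSing.eqn_zero_theta (θ u : Fin n → ℝ) (k : ℕ) :
    lc (eqn p v m d) k (pt θ 0) (pt u 0) = lc (tp p v m) k θ u := by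
  have h : line (eqn p v m d) (pt θ 0) (pt u 0) = line (tp p v m) θ u := by
    refine Polynomial.funext fun s => ?_
    rw [eval_line, eval_line, eval_eqn]
    have h3 : ang (pt θ 0 + s • pt u 0) = θ + s • u := by funext i; simp [ang]
    have h4 : (pt θ 0 + s • pt u 0) none = 0 := by simp
    rw [h3, h4, sum_eq_single m]
    · simp
    · intro j _ hj
      rcases lt_or_ge j m with hj' | hj'
      · simp [A.low j hj']
      · rw [zero_pow (by omega), mul_zero]
    · intro hh; exact absurd (mem_range.2 (by have := A.lt_deg; omega)) hh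
  rw [lc, h]; rfl

theorem AtSing.eval_eqn_zero (θ : Fin n → ℝ) :
    eval (pt θ 0) (eqn p v m d) = eval θ (tp p v m) := by
  have := A.eqn_zero_theta θ 0 0
  rwa [lc_zero, lc_zero] at this

theorem AtSing.eqn_zero_radial (θ : Fin n → ℝ) :
    lc (eqn p v m d) 1 (pt θ 0) (pt 0 1) = eval θ (tp p v (m + 1)) := by
  have h : line (eqn p v m d) (pt θ 0) (pt 0 1) =
      ∑ j ∈ range (d + 1), Polynomial.C (eval θ (tp p v j)) * Polynomial.X ^ (j - m) := by
    refine Polynomial.funext fun s => ?_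
    rw [eval_line, eval_eqn, Polynomial.eval_finsetSum]
    refine sum_congr rfl fun j _ => ?_
    have h3 : ang (pt θ 0 + s • pt 0 1) = θ := by funext i; simp [ang]
    simp [h3]
  rw [lc, h, Polynomial.finsetSum_coeff]
  simp only [Polynomial.coeff_C_mul_X_pow]
  rw [sum_eq_single (m + 1)]
  · rw [if_pos (by omega)]
  · intro j _ hj
    rw [if_neg (by omega)]
  · intro hh; exact absurd (mem_range.2 (by have := A.lt_deg; omega)) hh

/-- Chart coordinates of a base point. -/
noncomputable def coords (p : MvPolynomial (Fin n) ℝ) (e v : Fin n → ℝ) (m : ℕ) (y : Fin n → ℝ) :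
    Option (Fin n) → ℝ :=
  pt ((l0 (tp p v m) e y)⁻¹ • (y - v)) (l0 (tp p v m) e y)

include H

theorem AtSing.coords_spec {y : Fin n → ℝ} (hy : y ∈ cone p e) (hl : l0 p e y = 1) (hne : y ≠ v) :
    0 < coords p e v m y none ∧ ang (coords p e v m y) ∈ slice p e v m ∧
      y = v + coords p e v m y none • ang (coords p e v m y) ∧
      (eval y p = 0 → eval (coords p e v m y) (eqn p v m d) = 0) := by
  have hr : 0 < l0 (tp p v m) e y := lt_of_le_of_ne (A.phi_nonneg (A.sub hy)) fun h0 => hne (by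
    obtain ⟨c, hc⟩ := A.phi_zero (A.sub hy) h0.symm
    rw [hc, l0_smul, A.base, mul_one] at hl
    rw [hc, hl, one_smul])
  have hy' : y = v + coords p e v m y none • ang (coords p e v m y) := by
    rw [coords, pt_none, ang_pt, smul_smul, mul_inv_cancel₀ hr.ne', one_smul, add_sub_cancel]
  refine ⟨hr, ⟨?_, ?_, ?_⟩, hy', fun h0 => ?_⟩
  · rw [coords, ang_pt, sub_eq_add_neg]
    exact A.hyp.cone_smul (A.hyp.cone_add (A.sub hy) A.neg_v) (inv_nonneg.2 hr.le)
  · rw [coords, ang_pt, l0_smul, l0_sub, hl, A.base, sub_self, mul_zero]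
  · rw [coords, ang_pt, l0_smul, l0_sub, A.phi_v, sub_zero, inv_mul_cancel₀ hr.ne']
  · have := A.pow_eqn H.hom.totalDegree_le (coords p e v m y)
    rw [← hy', h0] at this
    exact (mul_eq_zero.1 this).resolve_left (pow_ne_zero _ hr.ne')

/-- Boundary points converging to `v` approach the boundary of the slice in the chart. -/
theorem AtSing.approach {y : ℕ → Fin n → ℝ}
    (hy : ∀ k, y k ∈ cone p e ∧ l0 p e (y k) = 1 ∧ eval (y k) p = 0 ∧ y k ≠ v)
    (hlim : Tendsto y atTop (𝓝 v)) :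
    ∃ (ψ : ℕ → ℕ) (θ : Fin n → ℝ), StrictMono ψ ∧ θ ∈ slice p e v m ∧ eval θ (tp p v m) = 0 ∧
      Tendsto (fun k => coords p e v m (y (ψ k))) atTop (𝓝 (pt θ 0)) := by
  have hs := fun k => A.coords_spec H (hy k).1 (hy k).2.1 (hy k).2.2.2
  obtain ⟨θ, hθ, ψ, hψ, hθlim⟩ := A.isCompact_slice.tendsto_subseq fun k => (hs k).2.1
  have hr : Tendsto (fun k => coords p e v m (y (ψ k)) none) atTop (𝓝 0) := by
    have := ((continuous_l0 (p := tp p v m) (e := e)).tendsto v).comp (hlim.comp hψ.tendsto_atTop)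
    rwa [A.phi_v] at this
  have hlim' : Tendsto (fun k => coords p e v m (y (ψ k))) atTop (𝓝 (pt θ 0)) := by
    rw [tendsto_pi_nhds]
    intro o
    cases o with
    | none => exact hr
    | some i => exact ((continuous_apply i).tendsto θ).comp hθlim
  refine ⟨ψ, θ, hψ, hθ, ?_, hlim'⟩
  rw [← A.eval_eqn_zero]
  exact tendsto_nhds_unique (((MvPolynomial.continuous_eval _).tendsto _).comp hlim')
    (tendsto_const_nhds.congr fun k => ((hs (ψ k)).2.2.2 (hy (ψ k)).2.2.1).symm)

/-- The next Taylor form is negative on the boundary of the slice. -/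
theorem AtSing.next_neg {θ : Fin n → ℝ} (hθ : θ ∈ slice p e v m) (h0 : eval θ (tp p v m) = 0) :
    eval θ (tp p v (m + 1)) < 0 := by
  have hd := H.hom.totalDegree_le
  have hm := A.two_le
  set a : ℕ → ℝ → ℝ := fun k r => ∑ j ∈ range (d + 1), r ^ (j - m) * lc (tp p v j) k θ e with ha
  have hrel : ∀ (k : ℕ) (r : ℝ), r ^ k * lc p k (v + r • θ) e = r ^ m * a k r := by
    intro k r
    rw [lc_near hd, mul_sum, ha, mul_sum]
    refine sum_congr rfl fun j _ => ?_
    rcases lt_or_ge j m with hj | hj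
    · simp [lc_tp_zero (A.low j hj)]
    rcases lt_or_ge j k with hjk | hjk
    · simp [lc_eq_zero (tp_isHomogeneous p v j).totalDegree_le hjk]
    · rw [← mul_assoc, ← mul_assoc, ← pow_add, ← pow_add, Nat.add_sub_cancel' hj,
        Nat.add_sub_cancel' hjk]
  have hhigher : ∀ᶠ r in 𝓝[>] (0 : ℝ), ∀ k ∈ Finset.Icc 1 d, 0 < lc p k (v + r • θ) e := by
    rw [Filter.eventually_all_finset]
    intro k hk
    obtain ⟨hk1, hk2⟩ := Finset.mem_Icc.1 hk
    rcases lt_or_ge k m with hkm | hkm
    · have h0' : a k 0 = lc (tp p v m) k θ e := by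
        simp only [ha]
        rw [sum_eq_single m]
        · simp
        · intro j _ hj
          rcases lt_or_ge j m with hj' | hj'
          · simp [lc_tp_zero (A.low j hj')]
          · rw [zero_pow (by omega), zero_mul]
        · intro hh; exact absurd (mem_range.2 (by have := A.lt_deg; omega)) hh
      have hpos : 0 < a k 0 := by
        rw [h0']; exact A.hyp.lc_pos_smooth hθ.1 h0 (A.smooth hθ h0) k hk1 hkm.le
      have hc : Continuous (a k) := by simp only [ha]; fun_prop
      filter_upwards [((hc.tendsto 0).eventually (lt_mem_nhds hpos)).filter_mono nhdsWithin_le_nhds,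
        self_mem_nhdsWithin] with r hr (hr0 : 0 < r)
      have h1 : 0 < r ^ k * lc p k (v + r • θ) e := by
        rw [hrel]; exact mul_pos (pow_pos hr0 _) hr
      exact pos_of_mul_pos_right h1 (pow_nonneg hr0.le _)
    · have hc : Continuous fun r : ℝ => lc p k (v + r • θ) e :=
        continuous_lc p k (by fun_prop) continuous_const
      exact ((hc.tendsto' 0 (lc p k v e) (by simp)).eventually
        (lt_mem_nhds (A.high k hkm hk2))).filter_mono nhdsWithin_le_nhds
  have hcone : ∀ᶠ r in 𝓝[>] (0 : ℝ), 0 ≤ eval (v + r • θ) p → v + r • θ ∈ cone p e := by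
    refine hhigher.mono fun r hr h0r k => ?_
    rcases Nat.eq_zero_or_pos k with rfl | hk
    · rwa [lc_zero]
    rcases le_or_gt k d with hkd | hkd
    · exact (hr k (Finset.mem_Icc.2 ⟨hk, hkd⟩)).le
    · rw [lc_eq_zero hd hkd]
  rcases lt_trichotomy (eval θ (tp p v (m + 1))) 0 with hlt | heq | hgt
  · exact hlt
  · exfalso
    obtain ⟨B, hB, hlip⟩ := lc_lip hd v e θ
    have hβ : 0 < lc (tp p v m) 1 θ e := A.smooth hθ h0
    set g : ℝ → ℝ := fun ε => ∑ j ∈ range (d + 1), ε ^ (j - m) * lc (tp p v j) (m - 1) e θ with hg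
    have hg0 : g 0 = lc (tp p v m) 1 θ e := by
      simp only [hg]
      rw [sum_eq_single m]
      · rw [Nat.sub_self, pow_zero, one_mul, lc_reflect A.hyp.hom (by omega),
          show m - (m - 1) = 1 by omega]
      · intro j _ hj
        rcases lt_or_ge j m with hj' | hj'
        · simp [lc_tp_zero (A.low j hj')]
        · rw [zero_pow (by omega), zero_mul]
      · intro hh; exact absurd (mem_range.2 (by have := A.lt_deg; omega)) hh
    have hfg : ∀ ε : ℝ, lc p (m - 1) (v + ε • e) θ = ε * g ε := by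
      intro ε
      rw [lc_near hd, hg, mul_sum]
      refine sum_congr rfl fun j _ => ?_
      rcases lt_or_ge j m with hj | hj
      · simp [lc_tp_zero (A.low j hj)]
      · rw [← mul_assoc, ← pow_succ', show j - m + 1 = j - (m - 1) by omega]
    have hlo : ∀ᶠ ε in 𝓝[>] (0 : ℝ),
        lc (tp p v m) 1 θ e / 2 * ε ≤ |(line p (v + ε • e) θ).coeff (m - 1)| := by
      have hc : Continuous g := by simp only [hg]; fun_prop
      filter_upwards [((hc.tendsto 0).eventually (lt_mem_nhds (show lc (tp p v m) 1 θ e / 2 < g 0 by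
        rw [hg0]; linarith))).filter_mono nhdsWithin_le_nhds, self_mem_nhdsWithin] with ε hε
        (hε0 : 0 < ε)
      refine le_trans ?_ (le_abs_self _)
      rw [show (line p (v + ε • e) θ).coeff (m - 1) = lc p (m - 1) (v + ε • e) θ from rfl, hfg,
        mul_comm ε]
      exact mul_le_mul_of_nonneg_right hε.le hε0.le
    have hz := higher_zero (d := d) (fun ε => line p (v + ε • e) θ) (fun k => lc p k v θ) (m - 1)
      (half_pos hβ) (fun ε hε => H.rr_line (H.inner_add_e A.sing.1 hε.1) θ)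
      (fun ε => natDegree_line_le hd _ _) hlip hlo
      (by simp only [← eval_tp, A.low (m - 1) (by omega), map_zero])
      (by rw [show m - 1 + 1 = m by omega, ← eval_tp]; exact h0)
      (by rw [show m - 1 + 2 = m + 1 by omega, ← eval_tp]; exact heq)
    have hline : ∀ r : ℝ, eval (v + r • θ) p = 0 := fun r => by
      rw [eval_eq_sum_lc hd]
      refine sum_eq_zero fun k _ => ?_
      rcases lt_or_ge k (m - 1) with hk | hk
      · rw [← eval_tp, A.low k (by omega), map_zero, zero_mul]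
      · rw [hz k hk, zero_mul]
    obtain ⟨r, hr, hr0⟩ := (hcone.and (self_mem_nhdsWithin (a := (0 : ℝ)) (s := Set.Ioi 0))).exists
    have := H.rotund A.sing.1 (hr (hline r).ge) A.base
      (by rw [l0_add, l0_smul, A.base, hθ.2.1]; ring) (by
        rw [show v + (v + r • θ) = (2 : ℝ) • (v + (r / 2) • θ) by module, eval_smul H.hom, hline,
          mul_zero])
    have h3 : r • θ = 0 := by
      have := sub_eq_zero.2 this.symm
      rw [← this]; module
    exact A.slice_ne_smul hθ 0 (by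
      rw [zero_smul]; exact (smul_eq_zero.1 h3).resolve_left (ne_of_gt hr0))
  · exfalso
    have hE : ∀ᶠ r in 𝓝[>] (0 : ℝ), 0 < eval (v + r • θ) p := by
      have hlin : Continuous fun r : ℝ =>
          ∑ j ∈ range (d + 1), (if j ≤ m then 0 else eval θ (tp p v j) * r ^ (j - (m + 1))) := by
        refine continuous_finsetSum _ fun j _ => ?_
        split_ifs <;> fun_prop
      have h00 : ∑ j ∈ range (d + 1),
          (if j ≤ m then 0 else eval θ (tp p v j) * (0 : ℝ) ^ (j - (m + 1))) =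
            eval θ (tp p v (m + 1)) := by
        rw [sum_eq_single (m + 1)]
        · simp
        · intro j _ hj
          split_ifs with hjm
          · rfl
          · rw [zero_pow (by omega), mul_zero]
        · intro hh; exact absurd (mem_range.2 (by have := A.lt_deg; omega)) hh
      filter_upwards [((hlin.tendsto 0).eventually (lt_mem_nhds (h00 ▸ hgt))).filter_mono
        nhdsWithin_le_nhds, self_mem_nhdsWithin] with r hr (hr0 : 0 < r)
      rw [eval_add_eq_sum hd]
      refine lt_of_lt_of_eq (mul_pos (pow_pos hr0 (m + 1)) hr) ?_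
      rw [mul_sum]
      refine sum_congr rfl fun j _ => ?_
      rw [eval_smul (tp_isHomogeneous p v j)]
      split_ifs with hjm
      · rcases hjm.eq_or_lt with rfl | hj'
        · rw [h0, mul_zero, mul_zero]
        · simp [A.low j hj']
      · rw [mul_left_comm, ← pow_add, show m + 1 + (j - (m + 1)) = j by omega]; ring
    obtain ⟨r, ⟨hr, hrp⟩, hr0⟩ :=
      ((hcone.and hE).and (self_mem_nhdsWithin (a := (0 : ℝ)) (s := Set.Ioi 0))).exists
    have hin := H.inner_of_cone_pos (hr hrp.le) hrp.ne'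
    have hc : Continuous fun δ : ℝ => v + r • θ - δ • e := by fun_prop
    obtain ⟨δ, hδ, hδ0⟩ := ((((hc.tendsto' 0 (v + r • θ) (by simp)).eventually
      ((isOpen_inner p d e).mem_nhds hin))).filter_mono nhdsWithin_le_nhds |>.and
        (self_mem_nhdsWithin (a := (0 : ℝ)) (s := Set.Ioi 0))).exists
    have h1 := A.hyp.inner_pos (A.hyp.inner_add_e
      (A.hyp.cone_add (A.sub (H.inner_subset hδ)) A.neg_v) (show (0 : ℝ) < δ from hδ0))
    rw [show v + r • θ - δ • e + -v + δ • e = r • θ by abel, eval_smul A.hyp.hom, h0, mul_zero] at h1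
    exact lt_irrefl _ h1

/-- Near a singular base point every other base boundary point is smooth. -/
theorem AtSing.isolated {y : ℕ → Fin n → ℝ}
    (hy : ∀ k, Sing p e (y k) ∧ l0 p e (y k) = 1 ∧ y k ≠ v) : ¬ Tendsto y atTop (𝓝 v) := by
  intro hlim
  obtain ⟨ψ, θ, hψ, hθ, h0, hc⟩ :=
    A.approach H (fun k => ⟨(hy k).1.1, (hy k).2.1, (hy k).1.2.2.1, (hy k).2.2⟩) hlim
  have hf : Continuous fun ξ => lc (eqn p v m d) 1 ξ (pt e 0) :=
    continuous_lc _ 1 continuous_id continuous_const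
  have hpos : 0 < lc (eqn p v m d) 1 (pt θ 0) (pt e 0) := by
    rw [A.eqn_zero_theta]; exact A.smooth hθ h0
  obtain ⟨k, hk⟩ := (((hf.tendsto _).comp hc).eventually (lt_mem_nhds hpos)).exists
  obtain ⟨hr, -, hyk, -⟩ := A.coords_spec H (hy (ψ k)).1.1 (hy (ψ k)).2.1 (hy (ψ k)).2.2
  have h1 := A.eqn_theta H.hom.totalDegree_le (coords p e v m (y (ψ k))) e 1
  rw [← hyk, (hy (ψ k)).1.2.2.2, mul_zero] at h1
  exact (ne_of_gt hk) ((mul_eq_zero.1 h1).resolve_left (pow_ne_zero _ hr.ne'))

end Vale.Agent.P256.Conical
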