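import Vale.Agent.P256.Conical.Common
import Vale.Agent.P256.Conical.Tangent

/-!
The local piece at a boundary point of the tangent cone of a singular base point.
-/

namespace Vale.Agent.P256.Conical

open MvPolynomial Finset Topology Filter

variable {n : ℕ} {p : MvPolynomial (Fin n) ℝ} {d m : ℕ} {e v : Fin n → ℝ}

/-- The equations of the chart. -/
noncomputable def nEq (p : MvPolynomial (Fin n) ℝ) (e v : Fin n → ℝ) (m d : ℕ) :
    Fin 3 → MvPolynomial (Option (Fin n)) ℝ :=
  ![eqn p v m d, linP (pt (grad p e) 0), linP (pt (grad (tp p v m) e) 0) - C 1]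

theorem lin_pt (a : Fin n → ℝ) (ξ : Option (Fin n) → ℝ) :
    ∑ o, pt a 0 o * ξ o = ∑ i, a i * ang ξ i := by
  simp [Fintype.sum_option, ang]

theorem lc_dir (q : MvPolynomial (Option (Fin n)) ℝ) (ξ : Option (Fin n) → ℝ) (u : Fin n → ℝ)
    (w : ℝ) : lc q 1 ξ (pt u w) = w * grad q ξ none + ∑ i, u i * grad q ξ (some i) := by
  simp [lc_one, Fintype.sum_option]

theorem eval_nEq_one (ξ : Option (Fin n) → ℝ) :
    eval ξ (nEq p e v m d 1) = l0 p e (ang ξ) := by
  simp [nEq, eval_linP, Fintype.sum_option, ang, l0, lc_one, mul_comm]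

theorem eval_nEq_two (ξ : Option (Fin n) → ℝ) :
    eval ξ (nEq p e v m d 2) = l0 (tp p v m) e (ang ξ) - 1 := by
  simp [nEq, eval_linP, Fintype.sum_option, ang, l0, lc_one, mul_comm]

theorem lc_nEq_one (c w : Option (Fin n) → ℝ) :
    lc (nEq p e v m d 1) 1 c w = l0 p e (ang w) := by
  rw [show nEq p e v m d 1 = linP (pt (grad p e) 0) from rfl, lc_linP_one, lin_pt]
  simp [l0, lc_one, mul_comm]

theorem lc_nEq_two (c w : Option (Fin n) → ℝ) :
    lc (nEq p e v m d 2) 1 c w = l0 (tp p v m) e (ang w) := by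
  rw [show nEq p e v m d 2 = linP (pt (grad (tp p v m) e) 0) - C 1 from rfl, lc_sub, lc_linP_one,
    lc_C, lin_pt]
  simp [l0, lc_one, mul_comm]

theorem lc2_nEq_one (c w : Option (Fin n) → ℝ) : lc (nEq p e v m d 1) 2 c w = 0 := by
  rw [show nEq p e v m d 1 = linP (pt (grad p e) 0) from rfl, lc_linP_two]

theorem lc2_nEq_two (c w : Option (Fin n) → ℝ) : lc (nEq p e v m d 2) 2 c w = 0 := by
  rw [show nEq p e v m d 2 = linP (pt (grad (tp p v m) e) 0) - C 1 from rfl, lc_sub, lc_linP_two,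
    lc_C]
  simp

/-- The polynomials of the certificate. -/
noncomputable def nFam (p : MvPolynomial (Fin n) ℝ) (e v : Fin n → ℝ) (m d : ℕ) :
    (Fin n ⊕ Fin n) ⊕ (Bool ⊕ Option (Fin 3)) → MvPolynomial (Option (Fin n)) ℝ
  | .inl (.inl i) => X (some i)
  | .inl (.inr i) => X none * X (some i)
  | .inr (.inl false) => C 1
  | .inr (.inl true) => X none
  | .inr (.inr none) => eqn p v m d
  | .inr (.inr (some j)) => nEq p e v m d j * nEq p e v m d j

/-- The angular multiplier. -/
noncomputable def ell (p : MvPolynomial (Fin n) ℝ) (v : Fin n → ℝ) (m d : ℕ) (K : ℝ)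
    (ξ : Option (Fin n) → ℝ) (i : Fin n) : ℝ :=
  grad (eqn p v m d) ξ (some i) / (1 + K * ξ none)

/-- The multipliers of the certificate. -/
noncomputable def nLam (p : MvPolynomial (Fin n) ℝ) (v : Fin n → ℝ) (m d : ℕ) (K κ : ℝ)
    (ξ : Option (Fin n) → ℝ) : (Fin n ⊕ Fin n) ⊕ (Bool ⊕ Option (Fin 3)) → ℝ
  | .inl (.inl i) => ell p v m d K ξ i
  | .inl (.inr i) => K * ell p v m d K ξ i
  | .inr (.inl false) => -(2 * ξ none * grad (eqn p v m d) ξ none) -
      K * ∑ i, ell p v m d K ξ i * v i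
  | .inr (.inl true) => -(2 * ξ none * grad (eqn p v m d) ξ none) * K +
      grad (eqn p v m d) ξ none * (1 + K * ξ none) - K ^ 2 * ∑ i, ell p v m d K ξ i * v i
  | .inr (.inr none) => -1
  | .inr (.inr (some _)) => κ

/-- The weight function `1 + K r`. -/
def wt (n : ℕ) (K : ℝ) : Fn (Option (Fin n)) := fun ξ => 1 + K * ξ none

/-- The output map. -/
def nodeMap (v : Fin n → ℝ) (K : ℝ) :
    ((Fn (Option (Fin n)) →ₗ[ℝ] ℝ) × ℝ) →ₗ[ℝ] (Fin n → ℝ) where
  toFun u i := u.2 * v i + u.1 fun ξ => (1 + K * ξ none) * ξ (some i)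
  map_add' u w := by funext i; simp; ring
  map_smul' t u := by funext i; simp; ring

/-- The extra blocks. -/
def extraMap (n : ℕ) (K : ℝ) :
    ((Fn (Option (Fin n)) →ₗ[ℝ] ℝ) × ℝ) →ₗ[ℝ] Matrix (Fin 2 ⊕ Unit) (Fin 2 ⊕ Unit) ℝ where
  toFun u := Matrix.fromBlocks
    !![u.2 + K * u.1 (wt n K), u.1 (wt n K); u.1 (wt n K), u.1 fun ξ => ξ none] 0 0
    (Matrix.of fun _ _ => u.2)
  map_add' u w := by
    ext (a | a) (b | b) <;> simp [Matrix.fromBlocks]
    fin_cases a <;> fin_cases b <;> simp <;> ring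
  map_smul' t u := by
    ext (a | a) (b | b) <;> simp [Matrix.fromBlocks]
    fin_cases a <;> fin_cases b <;> simp <;> ring

theorem extra_symm (K : ℝ) (u : (Fn (Option (Fin n)) →ₗ[ℝ] ℝ) × ℝ) :
    (extraMap n K u).IsSymm := by
  refine Matrix.IsSymm.fromBlocks ?_ (by simp) ?_
  · ext a b; fin_cases a <;> fin_cases b <;> simp
  · ext a b; simp

/-- The combined blocks. -/
noncomputable def nodeBlocks (p : MvPolynomial (Fin n) ℝ) (e v : Fin n → ℝ) (m d : ℕ) (K ρ : ℝ)
    (c : Option (Fin n) → ℝ) (L : ℕ) :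
    ((Fn (Option (Fin n)) →ₗ[ℝ] ℝ) × ℝ) →ₗ[ℝ] Matrix
      (((Σ _ : Option (Option (Fin n)), Words (Option (Fin n)) L) ⊕
        ((Fin 3 × Words (Option (Fin n)) L) × Bool)) ⊕ (Fin 2 ⊕ Unit))
      (((Σ _ : Option (Option (Fin n)), Words (Option (Fin n)) L) ⊕
        ((Fin 3 × Words (Option (Fin n)) L) × Bool)) ⊕ (Fin 2 ⊕ Unit)) ℝ where
  toFun u := Matrix.fromBlocks (momMap c ρ L (nEq p e v m d) u.1) 0 0 (extraMap n K u)
  map_add' u w := by
    simp [Matrix.fromBlocks_add, map_add]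
  map_smul' t u := by
    simp [Matrix.fromBlocks_smul, map_smul]

variable (H : Hyp p d e) (A : AtSing p d e v m)
include H A

theorem AtSing.grad_relations {ξ : Option (Fin n) → ℝ} (hr : 0 < ξ none)
    (hy : v + ξ none • ang ξ ∈ cone p e) (hy0 : eval (v + ξ none • ang ξ) p = 0)
    (hE : eval ξ (eqn p v m d) = 0) :
    (∑ i, ξ (some i) * grad (eqn p v m d) ξ (some i) = ξ none * grad (eqn p v m d) ξ none) ∧
      (∑ i, v i * grad (eqn p v m d) ξ (some i) =
        -(ξ none ^ 2 * grad (eqn p v m d) ξ none)) ∧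
      (∀ i, ξ none ^ m * grad (eqn p v m d) ξ (some i) =
        ξ none * grad p (v + ξ none • ang ξ) i) ∧
      0 ≤ ∑ i, v i * grad (eqn p v m d) ξ (some i) := by
  have hd := H.hom.totalDegree_le
  set y := v + ξ none • ang ξ with hyd
  have hth : ∀ u, ξ none ^ m * ∑ i, u i * grad (eqn p v m d) ξ (some i) =
      ξ none * lc p 1 y u := by
    intro u
    have := A.eqn_theta hd ξ u 1
    rwa [lc_dir, pow_one, zero_mul, zero_add] at this
  have hrad : ξ none ^ m * grad (eqn p v m d) ξ none = lc p 1 y (ang ξ) := by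
    have := A.eqn_radial hd ξ hE
    rwa [lc_dir, one_mul, Finset.sum_eq_zero (fun i _ => by simp), add_zero] at this
  have heul : lc p 1 y v + ξ none * lc p 1 y (ang ξ) = 0 := by
    rw [← lc_linear]; exact H.euler hy0
  have hpow : 0 < ξ none ^ m := pow_pos hr m
  refine ⟨?_, ?_, fun i => ?_, ?_⟩
  · have := hth (ang ξ)
    rw [← hrad] at this
    refine mul_left_cancel₀ hpow.ne' ?_
    simp only [ang] at this
    linear_combination this
  · have := hth v
    refine mul_left_cancel₀ hpow.ne' ?_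
    linear_combination this + ξ none * heul + ξ none ^ 2 * hrad
  · have := hth (Pi.single i 1)
    simpa [lc_one, Pi.single_apply] using this
  · have h1 := hth v
    have h2 : 0 ≤ ξ none * lc p 1 y v := mul_nonneg hr.le (H.lc_nonneg A.sing.1 hy 1)
    rw [← h1] at h2
    exact nonneg_of_mul_nonneg_right h2 hpow

theorem AtSing.far {θ₀ : Fin n → ℝ} (hθ₀ : θ₀ ∈ slice p e v m) {ρ₀ : ℝ} (hρ₀ : 0 < ρ₀) :
    ∃ η > 0, ∀ y ∈ cone p e, l0 p e y = 1 → eval y p = 0 → lc p 1 y e ≠ 0 →
      ∑ i, tang p e y i * v i < η → ∑ i, tang p e y i * θ₀ i < η →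
        ‖coords p e v m y - pt θ₀ 0‖ ≤ ρ₀ := by
  classical
  by_contra hcon
  push Not at hcon
  choose y hyc hyl hy0 hy1 hyv hyθ hyfar using fun k : ℕ => hcon (1 / (k + 1)) Nat.one_div_pos_of_nat
  obtain ⟨C, hC, hbd⟩ := H.support_bound
  have hmem : ∀ k, (y k, tang p e (y k)) ∈
      {z : Fin n → ℝ | z ∈ cone p e ∧ l0 p e z = 1 ∧ eval z p = 0} ×ˢ
        Metric.closedBall (0 : Fin n → ℝ) C := by
    refine fun k => ⟨⟨hyc k, hyl k, hy0 k⟩, ?_⟩
    rw [mem_closedBall_zero_iff, pi_norm_le_iff_of_nonneg hC.le]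
    intro i
    have := hbd _ (fun x hx => H.tang_nonneg (hyc k) hx) (H.tang_e (hy1 k)) (Pi.single i 1)
    simpa [Pi.single_apply, Pi.norm_single] using this
  obtain ⟨⟨ys, g⟩, ⟨⟨hysc, hysl, hys0⟩, -⟩, χ, hχ, hlim⟩ :=
    (H.base_bd_compact.prod (isCompact_closedBall (0 : Fin n → ℝ) C)).tendsto_subseq hmem
  have hylim : Tendsto (fun k => y (χ k)) atTop (𝓝 ys) := (continuous_fst.tendsto _).comp hlim
  have hglim : Tendsto (fun k => tang p e (y (χ k))) atTop (𝓝 g) :=
    (continuous_snd.tendsto _).comp hlim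
  have hdot : ∀ u : Fin n → ℝ,
      Tendsto (fun k => ∑ i, tang p e (y (χ k)) i * u i) atTop (𝓝 (∑ i, g i * u i)) := fun u =>
    tendsto_finsetSum _ fun i _ => (((continuous_apply i).tendsto g).comp hglim).mul_const _
  have hgn : ∀ x ∈ cone p e, 0 ≤ ∑ i, g i * x i := fun x hx =>
    ge_of_tendsto' (hdot x) fun k => H.tang_nonneg (hyc _) hx
  have hge : ∑ i, g i * e i = 1 :=
    tendsto_nhds_unique (hdot e) (tendsto_const_nhds.congr fun k => (H.tang_e (hy1 _)).symm)
  have hsmall : Tendsto (fun k : ℕ => 1 / ((χ k : ℕ) + 1 : ℝ)) atTop (𝓝 0) :=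
    tendsto_one_div_add_atTop_nhds_zero_nat.comp hχ.tendsto_atTop
  have hgv : ∑ i, g i * v i ≤ 0 :=
    le_of_tendsto_of_tendsto' (hdot v) hsmall fun k => (hyv _).le
  have hgθ : ∑ i, g i * θ₀ i ≤ 0 :=
    le_of_tendsto_of_tendsto' (hdot θ₀) hsmall fun k => (hyθ _).le
  have hgy : ∑ i, g i * ys i = 0 := by
    refine tendsto_nhds_unique (l := atTop) (f := fun k => ∑ i, tang p e (y (χ k)) i * y (χ k) i) ?_
      (tendsto_const_nhds.congr fun k => by rw [tang_apply, H.euler (hy0 _), zero_div])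
    exact tendsto_finsetSum _ fun i _ => (((continuous_apply i).tendsto g).comp hglim).mul
      (((continuous_apply i).tendsto ys).comp hylim)
  have hys : ys = v := (H.rotund A.sing.1 hysc A.base hysl
    (H.sum_boundary hgn hge A.sing.1 hysc (by linarith))).symm
  subst hys
  have hne : ∀ k, y k ≠ ys := fun k h => hy1 k (by rw [h]; exact A.sing.2.2.2)
  obtain ⟨ψ, θ, hψ, hθ, hθ0, hclim⟩ :=
    A.approach H (y := fun k => y (χ k)) (fun k => ⟨hyc _, hyl _, hy0 _, hne _⟩) hylim
  have hpos : 0 < lc (tp p ys m) 1 θ e := A.smooth hθ hθ0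
  have hfc : ∀ u, Continuous fun ξ => lc (eqn p ys m d) 1 ξ (pt u 0) := fun u =>
    continuous_lc _ 1 continuous_id continuous_const
  have hgu : ∀ u, ∑ i, g i * u i = lc (tp p ys m) 1 θ u / lc (tp p ys m) 1 θ e := by
    intro u
    have hL := (hdot u).comp hψ.tendsto_atTop
    refine tendsto_nhds_unique hL ?_
    have h1 := ((hfc u).tendsto _).comp hclim
    have h2 := ((hfc e).tendsto _).comp hclim
    rw [A.eqn_zero_theta] at h1 h2
    refine Tendsto.congr (fun k => ?_) (h1.div h2 hpos.ne')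
    obtain ⟨hr, -, hyk, -⟩ := A.coords_spec H (hyc (χ (ψ k))) (hyl _) (hne _)
    have e1 := A.eqn_theta H.hom.totalDegree_le (coords p e ys m (y (χ (ψ k)))) u 1
    have e2 := A.eqn_theta H.hom.totalDegree_le (coords p e ys m (y (χ (ψ k)))) e 1
    rw [← hyk, pow_one] at e1 e2
    simp only [Function.comp_apply, Pi.div_apply, tang_apply]
    rw [← mul_div_mul_left _ _ (pow_ne_zero m hr.ne'), e1, e2, mul_div_mul_left _ _ hr.ne']
  have hgT : ∀ x ∈ cone (tp p ys m) e, 0 ≤ ∑ i, g i * x i := fun x hx => by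
    rw [hgu]; exact div_nonneg (A.hyp.lc_nonneg hx hθ.1 1) hpos.le
  have hgθ' : ∑ i, g i * θ i = 0 := by rw [hgu, A.hyp.euler hθ0, zero_div]
  have heq : θ₀ = θ := A.rotund hθ₀ hθ
    (A.hyp.sum_boundary hgT hge hθ₀.1 hθ.1 (by linarith))
  subst heq
  obtain ⟨k, hk⟩ := (hclim.eventually (Metric.closedBall_mem_nhds _ hρ₀)).exists
  exact absurd (mem_closedBall_iff_norm.1 hk) (not_le.2 (hyfar _))

theorem AtSing.node_consts {θ₀ : Fin n → ℝ} (hθ₀ : θ₀ ∈ slice p e v m)
    (h0 : eval θ₀ (tp p v m) = 0) :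
    ∃ K : ℝ, 0 < K ∧ ∃ κ : ℝ, ∀ w : Option (Fin n) → ℝ, w ≠ 0 →
      0 < form (nFam p e v m d) (nLam p v m d K κ (pt θ₀ 0)) (pt θ₀ 0) w := by
  classical
  set c := pt θ₀ 0 with hc
  set E := eqn p v m d with hEdef
  have hN : eval θ₀ (tp p v (m + 1)) < 0 := A.next_neg H hθ₀ h0
  set N := -eval θ₀ (tp p v (m + 1)) with hNdef
  have hNpos : 0 < N := neg_pos.2 hN
  have hEc : eval c E = 0 := by rw [hc, hEdef, A.eval_eqn_zero, h0]
  have hEr : grad E c none = -N := by
    have := lc_dir E c (0 : Fin n → ℝ) 1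
    rw [hc, hEdef, A.eqn_zero_radial] at this
    simp at this; rw [hNdef, neg_neg, hc, hEdef]; exact this.symm
  have hc1 : ∀ j, eval c (nEq p e v m d j) = 0 := by
    intro j; fin_cases j
    · simpa [nEq] using hEc
    · simpa [eval_nEq_one, hc] using hθ₀.2.1
    · simpa [eval_nEq_two, hc] using sub_eq_zero.2 hθ₀.2.2
  have hq0 : ∀ k w, lc (nEq p e v m d 0) k c w = lc E k c w := fun k w => by simp [nEq, hEdef]
  have hsplit : ∀ w, lc E 1 c w = -(N * w none) + ∑ i, w (some i) * grad E c (some i) := by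
    intro w
    simp [lc_one, Fintype.sum_option, hEr]; ring
  have hEdeg := Nat.le_refl E.totalDegree
  have hLang : Continuous fun w : Option (Fin n) → ℝ => ang w := continuous_ang
  obtain ⟨K, hK, hKpos⟩ := penalty (α := Option (Fin n) → ℝ) (fun w => -(2 * lc E 2 c w))
    (fun w => 2 * N * w none ^ 2)
    {w | lc E 1 c w = 0 ∧ l0 p e (ang w) = 0 ∧ l0 (tp p v m) e (ang w) = 0}
    ((continuous_lc E 2 continuous_const continuous_id).const_mul 2).neg (by fun_prop)
    ((isClosed_eq (continuous_lc E 1 continuous_const continuous_id) continuous_const).inter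
      ((isClosed_eq (continuous_l0.comp hLang) continuous_const).inter
        (isClosed_eq (continuous_l0.comp hLang) continuous_const)))
    (fun t w => by rw [lc_scale hEdeg]; ring)
    (fun t w => by simp; ring)
    (fun t w hw => ⟨by rw [lc_scale hEdeg, hw.1, mul_zero],
      by rw [show ang (t • w) = t • ang w from rfl, l0_smul, hw.2.1, mul_zero],
      by rw [show ang (t • w) = t • ang w from rfl, l0_smul, hw.2.2, mul_zero]⟩)
    (fun w => by positivity) (fun w hw hw0 hP => by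
      have hwn : w none = 0 := by
        have : w none ^ 2 = 0 := (mul_eq_zero.1 hP).resolve_left (by positivity)
        simpa using this
      have hwe : w = pt (ang w) 0 := by rw [← pt_ang w, hwn, ang_pt]
      have hu0 : ang w ≠ 0 := fun h => hw0 (by rw [hwe, h]; funext o; cases o <;> simp)
      have e1 : lc (tp p v m) 1 θ₀ (ang w) = 0 := by
        rw [← A.eqn_zero_theta, ← hwe]; exact hw.1
      have e2 : lc E 2 c w = lc (tp p v m) 2 θ₀ (ang w) := by
        rw [← A.eqn_zero_theta θ₀ (ang w) 2, ← hwe]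
      rw [e2]; linarith [A.strict hθ₀ h0 e1 hw.2.1 hw.2.2 hu0])
  have hKbase := hKpos K le_rfl
  obtain ⟨κ, -, hκ⟩ := penalty (α := Option (Fin n) → ℝ)
    (fun w => -(2 * lc E 2 c w) + 2 * K * (w none * ∑ i, w (some i) * grad E c (some i)))
    (fun w => 2 * (lc E 1 c w ^ 2 + (l0 p e (ang w) ^ 2 + l0 (tp p v m) e (ang w) ^ 2))) Set.univ
    (((continuous_lc E 2 continuous_const continuous_id).const_mul 2).neg.add (by fun_prop))
    ((((continuous_lc E 1 continuous_const continuous_id).pow 2).add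
      (((continuous_l0.comp hLang).pow 2).add ((continuous_l0.comp hLang).pow 2))).const_mul 2)
    isClosed_univ
    (fun t w => by
      simp only [lc_scale hEdeg, Pi.smul_apply, smul_eq_mul, mul_assoc, ← mul_sum]; ring)
    (fun t w => by
      rw [lc_scale hEdeg, show ang (t • w) = t • ang w from rfl, l0_smul, l0_smul]; ring)
    (fun _ _ _ => trivial) (fun w => by positivity) (fun w _ hw hP => by
      have a1 := sq_nonneg (lc E 1 c w)
      have a2 := sq_nonneg (l0 p e (ang w))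
      have a3 := sq_nonneg (l0 (tp p v m) e (ang w))
      have b1 : lc E 1 c w = 0 := by nlinarith
      have b2 : l0 p e (ang w) = 0 := by nlinarith
      have b3 : l0 (tp p v m) e (ang w) = 0 := by nlinarith
      have hs := hsplit w
      rw [b1] at hs
      have hge := hKbase w ⟨b1, b2, b3⟩ hw
      rw [show ∑ i, w (some i) * grad E c (some i) = N * w none by linarith]
      linarith [hge])
  refine ⟨K, hK, κ, fun w hw => ?_⟩
  have hpen := hκ κ le_rfl w trivial hw
  simp only [form, ← lc_two]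
  simp only [Fintype.sum_sum_type, Fintype.sum_option, Fintype.sum_bool,
    Fin.sum_univ_three, nFam, nLam, lc_X, lc_C, lc_mul_two, hc1, lc2_nEq_one, lc2_nEq_two,
    lc_nEq_one, lc_nEq_two, hq0, ← hEdef]
  have hl : ∀ i, ell p v m d K c i = grad E c (some i) := fun i => by simp [ell, hc, hEdef]
  simp only [hl]
  norm_num
  have hs : ∑ i, K * grad E c (some i) * (2 * (w none * w (some i))) =
      2 * K * (w none * ∑ i, w (some i) * grad E c (some i)) := by
    simp only [mul_sum]; exact sum_congr rfl fun i _ => by ring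
  rw [hs]
  nlinarith

omit H A in
theorem node_cont (θ₀ : Fin n → ℝ) (K κ : ℝ) :
    ContinuousAt (fun ξ => nLam p v m d K κ ξ) (pt θ₀ 0) := by
  set c := pt θ₀ 0 with hc
  set E := eqn p v m d with hEdef
  have hden : ContinuousAt (fun ξ : Option (Fin n) → ℝ => 1 + K * ξ none) c :=
    Continuous.continuousAt (by fun_prop)
  have hgr : ∀ o, ContinuousAt (fun ξ => grad E ξ o) c := fun o =>
    (MvPolynomial.continuous_eval _).continuousAt
  have hell : ∀ i, ContinuousAt (fun ξ => ell p v m d K ξ i) c := fun i =>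
    (hgr (some i)).div hden (by simp [hc])
  have hnone : ContinuousAt (fun ξ : Option (Fin n) → ℝ => ξ none) c :=
    (continuous_apply none).continuousAt
  have hsumv : ContinuousAt (fun ξ => ∑ i, ell p v m d K ξ i * v i) c :=
    tendsto_finsetSum _ fun i _ => (hell i).mul continuousAt_const
  have hlamc : ContinuousAt (fun ξ => nLam p v m d K κ ξ) c := by
    refine continuousAt_pi.2 fun a => ?_
    rcases a with (i | i) | (b | _ | j)
    · exact hell i
    · exact (hell i).const_mul K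
    · cases b
      · exact ((continuousAt_const.mul hnone).mul (hgr none)).neg.sub (hsumv.const_mul K)
      · exact ((((continuousAt_const.mul hnone).mul (hgr none)).neg.mul continuousAt_const).add
          ((hgr none).mul hden)).sub (hsumv.const_mul (K ^ 2))
    · exact continuousAt_const
    · exact continuousAt_const
  exact hlamc

omit H A in
theorem node_bound {θ₀ : Fin n → ℝ} {K ρ : ℝ} {L : ℕ} {J : Type}
    {E : J → MvPolynomial (Option (Fin n)) ℝ} {M : Fn (Option (Fin n)) →ₗ[ℝ] ℝ}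
    (hF : Feas (pt θ₀ 0) ρ L E M) (hρ : 0 < ρ) (hρ1 : ρ ≤ 1) (hK : 0 < K) (hL : 1 ≤ L) :
    M (wt n K) = M 1 + K * M (fun ξ => ξ none) ∧ |M fun ξ => ξ none| ≤ ρ * M 1 ∧
      (∀ i, M (fun ξ => (1 + K * ξ none) * ξ (some i)) =
        M (fun ξ => ξ (some i)) + K * M (fun ξ => ξ none * ξ (some i))) ∧
      ∀ i, |M (fun ξ => (1 + K * ξ none) * ξ (some i)) - θ₀ i * M 1| ≤
        (1 + K * (1 + ‖θ₀‖)) * (ρ * M 1) := by
  set c := pt θ₀ 0 with hc
  have hM1 := hF.one_nonneg
  have hxval : ∀ i, M (fun ξ => (1 + K * ξ none) * ξ (some i)) =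
      M (fun ξ => ξ (some i)) + K * M (fun ξ => ξ none * ξ (some i)) := by
    intro i
    rw [show (fun ξ : Option (Fin n) → ℝ => (1 + K * ξ none) * ξ (some i)) =
      (fun ξ => ξ (some i)) + K • (fun ξ => ξ none * ξ (some i)) by funext ξ; simp; ring,
      map_add, map_smul, smul_eq_mul]
  refine ⟨?_, ?_, hxval, fun i => ?_⟩
  · rw [show wt n K = (1 : Fn (Option (Fin n))) + K • (fun ξ => ξ none) by
      funext ξ; simp [wt], map_add, map_smul, smul_eq_mul]
  · simpa [hc] using hF.coord hρ none hL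
  have e1 := hF.coord hρ (some i) hL
  have e2 := hF.second hρ none (some i) hL
  have e3 := hF.first hρ none hL
  have e4 : M (fun ξ => ξ none * ξ (some i)) =
      M (dl c none * dl c (some i)) + θ₀ i * M (dl c none) := by
    rw [show (fun ξ : Option (Fin n) → ℝ => ξ none * ξ (some i)) =
      dl c none * dl c (some i) + θ₀ i • dl c none by funext ξ; simp [dl, hc]; ring,
      map_add, map_smul, smul_eq_mul]
  rw [hc, pt_some] at e1
  have e5 : |θ₀ i| ≤ ‖θ₀‖ := by simpa using norm_le_pi_norm θ₀ i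
  have e6 : |M (fun ξ => ξ none * ξ (some i))| ≤ (1 + ‖θ₀‖) * (ρ * M 1) := by
    rw [e4]
    refine (abs_add_le _ _).trans ?_
    rw [abs_mul, add_mul, one_mul]
    exact add_le_add (e2.trans (by nlinarith [mul_nonneg hρ.le hM1]))
      (mul_le_mul e5 e3 (abs_nonneg _) (norm_nonneg _))
  rw [hxval, show M (fun ξ => ξ (some i)) + K * M (fun ξ => ξ none * ξ (some i)) - θ₀ i * M 1 =
    (M (fun ξ => ξ (some i)) - θ₀ i * M 1) + K * M (fun ξ => ξ none * ξ (some i)) by ring,
    add_mul, one_mul, mul_assoc]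
  refine (abs_add_le _ _).trans (add_le_add e1 ?_)
  rw [abs_mul, abs_of_pos hK]
  exact mul_le_mul_of_nonneg_left e6 hK.le

omit H A in
theorem node_zero {ξ : Option (Fin n) → ℝ} {K κ : ℝ} (hpos : 0 < 1 + K * ξ none)
    (hξ1 : ∀ j, eval ξ (nEq p e v m d j) = 0)
    (hal1 : (∑ i, ell p v m d K ξ i * v i) * (1 + K * ξ none) =
      -(ξ none ^ 2 * grad (eqn p v m d) ξ none))
    (hlθ : ∑ i, ell p v m d K ξ i * ξ (some i) =
      ξ none * grad (eqn p v m d) ξ none / (1 + K * ξ none)) :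
    (∑ a, nLam p v m d K κ ξ a * eval ξ (nFam p e v m d a) = 0) ∧
      ∀ o, ∑ a, nLam p v m d K κ ξ a * grad (nFam p e v m d a) ξ o = 0 := by
  set E := eqn p v m d with hEdef
  set al := ∑ i, ell p v m d K ξ i * v i with hal
  have hE1 : eval ξ E = 0 := by simpa [nEq] using hξ1 0
  refine ⟨?_, fun o => ?_⟩
  ·
      simp only [Fintype.sum_sum_type, Fintype.sum_option, Fintype.sum_bool, Fin.sum_univ_three,
        nFam, nLam, map_mul, eval_X, eval_C, hξ1, hE1, ← hal, ← hEdef]
      simp only [mul_zero, add_zero, mul_one, ← mul_assoc]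
      rw [show ∑ i, K * ell p v m d K ξ i * ξ none * ξ (some i) =
        K * ξ none * ∑ i, ell p v m d K ξ i * ξ (some i) by
          rw [mul_sum]; exact sum_congr rfl fun i _ => by ring, hlθ]
      linear_combination (-K) * hal1 +
        div_mul_cancel₀ (ξ none * grad E ξ none) hpos.ne'
  ·
      cases o with
      | none =>
        have hx : ∀ i : Fin n, grad (X (some i) : MvPolynomial (Option (Fin n)) ℝ) ξ none = 0 :=
          fun i => by simp [grad]
        have hxx : ∀ i : Fin n, grad (X none * X (some i) : MvPolynomial (Option (Fin n)) ℝ) ξ none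
            = ξ (some i) := fun i => by simp [grad, pderiv_mul]
        have hsq' : ∀ j, grad (nEq p e v m d j * nEq p e v m d j) ξ none = 0 := fun j => by
          simp [grad, pderiv_mul, hξ1]
        have hC1 : grad (C 1 : MvPolynomial (Option (Fin n)) ℝ) ξ none = 0 := by simp [grad]
        have hX0 : grad (X none : MvPolynomial (Option (Fin n)) ℝ) ξ none = 1 := by simp [grad]
        simp only [Fintype.sum_sum_type, Fintype.sum_option, Fintype.sum_bool, Fin.sum_univ_three,
          nFam, nLam, hx, hxx, hsq', hC1, hX0, ← hal, ← hEdef, mul_zero, sum_const_zero,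
          zero_add, add_zero, mul_one, mul_assoc, ← mul_sum, hlθ]
        field_simp
        linear_combination (-(K ^ 2)) * hal1
      | some k =>
        have hx : ∀ i : Fin n, grad (X (some i) : MvPolynomial (Option (Fin n)) ℝ) ξ (some k) =
            if i = k then 1 else 0 := fun i => by
          by_cases h : i = k
          · subst h; simp [grad]
          · simp [grad, h, pderiv_X_of_ne]
        have hxx : ∀ i : Fin n,
            grad (X none * X (some i) : MvPolynomial (Option (Fin n)) ℝ) ξ (some k) =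
              if i = k then ξ none else 0 := fun i => by
          by_cases h : i = k
          · subst h; simp [grad, pderiv_mul]
          · simp [grad, pderiv_mul, h, pderiv_X_of_ne]
        have hsq' : ∀ j, grad (nEq p e v m d j * nEq p e v m d j) ξ (some k) = 0 := fun j => by
          simp [grad, pderiv_mul, hξ1]
        have hC1 : grad (C 1 : MvPolynomial (Option (Fin n)) ℝ) ξ (some k) = 0 := by simp [grad]
        have hX0 : grad (X none : MvPolynomial (Option (Fin n)) ℝ) ξ (some k) = 0 := by simp [grad]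
        simp only [Fintype.sum_sum_type, Fintype.sum_option, Fintype.sum_bool, Fin.sum_univ_three,
          nFam, nLam, hx, hxx, hsq', hC1, hX0, ← hEdef, mul_zero, mul_ite, mul_one, sum_ite_eq',
          Finset.mem_univ, if_true, zero_add, add_zero]
        rw [ell, ← hEdef]
        field_simp
        ring

omit H A in
theorem node_near {c ξ : Option (Fin n) → ℝ} {K κ ρ z : ℝ} {L : ℕ}
    {M : Fn (Option (Fin n)) →ₗ[ℝ] ℝ} (hF : Feas c ρ L (nEq p e v m d) M)
    (hmem : ∀ j, (fun η => eval η (nEq p e v m d j)) ∈ Sp c L)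
    (hr : 0 < ξ none) (hpos : 0 < 1 + K * ξ none)
    (hal0 : 0 ≤ ∑ i, ell p v m d K ξ i * v i)
    (hal1 : (∑ i, ell p v m d K ξ i * v i) * (1 + K * ξ none) =
      -(ξ none ^ 2 * grad (eqn p v m d) ξ none))
    (hs1 : M (wt n K) = M 1 + K * M (fun ξ => ξ none))
    (hxval : ∀ i, M (fun η => (1 + K * η none) * η (some i)) =
        M (fun η => η (some i)) + K * M (fun η => η none * η (some i)))
    (hsc : ∀ σ : ℝ, 2 * σ * M (wt n K) - σ ^ 2 * M (fun ξ => ξ none) ≤ z + K * M (wt n K))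
    (hcz : 0 ≤ ∑ a, nLam p v m d K κ ξ a * M (fun η => eval η (nFam p e v m d a))) :
    0 ≤ (∑ i, ell p v m d K ξ i * v i) * z +
      ∑ i, ell p v m d K ξ i * M (fun η => (1 + K * η none) * η (some i)) := by
  set E := eqn p v m d with hEdef
  set al := ∑ i, ell p v m d K ξ i * v i with hal
  set s := M (wt n K) with hs
  set w := M fun ξ => ξ none with hw
  set xb : Fin n → ℝ := fun i => M fun η => (1 + K * η none) * η (some i) with hxb
  have hxval' : ∀ i, xb i = M (fun η => η (some i)) + K * M (fun η => η none * η (some i)) := hxval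
  have hsq : ∀ j, M (fun η => eval η (nEq p e v m d j * nEq p e v m d j)) = 0 := by
    intro j
    rw [show (fun η => eval η (nEq p e v m d j * nEq p e v m d j)) =
      (fun η => eval η (nEq p e v m d j)) * fun η => eval η (nEq p e v m d j) by funext η; simp]
    exact hF.eq_mul (hmem j) j
  have hE0 : M (fun η => eval η E) = 0 := by simpa [nEq, hEdef] using hF.eq_one 0
  simp only [Fintype.sum_sum_type, Fintype.sum_option, Fintype.sum_bool, Fin.sum_univ_three,
    nFam, nLam, map_mul, eval_X, eval_C, ← hal, ← hEdef, hE0] at hcz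
  rw [show (fun η : Option (Fin n) → ℝ => (1 : ℝ)) = 1 from rfl] at hcz
  simp only [map_mul] at hsq
  simp only [hsq, mul_zero, add_zero, ← hw] at hcz
  have hz' : al * (2 * ((1 + K * ξ none) / ξ none) * s - ((1 + K * ξ none) / ξ none) ^ 2 * w -
      K * s) ≤ al * z := mul_le_mul_of_nonneg_left (by linarith [hsc ((1 + K * ξ none) / ξ none)]) hal0
  have e1 : al * ((1 + K * ξ none) / ξ none) = -(ξ none * grad E ξ none) := by
    field_simp; linear_combination hal1
  have e2 : al * ((1 + K * ξ none) / ξ none) ^ 2 =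
      -((1 + K * ξ none) * grad E ξ none) := by
    field_simp; linear_combination hal1
  have hlX : 0 ≤ al * z + ∑ i, ell p v m d K ξ i * xb i := by
    have : ∑ i, ell p v m d K ξ i * xb i = ∑ i, ell p v m d K ξ i * M (fun η => η (some i)) +
        ∑ i, K * ell p v m d K ξ i * M (fun η => η none * η (some i)) := by
      rw [← sum_add_distrib]; exact sum_congr rfl fun i _ => by rw [hxval']; ring
    rw [this]
    rw [hs1] at hz'
    nlinarith [congrArg (· * (M 1)) e1, congrArg (· * w) e1, congrArg (· * w) e2]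
  exact hlX

omit H A in
theorem node_arith {a b z D M1 η ρ Q T K w s : ℝ} (hη : 0 < η) (hρ : 0 < ρ) (hK : 0 < K)
    (hM1 : 0 ≤ M1) (hz : 0 ≤ z) (ha : 0 ≤ a) (hdev : |D - b * M1| ≤ Q * (ρ * M1))
    (hρB : ρ * (Q + 1) ≤ η) (hKρ : ρ * (2 * K) ≤ 1)
    (hden : ρ * (4 * (T + 1 + η + 2 * K * η)) ≤ η) (hw : |w| ≤ ρ * M1) (hs : s = M1 + K * w)
    (hsc : ∀ σ : ℝ, 2 * σ * s - σ ^ 2 * w ≤ z + K * s) (hbC : |b| ≤ T)
    (hcase : η ≤ b ∨ η ≤ a) : 0 ≤ a * z + D := by
  have hD := (abs_le.1 hdev).1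
  have h1 : Q * (ρ * M1) ≤ η * M1 := by
    nlinarith [mul_le_mul_of_nonneg_right hρB hM1, mul_nonneg hρ.le hM1]
  rcases hcase with hb | ha'
  · linarith [mul_le_mul_of_nonneg_right hb hM1, mul_nonneg ha hz]
  have h3 : |K * w| ≤ M1 / 2 := by
    rw [abs_mul, abs_of_pos hK]
    nlinarith [mul_le_mul_of_nonneg_left hw hK.le, mul_le_mul_of_nonneg_right hKρ hM1]
  obtain ⟨h3a, h3b⟩ := abs_le.1 h3
  set u := 1 / (2 * ρ) with hu
  have hu0 : 0 < u := by positivity
  have hu1 : u * ρ = 1 / 2 := by rw [hu]; field_simp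
  have e1 : 2 * u * (M1 / 2) ≤ 2 * u * s :=
    mul_le_mul_of_nonneg_left (by linarith) (by positivity)
  have e2 : u ^ 2 * w ≤ u ^ 2 * (ρ * M1) :=
    mul_le_mul_of_nonneg_left (abs_le.1 hw).2 (sq_nonneg _)
  have e3 : u ^ 2 * (ρ * M1) = u * M1 / 2 := by linear_combination (u * M1) * hu1
  have e4 : K * s ≤ 2 * K * M1 := by
    rw [mul_comm 2 K, mul_assoc]; exact mul_le_mul_of_nonneg_left (by linarith) hK.le
  have e5 : u * M1 / 2 - 2 * K * M1 ≤ z := by linarith [hsc u]
  have e6 : 4 * (T + 1 + η + 2 * K * η) ≤ 2 * (η * u) := by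
    have := mul_le_mul_of_nonneg_left hden hu0.le
    rw [← mul_assoc, hu1] at this
    linarith
  have e7 : η * z ≤ a * z := mul_le_mul_of_nonneg_right ha' hz
  have e8 := mul_le_mul_of_nonneg_left e5 hη.le
  have e9 := mul_le_mul_of_nonneg_right e6 hM1
  have e10 := mul_le_mul_of_nonneg_right (abs_le.1 hbC).1 hM1
  nlinarith

theorem AtSing.node_piece
    (hT : ∀ x : Fin n → ℝ, (∀ y ∈ cone p e, l0 p e y = 1 → eval y p = 0 → lc p 1 y e ≠ 0 →
      0 ≤ ∑ i, tang p e y i * x i) → x ∈ cone p e)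
    {θ₀ : Fin n → ℝ} (hθ₀ : θ₀ ∈ slice p e v m) (h0 : eval θ₀ (tp p v m) = 0) :
    ∃ P : Piece n, P.set ⊆ cone p e ∧ ∀ᶠ ξ in 𝓝 (pt θ₀ 0),
      0 < ξ none → ang ξ ∈ slice p e v m → eval ξ (eqn p v m d) = 0 →
        v + ξ none • ang ξ ∈ P.set := by
  classical
  obtain ⟨K, hK, κ, hform⟩ := A.node_consts H hθ₀ h0
  set c := pt θ₀ 0 with hc
  set E := eqn p v m d with hEdef
  obtain ⟨ρ₀, D, hρ₀, hcert⟩ := certificate c (nEq p e v m d) (nFam p e v m d)
    (nLam p v m d K κ) (node_cont θ₀ K κ) hform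
  obtain ⟨η, hη, hfar⟩ := A.far H hθ₀ hρ₀
  obtain ⟨C, hC, hbd⟩ := H.support_bound
  obtain ⟨D₀, hD₀⟩ := poly_mem c (nEq p e v m d 0)
  obtain ⟨D₁, hD₁⟩ := poly_mem c (nEq p e v m d 1)
  obtain ⟨D₂, hD₂⟩ := poly_mem c (nEq p e v m d 2)
  set L := D + D₀ + D₁ + D₂ + 2
  set B := 1 + K * (1 + ‖θ₀‖) with hB
  set ρ := min (min ρ₀ 1) (min (min (1 / (2 * K)) (η / (n * C * B + 1)))
    (η / (4 * (C * ‖θ₀‖ + 1 + η + 2 * K * η))))
  have hρ : 0 < ρ := by positivity
  refine ⟨⟨(Fn (Option (Fin n)) →ₗ[ℝ] ℝ) × ℝ, _, nodeMap v K, nodeBlocks p e v m d K ρ c L,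
    fun u => Matrix.IsSymm.fromBlocks (momMap_symm c ρ L _ _) (by simp) (extra_symm K u)⟩, ?_, ?_⟩
  · rintro x ⟨⟨M, z⟩, hpsd, rfl⟩
    obtain ⟨h1, h2⟩ := posSemidef_fromBlocks_diag.1 hpsd
    obtain ⟨h21, h22⟩ := posSemidef_fromBlocks_diag.1 h2
    have hF := feas_of_psd h1
    have hz : 0 ≤ z := by simpa using h22.diag_nonneg (i := ())
    set s := M (wt n K) with hs
    set w := M fun ξ => ξ none with hw
    have hsc : ∀ σ : ℝ, 2 * σ * s - σ ^ 2 * w ≤ z + K * s := by
      intro σ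
      have := (posSemidef_iff_real.1 h21).2 ![1, -σ]
      simp [dotProduct, Matrix.mulVec, Fin.sum_univ_two] at this
      nlinarith
    have hM1 := hF.one_nonneg
    obtain ⟨hs1, hw1, hxval, hxdev⟩ :=
      node_bound hF hρ ((min_le_left _ _).trans (min_le_right _ _)) hK (by omega)
    set xb : Fin n → ℝ := fun i => M fun ξ => (1 + K * ξ none) * ξ (some i) with hxb
    refine hT _ fun y hy hly hy0 hy1 => ?_
    change 0 ≤ ∑ i, tang p e y i * (z * v i + xb i)
    simp only [mul_add, sum_add_distrib, mul_left_comm _ z, ← mul_sum]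
    set a := ∑ i, tang p e y i * v i
    have ha : 0 ≤ a := H.tang_nonneg hy A.sing.1
    set b := ∑ i, tang p e y i * θ₀ i
    have hdev : |∑ i, tang p e y i * xb i - b * M 1| ≤ n * C * B * (ρ * M 1) := by
      rw [show b * M 1 = ∑ i, tang p e y i * (θ₀ i * M 1) by
        simp only [b, sum_mul, mul_assoc], ← sum_sub_distrib]
      refine (abs_sum_le_sum_abs _ _).trans ((sum_le_sum (g := fun _ => C * (B * (ρ * M 1)))
        fun i _ => ?_).trans (le_of_eq ?_))
      · rw [← mul_sub, abs_mul]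
        refine mul_le_mul ?_ ?_ (abs_nonneg _) hC.le
        · have := hbd _ (fun x hx => H.tang_nonneg hy hx) (H.tang_e hy1) (Pi.single i 1)
          simpa [Pi.single_apply, Pi.norm_single] using this
        · exact hxdev i
      · simp; ring
    have hρB : ρ * (n * C * B + 1) ≤ η := by
      rw [← le_div_iff₀ (by positivity)]
      exact ((min_le_right _ _).trans (min_le_left _ _)).trans (min_le_right _ _)
    have hKρ : ρ * (2 * K) ≤ 1 := by
      rw [← le_div_iff₀ (by positivity)]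
      exact ((min_le_right _ _).trans (min_le_left _ _)).trans (min_le_left _ _)
    have hden' : ρ * (4 * (C * ‖θ₀‖ + 1 + η + 2 * K * η)) ≤ η := by
      rw [← le_div_iff₀ (by positivity)]
      exact (min_le_right _ _).trans (min_le_right _ _)
    have hbC : |b| ≤ C * ‖θ₀‖ := hbd _ (fun x hx => H.tang_nonneg hy hx) (H.tang_e hy1) θ₀
    by_cases hfarcase : η ≤ b ∨ η ≤ a
    · have := node_arith hη hρ hK hM1 hz ha hdev hρB hKρ hden' hw1 hs1 hsc hbC hfarcase
      linarith
    push Not at hfarcase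
    obtain ⟨hb, ha'⟩ := hfarcase
    have hne : y ≠ v := fun h => hy1 (by rw [h]; exact A.sing.2.2.2)
    obtain ⟨hr, hsl, hyk, hEk⟩ := A.coords_spec H hy hly hne
    have hnear := hfar y hy hly hy0 hy1 ha' hb
    set ξ := coords p e v m y with hξ
    have hE1 := hEk hy0
    obtain ⟨g1, g2, g3, g4⟩ := A.grad_relations H hr (hyk ▸ hy) (hyk ▸ hy0) hE1
    have hpos : 0 < 1 + K * ξ none := by positivity
    have hl1 : ∀ f : Fin n → ℝ, ∑ i, ell p v m d K ξ i * f i =
        (∑ i, f i * grad E ξ (some i)) / (1 + K * ξ none) := by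
      intro f; rw [sum_div]; exact sum_congr rfl fun i _ => by rw [ell, ← hEdef]; ring
    set al := ∑ i, ell p v m d K ξ i * v i with hal
    have hal1 : al * (1 + K * ξ none) = -(ξ none ^ 2 * grad E ξ none) := by
      rw [hal, hl1, div_mul_cancel₀ _ hpos.ne', g2]
    have hal0 : 0 ≤ al := by rw [hal, hl1]; exact div_nonneg g4 hpos.le
    have hξ1 : ∀ j, eval ξ (nEq p e v m d j) = 0 := by
      intro j; fin_cases j
      · simpa [nEq] using hE1
      · simpa [eval_nEq_one] using hsl.2.1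
      · simpa [eval_nEq_two] using sub_eq_zero.2 hsl.2.2
    have hlθ : ∑ i, ell p v m d K ξ i * ξ (some i) =
        ξ none * grad E ξ none / (1 + K * ξ none) := by rw [hl1, g1]
    obtain ⟨hz0, hz1⟩ := node_zero (κ := κ) hpos hξ1 hal1 hlθ
    have hcz := hcert ρ₀ L M ξ hρ₀ le_rfl (by omega)
      (hF.mono hρ.le ((min_le_left _ _).trans (min_le_left _ _))) hnear hz0 hz1
    have hmem : ∀ j, (fun η => eval η (nEq p e v m d j)) ∈ Sp c L := by
      intro j; fin_cases j
      · exact Sp_mono c (by omega) hD₀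
      · exact Sp_mono c (by omega) hD₁
      · exact Sp_mono c (by omega) hD₂
    have hlX : 0 ≤ al * z + ∑ i, ell p v m d K ξ i * xb i :=
      node_near (κ := κ) hF hmem hr hpos hal0 hal1 hs1 hxval hsc hcz
    have hfac : ∀ i, ξ none * grad p y i =
        ξ none ^ m * (1 + K * ξ none) * ell p v m d K ξ i := by
      intro i
      rw [ell, mul_assoc, mul_div_cancel₀ _ hpos.ne', g3 i, ← hyk]
    have hsum : ∀ f : Fin n → ℝ, ξ none * ∑ i, tang p e y i * f i =
        ξ none ^ m * (1 + K * ξ none) * (∑ i, ell p v m d K ξ i * f i) / lc p 1 y e := by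
      intro f
      rw [mul_sum, mul_sum, sum_div]
      exact sum_congr rfl fun i _ => by rw [tang, ← mul_assoc, ← mul_assoc, ← hfac]; ring
    refine nonneg_of_mul_nonneg_right ?_ hr
    rw [mul_add, mul_left_comm, hsum, hsum]
    have : 0 ≤ ξ none ^ m * (1 + K * ξ none) * (al * z + ∑ i, ell p v m d K ξ i * xb i) /
        lc p 1 y e :=
      div_nonneg (mul_nonneg (mul_nonneg (pow_nonneg hr.le _) hpos.le) hlX) (hy 1)
    refine this.trans (le_of_eq ?_)
    rw [hal]; ring
  · filter_upwards [Metric.closedBall_mem_nhds c hρ] with ξ hξ hr hsl hE1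
    have hpos : 0 < 1 + K * ξ none := by positivity
    set t := ξ none / (1 + K * ξ none) with ht
    have ht0 : 0 < t := by positivity
    refine ⟨(t • LinearMap.proj ξ, 1), posSemidef_fromBlocks_diag.2 ⟨?_,
      posSemidef_fromBlocks_diag.2 ⟨?_, ?_⟩⟩, ?_⟩
    · rw [map_smul]
      refine (psd_eval L (mem_closedBall_iff_norm.1 hξ) fun j => ?_).smul ht0.le
      fin_cases j
      · simpa [nEq] using hE1
      · simpa [eval_nEq_one] using hsl.2.1
      · simpa [eval_nEq_two] using sub_eq_zero.2 hsl.2.2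
    · refine posSemidef_iff_real.2 ⟨?_, fun x => ?_⟩
      · ext a b; fin_cases a <;> fin_cases b <;> simp
      · simp [dotProduct, Matrix.mulVec, Fin.sum_univ_two, wt]
        have : 0 ≤ t / ξ none * ((1 + K * ξ none) * x 0 + ξ none * x 1) ^ 2 := by positivity
        refine this.trans (le_of_eq ?_)
        rw [ht]; field_simp
    · refine posSemidef_iff_real.2 ⟨by ext a b; simp, fun x => ?_⟩
      simp [dotProduct, Matrix.mulVec]
      nlinarith [mul_self_nonneg (x ())]
    · funext i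
      change (1 : ℝ) * v i + (t • LinearMap.proj ξ : Fn (Option (Fin n)) →ₗ[ℝ] ℝ)
        (fun η => (1 + K * η none) * η (some i)) = _
      simp [ht, ang]
      field_simp

end Vale.Agent.P256.Conical
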