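import Vale.Agent.P256.Conical.Smooth
import Vale.Agent.P256.Conical.Node

/-!
The cone as a sum of finitely many local pieces.
-/

namespace Vale.Agent.P256.Conical

open MvPolynomial Finset Topology Filter

variable {n : ℕ} {p : MvPolynomial (Fin n) ℝ} {d : ℕ} {e : Fin n → ℝ}

theorem Piece.smul_mem (P : Piece n) {x : Fin n → ℝ} (hx : x ∈ P.set) {t : ℝ} (ht : 0 ≤ t) :
    t • x ∈ P.set := by
  obtain ⟨u, hu, rfl⟩ := hx
  exact ⟨t • u, by rw [map_smul]; exact hu.smul ht, map_smul _ _ _⟩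

/-- The boundary of the base. -/
def bd (p : MvPolynomial (Fin n) ℝ) (e : Fin n → ℝ) : Set (Fin n → ℝ) :=
  {y | y ∈ cone p e ∧ l0 p e y = 1 ∧ eval y p = 0}

variable (H : Hyp p d e)
include H

theorem Hyp.ne_zero_of_base {y : Fin n → ℝ} (hy : l0 p e y = 1) : y ≠ 0 := fun h => by
  rw [h] at hy; simp [l0, lc_one] at hy

theorem Hyp.sing_finite :
    {y : Fin n → ℝ | Sing p e y ∧ l0 p e y = 1}.Finite := by
  by_contra hinf
  let f := Set.Infinite.natEmbedding _ hinf
  obtain ⟨v, hv, φ, hφ, hlim⟩ := H.base_bd_compact.tendsto_subseq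
    (x := fun k => (f k : Fin n → ℝ)) fun k => ⟨(f k).2.1.1, (f k).2.2, (f k).2.1.2.2.1⟩
  have hvs : lc p 1 v e = 0 :=
    tendsto_nhds_unique (((continuous_lc p 1 continuous_id continuous_const).tendsto v).comp hlim)
      (tendsto_const_nhds.congr fun k => (f (φ k)).2.1.2.2.2.symm)
  obtain ⟨m, A⟩ := H.atSing (v := v) ⟨hv.1, H.ne_zero_of_base hv.2.1, hv.2.2, hvs⟩ hv.2.1
  have hne : ∃ N, ∀ k, N ≤ k → (f (φ k) : Fin n → ℝ) ≠ v := by
    by_cases h : ∃ k, (f (φ k) : Fin n → ℝ) = v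
    · obtain ⟨k₀, hk₀⟩ := h
      refine ⟨k₀ + 1, fun k hk hkv => ?_⟩
      have : k = k₀ := hφ.injective (f.injective (Subtype.ext (hkv.trans hk₀.symm)))
      omega
    · push Not at h; exact ⟨0, fun k _ => h k⟩
  obtain ⟨N, hN⟩ := hne
  exact A.isolated H (y := fun k => (f (φ (k + N)) : Fin n → ℝ))
    (fun k => ⟨(f _).2.1, (f _).2.2, hN _ (by omega)⟩)
    (hlim.comp (tendsto_add_atTop_nat N))

theorem Hyp.two_le_deg (hn : 2 ≤ n) : 2 ≤ d := by
  by_contra hlt
  have hd : d = 1 := by have := H.deg; omega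
  have hlin : IsLinearMap ℝ (l0 p e) := ⟨l0_add, fun c a => l0_smul c a⟩
  obtain ⟨x, hx, hx0⟩ : ∃ x ∈ LinearMap.ker hlin.mk', x ≠ 0 := by
    refine Submodule.exists_mem_ne_zero_of_ne_bot fun hbot => ?_
    have := LinearMap.finrank_range_add_finrank_ker hlin.mk'
    rw [hbot, finrank_bot, Module.finrank_fin_fun] at this
    have h1 : Module.finrank ℝ (LinearMap.range hlin.mk') ≤ 1 :=
      (Submodule.finrank_le _).trans (le_of_eq (Module.finrank_self ℝ))
    omega
  have hz : lc p 0 x e = 0 := by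
    rw [lc_reflect H.hom (by omega), Nat.sub_zero, hd]
    exact hx
  have hall : ∀ k < d, lc p k x e = 0 := fun k hk => by
    rw [show k = 0 by omega]; exact hz
  have hmem : x ∈ cone p e := by
    have := H.neg_mem (x := -x) (fun k hk => by rw [H.lc_neg hk.le, hall k hk, mul_zero])
    rwa [neg_neg] at this
  exact hx0 (H.pointed x hmem (H.neg_mem hall))

theorem Hyp.tangent_test (hn : 3 ≤ n) (x : Fin n → ℝ)
    (hx : ∀ y ∈ cone p e, l0 p e y = 1 → eval y p = 0 → lc p 1 y e ≠ 0 →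
      0 ≤ ∑ i, tang p e y i * x i) : x ∈ cone p e := by
  classical
  refine H.mem_cone_of_tangent H.sing_finite.toFinset hn (fun y hy hy0 hy1 => ?_)
    (fun y hy hy0 hy1 => ?_)
  · rcases eq_or_ne y 0 with rfl | hne
    · exact ⟨0, Finset.mem_insert_self _ _, 0, by simp⟩
    have hpos := H.l0_pos hy hne
    refine ⟨(l0 p e y)⁻¹ • y, Finset.mem_insert_of_mem (H.sing_finite.mem_toFinset.2
      ⟨⟨H.cone_smul hy (inv_nonneg.2 hpos.le), smul_ne_zero (inv_ne_zero hpos.ne') hne, ?_, ?_⟩, ?_⟩),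
      l0 p e y, by rw [smul_smul, mul_inv_cancel₀ hpos.ne', one_smul]⟩
    · rw [eval_smul H.hom, hy0, mul_zero]
    · rw [H.lc_smul_left _ _ _ H.deg, hy1, mul_zero]
    · rw [l0_smul, inv_mul_cancel₀ hpos.ne']
  · have hd := H.two_le_deg (by omega)
    rcases eq_or_ne y 0 with rfl | hne
    · refine absurd ?_ hy1
      rw [show (0 : Fin n → ℝ) = (0 : ℝ) • e by simp, H.lc_smul_left _ _ _ H.deg,
        zero_pow (by omega), zero_mul]
    have hpos := H.l0_pos hy hne
    have hc : 0 < (l0 p e y)⁻¹ := inv_pos.2 hpos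
    have h := hx ((l0 p e y)⁻¹ • y) (H.cone_smul hy hc.le)
      (by rw [l0_smul, inv_mul_cancel₀ hpos.ne']) (by rw [eval_smul H.hom, hy0, mul_zero])
      (by rw [H.lc_smul_left _ _ _ H.deg]; exact mul_ne_zero (pow_ne_zero _ hc.ne') hy1)
    simp only [tang_apply] at h ⊢
    rwa [H.lc_smul_left _ _ _ H.deg, H.lc_smul_left _ _ _ H.deg,
      mul_div_mul_left _ _ (pow_ne_zero _ hc.ne')] at h

/-- Around every boundary point of the base finitely many pieces suffice. -/
theorem Hyp.local_cover (hn : 3 ≤ n) {x : Fin n → ℝ} (hx : x ∈ bd p e) :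
    ∃ Ps : List (Piece n), (∀ P ∈ Ps, P.set ⊆ cone p e) ∧
      ∀ᶠ y in 𝓝 x, y ∈ bd p e → ∃ P ∈ Ps, y ∈ P.set := by
  classical
  obtain ⟨hxc, hxl, hx0⟩ := hx
  rcases eq_or_lt_of_le (hxc 1) with h1 | h1
  swap
  · obtain ⟨P, hP, hev⟩ := H.smooth_piece (H.tangent_test hn) hxc hxl hx0 h1
    exact ⟨[P], by simpa using hP,
      hev.mono fun y hy hyb => ⟨P, by simp, hy hyb.1 hyb.2.1 hyb.2.2⟩⟩
  obtain ⟨m, A⟩ := H.atSing ⟨hxc, H.ne_zero_of_base hxl, hx0, h1.symm⟩ hxl
  set S := slice p e x m ∩ {θ | eval θ (tp p x m) = 0}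
  have hS : IsCompact S :=
    A.isCompact_slice.inter_right (isClosed_eq (MvPolynomial.continuous_eval _) continuous_const)
  choose P hP hev using fun θ : S => A.node_piece H (H.tangent_test hn) θ.2.1 θ.2.2
  have hopen : ∀ θ : S, ∃ U : Set (Option (Fin n) → ℝ), IsOpen U ∧ pt θ.1 0 ∈ U ∧
      ∀ ξ ∈ U, 0 < ξ none → ang ξ ∈ slice p e x m → eval ξ (eqn p x m d) = 0 →
        x + ξ none • ang ξ ∈ (P θ).set := fun θ => by
    obtain ⟨U, hU, hUo, hmem⟩ := eventually_nhds_iff.1 (hev θ)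
    exact ⟨U, hUo, hmem, hU⟩
  choose U hUo hUm hU using hopen
  obtain ⟨T, hT⟩ := (hS.image (continuous_pt continuous_id continuous_const (g := fun _ => (0 : ℝ)))).elim_finite_subcover
    U hUo (by rintro _ ⟨θ, hθ, rfl⟩; exact Set.mem_iUnion.2 ⟨⟨θ, hθ⟩, hUm ⟨θ, hθ⟩⟩)
  refine ⟨Piece.ray x :: T.toList.map P, ?_, ?_⟩
  · intro Q hQ
    simp only [List.mem_cons, List.mem_map] at hQ
    rcases hQ with rfl | ⟨θ, -, rfl⟩
    · exact Piece.ray_subset x fun t ht => H.cone_smul hxc ht
    · exact hP θ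
  · by_contra hne
    obtain ⟨y, hylim, hy⟩ := exists_seq_forall_of_frequently (not_eventually.1 hne)
    push Not at hy
    have hyx : ∀ k, y k ≠ x := fun k h => (hy k).2 (Piece.ray x) (by simp)
      (by rw [h]; simpa using Piece.mem_ray x zero_le_one)
    obtain ⟨ψ, θ, hψ, hθ, hθ0, hclim⟩ := A.approach H
      (fun k => ⟨(hy k).1.1, (hy k).1.2.1, (hy k).1.2.2, hyx k⟩) hylim
    obtain ⟨θ', hθ'⟩ := Set.mem_iUnion.1 (hT ⟨θ, ⟨hθ, hθ0⟩, rfl⟩)
    obtain ⟨hθ'T, hθ'U⟩ := Set.mem_iUnion.1 hθ'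
    obtain ⟨k, hk⟩ := (hclim.eventually ((hUo θ').mem_nhds hθ'U)).exists
    obtain ⟨hr, hsl, hyk, hE⟩ := A.coords_spec H (hy (ψ k)).1.1 (hy (ψ k)).1.2.1 (hyx (ψ k))
    refine (hy (ψ k)).2 (P θ')
      (List.mem_cons_of_mem _ (List.mem_map.2 ⟨θ', Finset.mem_toList.2 hθ'T, rfl⟩)) ?_
    rw [hyk]
    exact hU θ' _ hk hr hsl (hE (hy (ψ k)).1.2.2)

/-- In dimension at most two the base has finitely many boundary points. -/
theorem Hyp.bd_finite (hn : n ≤ 2) : (bd p e).Finite := by
  classical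
  rcases Set.subsingleton_or_nontrivial (bd p e) with h | h
  · exact h.finite
  obtain ⟨a, ha, b, hb, hab⟩ := h
  refine ((Set.finite_singleton b).insert a).subset fun c hc => ?_
  have hdim : ∀ c ∈ bd p e, ∃ s : ℝ, c = a + s • (b - a) := by
    intro c hc
    have hlin : IsLinearMap ℝ (l0 p e) := ⟨l0_add, fun c a => l0_smul c a⟩
    have hk : Module.finrank ℝ (LinearMap.ker hlin.mk') ≤ 1 := by
      have := LinearMap.finrank_range_add_finrank_ker hlin.mk'
      rw [Module.finrank_fin_fun] at this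
      have he : 0 < Module.finrank ℝ (LinearMap.range hlin.mk') := by
        rw [Module.finrank_pos_iff_exists_ne_zero]
        refine ⟨⟨1, a, ha.2.1⟩, ?_⟩
        simp [Subtype.ext_iff]
      omega
    have hu : b - a ∈ LinearMap.ker hlin.mk' := by
      change l0 p e (b - a) = 0; rw [l0_sub, hb.2.1, ha.2.1, sub_self]
    have hw : c - a ∈ LinearMap.ker hlin.mk' := by
      change l0 p e (c - a) = 0; rw [l0_sub, hc.2.1, ha.2.1, sub_self]
    have hune : (⟨b - a, hu⟩ : LinearMap.ker hlin.mk') ≠ 0 := by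
      simp [sub_eq_zero, Ne.symm hab]
    obtain ⟨g, hg⟩ := (finrank_le_one_iff (K := ℝ)).1 hk
    obtain ⟨α, hα⟩ := hg ⟨b - a, hu⟩
    obtain ⟨β, hβ⟩ := hg ⟨c - a, hw⟩
    have hα0 : α ≠ 0 := fun h0 => hune (by rw [← hα, h0, zero_smul])
    refine ⟨β / α, ?_⟩
    have h1 : α • (g : Fin n → ℝ) = b - a := congrArg Subtype.val hα
    have h2 : β • (g : Fin n → ℝ) = c - a := congrArg Subtype.val hβ
    rw [← h1, smul_smul, div_mul_cancel₀ _ hα0, h2, add_sub_cancel]
  obtain ⟨s, hs⟩ := hdim c hc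
  -- a middle point of three on a line forces the outer two to coincide
  have key : ∀ x ∈ bd p e, ∀ z ∈ bd p e, ∀ t : ℝ, 0 < t → t < 1 →
      x + t • (z - x) ∈ bd p e → x = z := by
    intro x hx z hz t ht ht1 hmid
    refine H.rotund hx.1 hz.1 hx.2.1 hz.2.1 ?_
    have ha' : (1 - t) • x ∈ cone p e := H.cone_smul hx.1 (by linarith)
    have hb' : t • z ∈ cone p e := H.cone_smul hz.1 ht.le
    have h0 : eval ((1 - t) • x + t • z) p = 0 := by
      rw [show (1 - t) • x + t • z = x + t • (z - x) by module]; exact hmid.2.2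
    have h2 := H.span_zero ha' hb' h0 (1 / (1 - t)) (1 / t)
    rwa [smul_smul, smul_smul, one_div_mul_cancel (by linarith : 1 - t ≠ 0),
      one_div_mul_cancel ht.ne', one_smul, one_smul] at h2
  rcases lt_trichotomy s 0 with hlt | rfl | hgt
  · exfalso
    have hs1 : (1 - s) ≠ 0 := by linarith
    have := key c hc b hb (-s / (1 - s)) (div_pos (by linarith) (by linarith))
      (by rw [div_lt_one (by linarith)]; linarith) (by
        have he : c + (-s / (1 - s)) • (b - c) = a := by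
          rw [hs]; funext i; simp; field_simp; ring
        rw [he]; exact ha)
    have h3 : (s - 1) • (b - a) = 0 := by
      have h4 := sub_eq_zero.2 (hs.symm.trans this)
      rw [← h4]; module
    rcases smul_eq_zero.1 h3 with h | h
    · linarith
    · exact hab (sub_eq_zero.1 h).symm
  · left; rw [hs, zero_smul, add_zero]
  · rcases lt_trichotomy s 1 with hlt | rfl | hgt1
    · exfalso
      exact hab (key a ha b hb s hgt hlt (hs ▸ hc))
    · right; rw [hs, one_smul, add_sub_cancel]; rfl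
    · exfalso
      have := key a ha c hc (1 / s) (by positivity) (by rw [div_lt_one hgt]; exact hgt1) (by
        have he : a + (1 / s) • (c - a) = b := by
          rw [hs]; funext i; simp; field_simp; ring
        rw [he]; exact hb)
      have h3 : s • (b - a) = 0 := by
        have h4 := sub_eq_zero.2 (this.trans hs).symm
        rw [← h4]; module
      rcases smul_eq_zero.1 h3 with h | h
      · linarith
      · exact hab (sub_eq_zero.1 h).symm

theorem Hyp.cover :
    ∃ Ps : List (Piece n), (∀ P ∈ Ps, P.set ⊆ cone p e) ∧ ∀ y ∈ bd p e, ∃ P ∈ Ps, y ∈ P.set := by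
  classical
  rcases le_or_gt n 2 with hn | hn
  · refine ⟨(H.bd_finite hn).toFinset.toList.map Piece.ray, ?_, fun y hy => ?_⟩
    · intro Q hQ
      obtain ⟨y, hy, rfl⟩ := List.mem_map.1 hQ
      exact Piece.ray_subset y fun t ht =>
        H.cone_smul ((H.bd_finite hn).mem_toFinset.1 (Finset.mem_toList.1 hy)).1 ht
    · exact ⟨Piece.ray y, List.mem_map.2 ⟨y, Finset.mem_toList.2
        ((H.bd_finite hn).mem_toFinset.2 hy), rfl⟩, by simpa using Piece.mem_ray y zero_le_one⟩
  choose f hf hev using fun x : bd p e => H.local_cover hn x.2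
  obtain ⟨T, hT⟩ := H.base_bd_compact.elim_nhds_subcover'
    (fun x hx => {y | y ∈ bd p e → ∃ P ∈ f ⟨x, hx⟩, y ∈ P.set}) fun x hx => hev ⟨x, hx⟩
  refine ⟨T.toList.flatMap fun x => f ⟨x.1, x.2⟩, ?_, fun y hy => ?_⟩
  · intro Q hQ
    obtain ⟨x, -, hQx⟩ := List.mem_flatMap.1 hQ
    exact hf _ Q hQx
  · obtain ⟨x, hxT, hyx⟩ := Set.mem_iUnion₂.1 (hT hy)
    obtain ⟨P, hP, hyP⟩ := hyx hy
    exact ⟨P, List.mem_flatMap.2 ⟨x, Finset.mem_toList.2 hxT, hP⟩, hyP⟩

/-- The cone is a spectrahedral shadow. -/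
theorem Hyp.isShadow : IsShadow (cone p e) := by
  classical
  obtain ⟨Ps, hPs, hcov⟩ := H.cover
  let F : Option (Fin Ps.length) → Piece n := fun o => o.elim (Piece.ray e) fun i => Ps.get i
  have hF : (Piece.sum F).set = cone p e := by
    refine Set.Subset.antisymm (Piece.sum_subset F H.zero_mem (fun a ha b hb => H.cone_add ha hb)
      fun o => ?_) fun x hx => ?_
    · cases o with
      | none => exact Piece.ray_subset e fun t ht => H.cone_smul (H.inner_subset H.e_inner) ht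
      | some i => exact hPs _ (List.get_mem _ _)
    have he : 0 < l0 p e e := H.l0_pos (H.inner_subset H.e_inner) fun h => by
      have := H.pos
      rw [show e = (0 : ℝ) • e by rw [h]; simp, eval_smul H.hom,
        zero_pow (by have := H.deg; omega), zero_mul] at this
      exact lt_irrefl _ this
    set T := (l0 p e x + 1) / l0 p e e with hT
    have hout : x + (-T) • e ∉ cone p e := fun hc => by
      have h1 : 0 ≤ l0 p e (x + (-T) • e) := H.lc_nonneg hc (H.inner_subset H.e_inner) 1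
      rw [l0_add, l0_smul, hT, neg_mul, div_mul_cancel₀ _ he.ne'] at h1
      linarith
    obtain ⟨t, ht, hyc, hy0⟩ := H.exit_point hout
    have htT : t ≤ T := by
      by_contra hlt
      have := H.inner_pos (H.inner_add_e hx (sub_pos.2 (not_le.1 hlt)))
      rw [show x + (t - T) • e = x + (-T) • e + t • e by module, hy0] at this
      exact lt_irrefl _ this
    set y := x + (-T) • e + t • e with hy
    have hxy : x = y + (T - t) • e := by rw [hy]; module
    have hray : (T - t) • e ∈ (F none).set := Piece.mem_ray e (sub_nonneg.2 htT)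
    rcases eq_or_ne y 0 with hy00 | hy00
    · rw [hxy, hy00, zero_add]
      obtain ⟨u, hu, hu'⟩ := hray
      refine ⟨Pi.single none u, (blockMap_psd F _).2 fun k => ?_, ?_⟩
      · rcases eq_or_ne k none with rfl | hk
        · rw [Pi.single_eq_same]; exact hu
        · rw [Pi.single_eq_of_ne hk, map_zero]; exact Matrix.PosSemidef.zero
      · change ∑ k, (F k).L (Pi.single (M := fun k => (F k).U) none u k) = _
        rw [Finset.sum_eq_single none (fun k _ hk => by simp [Pi.single_eq_of_ne hk]) (by simp),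
          Pi.single_eq_same, hu']
    have hly := H.l0_pos hyc hy00
    obtain ⟨P, hP, hyP⟩ := hcov ((l0 p e y)⁻¹ • y) ⟨H.cone_smul hyc (inv_nonneg.2 hly.le),
      by rw [l0_smul, inv_mul_cancel₀ hly.ne'], by rw [eval_smul H.hom, hy0, mul_zero]⟩
    obtain ⟨i, rfl⟩ := List.mem_iff_get.1 hP
    have hy' : y ∈ (F (some i)).set := by
      have := Piece.smul_mem _ hyP hly.le
      rwa [smul_smul, mul_inv_cancel₀ hly.ne', one_smul] at this
    rw [hxy]
    exact Piece.mem_sum_two F (by simp) hy' hray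
  rw [← hF]
  exact Piece.isShadow _

end Vale.Agent.P256.Conical
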