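import Vale.Agent.P256.Conical.Common

/-!
The local piece at a smooth boundary point.
-/

namespace Vale.Agent.P256.Conical

open MvPolynomial Finset Topology Filter

variable {n : ℕ} {p : MvPolynomial (Fin n) ℝ} {d : ℕ} {e : Fin n → ℝ}

/-- The equations of the boundary of the base. -/
noncomputable def sEq (p : MvPolynomial (Fin n) ℝ) (e : Fin n → ℝ) :
    Fin 2 → MvPolynomial (Fin n) ℝ :=
  ![p, linP (grad p e) - C 1]

theorem eval_sEq_one (ξ : Fin n → ℝ) : eval ξ (sEq p e 1) = l0 p e ξ - 1 := by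
  simp [sEq, eval_linP, l0, lc_one, mul_comm]

/-- The polynomials entering the certificate. -/
noncomputable def sFam (p : MvPolynomial (Fin n) ℝ) (e : Fin n → ℝ) :
    Fin n ⊕ Option (Fin 2) → MvPolynomial (Fin n) ℝ
  | .inl i => X i
  | .inr none => p
  | .inr (some j) => sEq p e j * sEq p e j

/-- The multipliers of the certificate. -/
noncomputable def sLam (p : MvPolynomial (Fin n) ℝ) (κ : ℝ) (ξ : Fin n → ℝ) :
    Fin n ⊕ Option (Fin 2) → ℝ
  | .inl i => grad p ξ i
  | .inr none => -1
  | .inr (some _) => κ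

/-- Coordinates as a linear map on functionals. -/
def coordMap (n : ℕ) : (Fn (Fin n) →ₗ[ℝ] ℝ) →ₗ[ℝ] (Fin n → ℝ) where
  toFun M i := M fun ξ => ξ i
  map_add' _ _ := rfl
  map_smul' _ _ := rfl

variable (H : Hyp p d e)
include H

theorem Hyp.smooth_piece
    (hT : ∀ x : Fin n → ℝ, (∀ y ∈ cone p e, l0 p e y = 1 → eval y p = 0 → lc p 1 y e ≠ 0 →
      0 ≤ ∑ i, tang p e y i * x i) → x ∈ cone p e)
    {c : Fin n → ℝ} (hc : c ∈ cone p e) (hl : l0 p e c = 1) (h0 : eval c p = 0)
    (h1 : 0 < lc p 1 c e) :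
    ∃ P : Piece n, P.set ⊆ cone p e ∧
      ∀ᶠ y in 𝓝 c, y ∈ cone p e → l0 p e y = 1 → eval y p = 0 → y ∈ P.set := by
  classical
  have hd := H.hom.totalDegree_le
  have hc1 : ∀ j, eval c (sEq p e j) = 0 := by
    intro j; fin_cases j
    · simpa [sEq] using h0
    · simpa [eval_sEq_one] using (sub_eq_zero.2 hl)
  have hlin : ∀ v, lc (sEq p e 1) 1 c v = l0 p e v := by
    intro v
    rw [show sEq p e 1 = linP (grad p e) - C 1 from rfl, lc_sub, lc_linP_one, lc_C]
    simp [l0, lc_one, mul_comm]
  have hq0 : ∀ v, lc (sEq p e 0) 1 c v = lc p 1 c v := fun v => by simp [sEq]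
  obtain ⟨κ, -, hκ⟩ := penalty (α := Fin n → ℝ) (fun v => -(2 * lc p 2 c v))
    (fun v => 2 * (lc p 1 c v ^ 2 + l0 p e v ^ 2)) Set.univ
    ((continuous_lc p 2 continuous_const continuous_id).const_mul 2).neg
    ((((continuous_lc p 1 continuous_const continuous_id).pow 2).add
      ((continuous_l0).pow 2)).const_mul 2) isClosed_univ
    (fun t v => by rw [lc_scale hd]; ring)
    (fun t v => by rw [lc_scale hd, l0_smul]; ring)
    (fun _ _ _ => trivial) (fun v => by positivity) (fun v _ hv hP => by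
      have hP1 : lc p 1 c v = 0 := by nlinarith [sq_nonneg (l0 p e v), sq_nonneg (lc p 1 c v)]
      have hP2 : l0 p e v = 0 := by nlinarith [sq_nonneg (l0 p e v), sq_nonneg (lc p 1 c v)]
      linarith [H.strict hc hl h0 h1 hP1 hP2 hv])
  have hlamc : ContinuousAt (fun ξ => sLam p κ ξ) c := by
    refine continuousAt_pi.2 fun a => ?_
    rcases a with i | _ | j
    · exact (MvPolynomial.continuous_eval _).continuousAt
    · exact continuousAt_const
    · exact continuousAt_const
  have hform : ∀ v : Fin n → ℝ, v ≠ 0 → 0 < form (sFam p e) (sLam p κ c) c v := by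
    intro v hv
    have hpen := hκ κ le_rfl v trivial hv
    have hz : lc (sEq p e 1) 2 c v = 0 := by
      rw [show sEq p e 1 = linP (grad p e) - C 1 from rfl, lc_sub, lc_linP_two, lc_C]; simp
    have hz0 : lc (sEq p e 0) 2 c v = lc p 2 c v := by simp [sEq]
    simp only [form, ← lc_two, Fintype.sum_sum_type, Fintype.sum_option, Fin.sum_univ_two, sFam,
      sLam, lc_X, lc_mul_two, hc1, hlin, hq0, hz]
    norm_num
    nlinarith
  obtain ⟨ρ₀, D, hρ₀, hcert⟩ := certificate c (sEq p e) (sFam p e) (sLam p κ) hlamc hform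
  obtain ⟨C, hC, hbd⟩ := H.support_bound
  -- far tangency points
  set T := {z : (Fin n → ℝ) × (Fin n → ℝ) |
    (z.1 ∈ cone p e ∧ l0 p e z.1 = 1 ∧ eval z.1 p = 0) ∧ ρ₀ ≤ ‖z.1 - c‖ ∧
      (∀ x ∈ cone p e, 0 ≤ ∑ i, z.2 i * x i) ∧ ∑ i, z.2 i * e i = 1 ∧
      ∑ i, z.2 i * z.1 i = 0}
  have hTc : IsCompact T := by
    refine (H.base_bd_compact.prod (isCompact_closedBall (0 : Fin n → ℝ) C)).of_isClosed_subset
      ?_ fun z hz => ⟨hz.1, ?_⟩
    · simp only [T, Set.ofPred_and, Set.ofPred_forall]
      refine ((isClosed_cone p e).preimage continuous_fst).inter ((isClosed_eq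
        (continuous_l0.comp continuous_fst) continuous_const).inter (isClosed_eq
        ((MvPolynomial.continuous_eval p).comp continuous_fst) continuous_const)) |>.inter ?_
      refine (isClosed_le continuous_const (by fun_prop)).inter ((isClosed_iInter fun x =>
        isClosed_iInter fun _ => isClosed_le continuous_const (by fun_prop)).inter
        ((isClosed_eq (by fun_prop) continuous_const).inter
          (isClosed_eq (by fun_prop) continuous_const)))
    · rw [mem_closedBall_zero_iff, pi_norm_le_iff_of_nonneg hC.le]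
      intro i
      have := hbd z.2 hz.2.2.1 hz.2.2.2.1 (Pi.single i 1)
      simpa [Pi.single_apply, Pi.norm_single] using this
  obtain ⟨η, hη, hηle⟩ : ∃ η > 0, ∀ z ∈ T, η ≤ ∑ i, z.2 i * c i := by
    rcases T.eq_empty_or_nonempty with hT0 | hT0
    · exact ⟨1, one_pos, by simp [hT0]⟩
    obtain ⟨z, hz, hmin⟩ := hTc.exists_isMinOn hT0 (f := fun z => ∑ i, z.2 i * c i)
      (by fun_prop : Continuous _).continuousOn
    refine ⟨_, ?_, fun w hw => hmin hw⟩
    by_contra hle
    obtain ⟨⟨hzc, hzl, hz0⟩, hfar, hzn, hze, hzy⟩ := hz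
    have := H.rotund hc hzc hl hzl (H.sum_boundary hzn hze hc hzc (by
      rw [hzy, add_zero]; exact not_lt.1 hle))
    rw [← this, sub_self, norm_zero] at hfar
    linarith
  obtain ⟨D₁, hD₁⟩ := poly_mem c (sEq p e 0)
  obtain ⟨D₂, hD₂⟩ := poly_mem c (sEq p e 1)
  set L := D + D₁ + D₂ + 1
  set ρ := min ρ₀ (η / (n * C + 1))
  have hρ : 0 < ρ := by positivity
  refine ⟨⟨Fn (Fin n) →ₗ[ℝ] ℝ, _, coordMap n, momMap c ρ L (sEq p e),
    momMap_symm c ρ L (sEq p e)⟩, ?_, ?_⟩
  · rintro x ⟨M, hM, rfl⟩
    have hF := feas_of_psd hM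
    refine hT _ fun y hy hly hy0 hy1 => ?_
    change 0 ≤ ∑ i, tang p e y i * M (fun ξ => ξ i)
    rcases le_or_gt ρ₀ ‖y - c‖ with hfar | hnear
    · have hge := hηle (y, tang p e y) ⟨⟨hy, hly, hy0⟩, hfar, fun x hx => H.tang_nonneg hy hx,
        H.tang_e hy1, by rw [tang_apply, H.euler hy0, zero_div]⟩
      have hM1 := hF.one_nonneg
      have hb : ∀ i, |tang p e y i * M (fun ξ => ξ i) - tang p e y i * c i * M 1| ≤ C * (ρ * M 1) := by
        intro i
        rw [mul_assoc, ← mul_sub, abs_mul]
        refine mul_le_mul ?_ (hF.coord hρ i (by omega)) (abs_nonneg _) hC.le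
        have := hbd (tang p e y) (fun x hx => H.tang_nonneg hy hx) (H.tang_e hy1) (Pi.single i 1)
        simpa [Pi.single_apply, Pi.norm_single] using this
      have hs : |∑ i, (tang p e y i * M (fun ξ => ξ i) - tang p e y i * c i * M 1)| ≤
          n * (C * (ρ * M 1)) := by
        refine (abs_sum_le_sum_abs _ _).trans ((sum_le_sum fun i _ => hb i).trans ?_)
        simp
      rw [sum_sub_distrib, ← sum_mul] at hs
      have hρη : ρ * (n * C + 1) ≤ η := by
        rw [← le_div_iff₀ (by positivity)]; exact min_le_right _ _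
      nlinarith [(abs_le.1 hs).1, mul_le_mul_of_nonneg_right hρη hM1,
        mul_le_mul_of_nonneg_right hge hM1, mul_nonneg hρ.le hM1]
    · have hy' : ∀ j, eval y (sEq p e j) = 0 := by
        intro j; fin_cases j
        · simpa [sEq] using hy0
        · simpa [eval_sEq_one] using (sub_eq_zero.2 hly)
      have heu : ∑ i, grad p y i * y i = 0 := by
        have := H.euler hy0
        rw [lc_one] at this
        rw [← this]; exact sum_congr rfl fun i _ => mul_comm _ _
      have hcz := hcert ρ₀ L M y hρ₀ le_rfl (by omega) (hF.mono hρ.le (min_le_left _ _)) hnear.le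
        (by simp [Fintype.sum_sum_type, Fintype.sum_option, Fin.sum_univ_two, sFam, sLam, hy', hy0,
          heu])
        (fun i => by
          simp [Fintype.sum_sum_type, Fintype.sum_option, Fin.sum_univ_two, sFam, sLam, grad,
            pderiv_X, Pi.single_apply, pderiv_mul, hy'])
      have hsq : ∀ j, M (fun ξ => eval ξ (sEq p e j * sEq p e j)) = 0 := by
        intro j
        have : (fun ξ => eval ξ (sEq p e j * sEq p e j)) =
            (fun ξ => eval ξ (sEq p e j)) * fun ξ => eval ξ (sEq p e j) := by funext ξ; simp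
        rw [this]
        refine hF.eq_mul ?_ j
        fin_cases j
        · exact Sp_mono c (by omega) hD₁
        · exact Sp_mono c (by omega) hD₂
      have hp0 : M (fun ξ => eval ξ p) = 0 := by simpa [sEq] using hF.eq_one 0
      simp only [Fintype.sum_sum_type, Fintype.sum_option, Fin.sum_univ_two, sFam, sLam, hsq,
        eval_X, hp0] at hcz
      simp only [tang, div_mul_eq_mul_div, ← sum_div]
      exact div_nonneg (by simpa using hcz) (hy 1)
  · filter_upwards [Metric.closedBall_mem_nhds c hρ] with y hy hyc hly hy0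
    refine ⟨LinearMap.proj y, psd_eval L (mem_closedBall_iff_norm.1 hy) (fun j => ?_), rfl⟩
    fin_cases j
    · simpa [sEq] using hy0
    · simpa [eval_sEq_one] using (sub_eq_zero.2 hly)

end Vale.Agent.P256.Conical
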