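import Mathlib

/-!
Univariate real-rooted polynomials.
-/

namespace Vale.Agent.P256.Conical

open Polynomial

/-- Every complex root is real. -/
def RR (q : ℝ[X]) : Prop := ∀ z : ℂ, aeval z q = 0 → z.im = 0

noncomputable def rootsProd (s : Multiset ℝ) : ℝ[X] := (s.map fun r => X - C r).prod

theorem aeval_rootsProd (s : Multiset ℝ) (z : ℂ) :
    aeval z (rootsProd s) = (s.map fun r : ℝ => z - (r : ℂ)).prod := by
  simp [rootsProd, map_multiset_prod, Multiset.map_map]

theorem eval_rootsProd (s : Multiset ℝ) (x : ℝ) :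
    (rootsProd s).eval x = (s.map fun r : ℝ => x - r).prod := by
  simp [rootsProd, eval_multiset_prod, Multiset.map_map]

theorem monic_rootsProd (s : Multiset ℝ) : (rootsProd s).Monic :=
  monic_multiset_prod_of_monic _ _ fun r _ => monic_X_sub_C r

theorem natDegree_rootsProd (s : Multiset ℝ) : (rootsProd s).natDegree = s.card :=
  natDegree_multiset_prod_X_sub_C_eq_card s

theorem RR.factor {q : ℝ[X]} (h : RR q) :
    ∃ (c : ℝ) (s : Multiset ℝ), q = C c * rootsProd s := by
  induction hd : q.natDegree generalizing q with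
  | zero => exact ⟨q.coeff 0, 0, by rw [eq_C_of_natDegree_eq_zero hd]; simp [rootsProd]⟩
  | succ k ih =>
    have hq : q ≠ 0 := by rintro rfl; simp at hd
    obtain ⟨z, hz⟩ := IsAlgClosed.exists_aeval_eq_zero ℂ q
      (fun he => by rw [degree_eq_natDegree hq, hd] at he; exact Nat.cast_ne_zero.2 k.succ_ne_zero he)
    have hzr : z = ((z.re : ℝ) : ℂ) := Complex.ext rfl (by simp [h z hz])
    have hr : q.IsRoot z.re := by
      rw [hzr, ← Complex.coe_algebraMap, aeval_algebraMap_apply] at hz
      simpa [IsRoot, coe_aeval_eq_eval] using hz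
    obtain ⟨q', rfl⟩ := dvd_iff_isRoot.2 hr
    have hq' : q' ≠ 0 := right_ne_zero_of_mul hq
    obtain ⟨c, s, hs⟩ := ih (q := q') (fun w hw => h w (by simp [hw]))
      (by rw [natDegree_mul (X_sub_C_ne_zero _) hq', natDegree_X_sub_C] at hd; omega)
    refine ⟨c, z.re ::ₘ s, ?_⟩
    rw [hs, rootsProd, rootsProd, Multiset.map_cons, Multiset.prod_cons]
    ring

theorem rr_of_factor (c : ℝ) (hc : c ≠ 0) (s : Multiset ℝ) : RR (C c * rootsProd s) := by
  intro z hz
  rw [map_mul, aeval_C, aeval_rootsProd, mul_eq_zero] at hz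
  rcases hz with hz | hz
  · simp [hc] at hz
  · obtain ⟨r, _, hr⟩ := Multiset.mem_map.1 (Multiset.prod_eq_zero_iff.1 hz)
    simp [sub_eq_zero.1 hr]

theorem RR.derivative {q : ℝ[X]} (h : RR q) (h' : derivative q ≠ 0) : RR (derivative q) := by
  obtain ⟨c, s, rfl⟩ := h.factor
  have hc : c ≠ 0 := by rintro rfl; simp at h'
  set q : ℝ[X] := C c * rootsProd s
  have hcard : q.roots.card = q.natDegree := by
    rw [roots_C_mul _ hc, rootsProd, roots_multiset_prod_X_sub_C, natDegree_C_mul hc, natDegree_rootsProd]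
  have hd : (Polynomial.derivative q).roots.card = (Polynomial.derivative q).natDegree := by
    refine le_antisymm (card_roots' _) ?_
    have h1 := card_roots_le_derivative q
    have h2 := natDegree_derivative_le q
    omega
  rw [← C_leadingCoeff_mul_prod_multiset_X_sub_C hd]
  exact rr_of_factor _ (leadingCoeff_ne_zero.2 h') _

theorem RR.iterate_derivative {q : ℝ[X]} (h : RR q) :
    ∀ i, (Polynomial.derivative^[i] q) ≠ 0 → RR (Polynomial.derivative^[i] q)
  | 0, _ => h
  | i + 1, hi => by
    rw [Function.iterate_succ_apply'] at hi ⊢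
    exact (h.iterate_derivative i fun h0 => hi (by rw [h0, map_zero])).derivative hi

/-- A real-rooted polynomial with positive top coefficient and no positive root has nonnegative
coefficients. -/
theorem RR.coeff_nonneg {q : ℝ[X]} (h : RR q) (hl : 0 < q.leadingCoeff)
    (hr : ∀ x : ℝ, 0 < x → q.eval x ≠ 0) : ∀ k, 0 ≤ q.coeff k := by
  obtain ⟨c, s, rfl⟩ := h.factor
  have hc : 0 < c := by
    simpa [leadingCoeff_mul, (monic_rootsProd s).leadingCoeff] using hl
  have hs : ∀ r ∈ s, r ≤ 0 := fun r hrs => by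
    by_contra hr'
    refine hr r (not_le.1 hr') ?_
    rw [eval_mul, eval_rootsProd, Multiset.prod_eq_zero (Multiset.mem_map.2 ⟨r, hrs, sub_self r⟩),
      mul_zero]
  suffices ∀ k, 0 ≤ (rootsProd s).coeff k by
    intro k; rw [coeff_C_mul]; exact mul_nonneg hc.le (this k)
  clear h hl hr
  induction s using Multiset.induction_on with
  | empty => intro k; simp only [rootsProd, Multiset.map_zero, Multiset.prod_zero, coeff_one]; split_ifs <;> norm_num
  | cons r t ih =>
    intro k
    have ih' := ih fun x hx => hs x (Multiset.mem_cons_of_mem hx)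
    rw [rootsProd, Multiset.map_cons, Multiset.prod_cons, ← rootsProd, sub_mul]
    rcases k with _ | k
    · simpa using mul_nonpos_of_nonpos_of_nonneg (hs r (Multiset.mem_cons_self r t)) (ih' 0)
    · simp only [coeff_sub, coeff_X_mul, coeff_C_mul]
      nlinarith [ih' k, mul_nonpos_of_nonpos_of_nonneg (hs r (Multiset.mem_cons_self r t))
        (ih' (k + 1))]

/-- A real-rooted polynomial with positive top coefficient and no nonnegative root has positive
coefficients. -/
theorem RR.coeff_pos {q : ℝ[X]} (h : RR q) (hl : 0 < q.leadingCoeff)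
    (hr : ∀ x : ℝ, 0 ≤ x → q.eval x ≠ 0) : ∀ k ≤ q.natDegree, 0 < q.coeff k := by
  obtain ⟨c, s, rfl⟩ := h.factor
  have hc : 0 < c := by
    simpa [leadingCoeff_mul, (monic_rootsProd s).leadingCoeff] using hl
  have hs : ∀ r ∈ s, r < 0 := fun r hrs => by
    by_contra hr'
    refine hr r (not_lt.1 hr') ?_
    rw [eval_mul, eval_rootsProd, Multiset.prod_eq_zero (Multiset.mem_map.2 ⟨r, hrs, sub_self r⟩),
      mul_zero]
  suffices ∀ k ≤ s.card, 0 < (rootsProd s).coeff k by
    intro k hk; rw [coeff_C_mul]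
    rw [natDegree_C_mul hc.ne', natDegree_rootsProd] at hk
    exact mul_pos hc (this k hk)
  clear h hl hr
  induction s using Multiset.induction_on with
  | empty => intro k hk; simp only [Multiset.card_zero] at hk; simp [rootsProd, Nat.le_zero.1 hk]
  | cons r t ih =>
    intro k hk
    have ih' := ih fun x hx => hs x (Multiset.mem_cons_of_mem hx)
    have hrn := hs r (Multiset.mem_cons_self r t)
    have hnn : ∀ j, 0 ≤ (rootsProd t).coeff j := fun j => by
      rcases le_or_gt j t.card with hj | hj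
      · exact (ih' j hj).le
      · rw [coeff_eq_zero_of_natDegree_lt (by rwa [natDegree_rootsProd])]
    rw [rootsProd, Multiset.map_cons, Multiset.prod_cons, ← rootsProd, sub_mul]
    rcases k with _ | k
    · simpa using mul_neg_of_neg_of_pos hrn (ih' 0 (Nat.zero_le _))
    · simp only [coeff_sub, coeff_X_mul, coeff_C_mul]
      rw [Multiset.card_cons] at hk
      nlinarith [ih' k (by omega), hnn (k + 1)]

theorem eval_eq_sum_coeff {q : ℝ[X]} {d : ℕ} (hd : q.natDegree ≤ d) (x : ℝ) :
    q.eval x = ∑ k ∈ Finset.range (d + 1), q.coeff k * x ^ k :=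
  eval_eq_sum_range' (by omega) x

/-- Nonnegative coefficients and a positive top coefficient exclude positive roots. -/
theorem eval_pos_of_coeff_nonneg {q : ℝ[X]} {d : ℕ} (hd : q.natDegree ≤ d)
    (h : ∀ k, 0 ≤ q.coeff k) {j : ℕ} (hj : j ≤ d) (hjp : 0 < q.coeff j) {x : ℝ} (hx : 0 < x) :
    0 < q.eval x := by
  rw [eval_eq_sum_coeff hd]
  exact Finset.sum_pos' (fun k _ => mul_nonneg (h k) (by positivity))
    ⟨j, Finset.mem_range.2 (by omega), mul_pos hjp (by positivity)⟩

private theorem prod_bound (A : ℝ) (hA : 0 ≤ A) (s : Multiset ℝ) (hs : ∀ w ∈ s, |w| ≤ A) :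
    ∀ k, |((s.map fun w => 1 + C w * X).prod : ℝ[X]).coeff k| ≤ (1 + A) ^ s.card := by
  induction s using Multiset.induction_on with
  | empty => intro k; simp only [Multiset.map_zero, Multiset.prod_zero, coeff_one]; split_ifs <;> simp
  | cons w t ih =>
    intro k
    have ih' := ih fun x hx => hs x (Multiset.mem_cons_of_mem hx)
    have hw := hs w (Multiset.mem_cons_self w t)
    rw [Multiset.map_cons, Multiset.prod_cons, Multiset.card_cons, add_mul, one_mul, mul_assoc,
      coeff_add, coeff_C_mul, pow_succ]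
    have h1 := ih' k
    rcases k with _ | k
    · simp only [coeff_X_mul_zero, mul_zero, add_zero]
      nlinarith [pow_nonneg (show 0 ≤ 1 + A by linarith) t.card]
    · rw [coeff_X_mul]
      refine (abs_add_le _ _).trans ?_
      rw [abs_mul]
      nlinarith [mul_le_mul hw (ih' k) (abs_nonneg _) hA]

private theorem prod_coeffs (s : Multiset ℝ) :
    ((s.map fun w => 1 + C w * X).prod : ℝ[X]).coeff 0 = 1 ∧
      ((s.map fun w => 1 + C w * X).prod : ℝ[X]).coeff 1 = s.sum ∧
      2 * ((s.map fun w => 1 + C w * X).prod : ℝ[X]).coeff 2 =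
        s.sum ^ 2 - (s.map fun w => w ^ 2).sum := by
  induction s using Multiset.induction_on with
  | empty => simp [coeff_one]
  | cons w t ih =>
    obtain ⟨h0, h1, h2⟩ := ih
    simp only [Multiset.map_cons, Multiset.prod_cons, Multiset.sum_cons, add_mul, one_mul,
      mul_assoc, coeff_add, coeff_C_mul, coeff_X_mul_zero, coeff_X_mul]
    refine ⟨by rw [h0]; ring, by rw [h0, h1]; ring, ?_⟩
    rw [h1]
    linear_combination h2

/-- The key estimate: three consecutive small low coefficients force all coefficients to be small.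
-/
theorem RR.coeff_bound {q : ℝ[X]} (h : RR q) {d : ℕ} (hd : q.natDegree ≤ d) {A : ℝ} (hA : 0 ≤ A)
    (h0 : q.coeff 0 ≠ 0) (h1 : |q.coeff 1| ≤ A * |q.coeff 0|)
    (h2 : |q.coeff 2| ≤ A * |q.coeff 0|) :
    ∀ k, |q.coeff k| ≤ (2 + A) ^ d * |q.coeff 0| := by
  obtain ⟨c, s, rfl⟩ := h.factor
  have hc : c ≠ 0 := by rintro rfl; simp at h0
  rw [natDegree_C_mul hc, natDegree_rootsProd] at hd
  have hne : ∀ r ∈ s, r ≠ 0 := by
    rintro r hr rfl
    apply h0
    rw [coeff_zero_eq_eval_zero, eval_mul, eval_rootsProd,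
      Multiset.prod_eq_zero (Multiset.mem_map.2 ⟨0, hr, sub_self 0⟩), mul_zero]
  set P : ℝ[X] := (s.map fun r => 1 + C (-r⁻¹) * X).prod with hP
  have hq : C c * rootsProd s = C (c * (s.map fun r => -r).prod) * P := by
    rw [C_mul, mul_assoc, hP, map_multiset_prod, Multiset.map_map, ← Multiset.prod_map_mul,
      rootsProd]
    refine congrArg _ (congrArg Multiset.prod (Multiset.map_congr rfl fun r hr => ?_))
    simp only [Function.comp_apply]
    rw [mul_add, mul_one, ← mul_assoc, ← C_mul, neg_mul_neg, mul_inv_cancel₀ (hne r hr), C_1,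
      one_mul, C_neg]
    ring
  set c₀ : ℝ := c * (s.map fun r => -r).prod
  have hP' : P = ((s.map fun r => -r⁻¹).map fun w => 1 + C w * X).prod := by
    rw [hP, Multiset.map_map]; rfl
  set t : Multiset ℝ := s.map fun r => -r⁻¹
  obtain ⟨p0, p1, p2⟩ := prod_coeffs t
  rw [← hP'] at p0 p1 p2
  simp only [hq, coeff_C_mul, p0, mul_one, abs_mul] at h0 h1 h2 ⊢
  have hc0 : 0 < |c₀| := abs_pos.2 h0
  rw [mul_comm A, mul_le_mul_iff_of_pos_left hc0] at h1 h2
  rw [p1] at h1
  have ht : ∀ w ∈ t, |w| ≤ A + 1 := by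
    intro w hw
    have hle : w ^ 2 ≤ (t.map fun w => w ^ 2).sum :=
      Multiset.single_le_sum (fun x hx => by
        obtain ⟨y, _, rfl⟩ := Multiset.mem_map.1 hx; positivity) _ (Multiset.mem_map_of_mem _ hw)
    have hs2 : t.sum ^ 2 ≤ A ^ 2 := by
      rw [← sq_abs]; exact pow_le_pow_left₀ (abs_nonneg _) h1 2
    have hsq : w ^ 2 ≤ (A + 1) ^ 2 := by nlinarith [abs_le.1 h2]
    exact abs_le_of_sq_le_sq hsq (by linarith)
  intro k
  rw [mul_comm ((2 + A) ^ d)]
  refine mul_le_mul_of_nonneg_left ?_ hc0.le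
  calc |P.coeff k| ≤ (1 + (A + 1)) ^ t.card := hP' ▸ prod_bound (A + 1) (by linarith) t ht k
    _ ≤ (2 + A) ^ d := by
        rw [show 1 + (A + 1) = 2 + A by ring]
        exact pow_le_pow_right₀ (by linarith) (by simpa [t] using hd)

/-- A nonzero polynomial whose modulus grows away from the real axis is real-rooted. -/
theorem rr_of_mono {q : ℝ[X]} (hq : q ≠ 0)
    (h : ∀ a b b' : ℝ, |b'| ≤ |b| → ‖aeval (Complex.mk a b') q‖ ≤ ‖aeval (Complex.mk a b) q‖) :
    RR q := by
  intro z hz
  by_contra hb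
  refine hq ?_
  have hinf : {x : ℝ | |x| ≤ |z.im|}.Infinite := by
    refine (Set.Ioo_infinite (abs_pos.2 hb)).mono fun x hx => ?_
    simp only [Set.mem_ofPred_eq, abs_of_pos hx.1]
    exact hx.2.le
  have hmap : q.map (algebraMap ℝ ℂ) = 0 := by
    refine Polynomial.eq_zero_of_infinite_isRoot _
      (Set.Infinite.mono ?_ (hinf.image (f := fun x : ℝ => Complex.mk z.re x) ?_))
    · rintro _ ⟨x, hx, rfl⟩
      have := h z.re z.im x hx
      rw [Complex.eta, hz, norm_zero, norm_le_zero_iff] at this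
      simpa [IsRoot, eval_map, ← aeval_def] using this
    · intro x _ y _ hxy
      exact congrArg Complex.im hxy
  exact (Polynomial.map_eq_zero_iff (algebraMap ℝ ℂ).injective).1 hmap

theorem RR.norm_mono {q : ℝ[X]} (h : RR q) (a b b' : ℝ) (hb : |b'| ≤ |b|) :
    ‖aeval (Complex.mk a b') q‖ ≤ ‖aeval (Complex.mk a b) q‖ := by
  obtain ⟨c, s, rfl⟩ := h.factor
  simp only [map_mul, aeval_C, aeval_rootsProd, norm_mul]
  refine mul_le_mul_of_nonneg_left ?_ (norm_nonneg _)
  clear h
  induction s using Multiset.induction_on with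
  | empty => simp
  | cons r t ih =>
    simp only [Multiset.map_cons, Multiset.prod_cons, norm_mul]
    refine mul_le_mul ?_ ih (norm_nonneg _) (norm_nonneg _)
    refine (sq_le_sq₀ (norm_nonneg _) (norm_nonneg _)).1 ?_
    rw [Complex.sq_norm, Complex.sq_norm, Complex.normSq_apply, Complex.normSq_apply]
    simp only [Complex.sub_re, Complex.sub_im, Complex.ofReal_re, Complex.ofReal_im, sub_zero]
    nlinarith [mul_self_le_mul_self (abs_nonneg b') hb, abs_mul_abs_self b', abs_mul_abs_self b]

end Vale.Agent.P256.Conical
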